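import Vale.Agent.P073Y.Fi.Sk
import Vale.Agent.P073Y.Bd.Bas

/-!
# Counting the selected arcs
-/

open Set Metric Topology Filter MeasureTheory
open scoped NNReal ENNReal

namespace P073.Fi

open P073.Bd (Band I cl Match Sgn Comm Ext PwLip)

namespace Cnt

/-- disjoint intervals of the same length in an interval -/
theorem cnt {τ : Type} (s : Finset τ) (T : τ → Set ℝ) {c d δ : ℝ} (hcd : c ≤ d)
    (hT : ∀ e ∈ s, ∀ e' ∈ s, e ≠ e' → Disjoint (T e) (T e'))
    (hm : ∀ e ∈ s, ∃ m, Icc (m - δ) m ⊆ T e ∧ c ≤ m - δ ∧ m ≤ d) : s.card * δ ≤ d - c := by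
  choose! m h1 h2 h3 using hm
  have k := measure_biUnion_finset (μ := volume) (s := s) (f := fun e => Icc (m e - δ) (m e))
    (fun e he e' he' hne => (hT e he e' he' hne).mono (h1 e he) (h1 e' he'))
    fun _ _ => measurableSet_Icc
  have k2 : volume (⋃ e ∈ s, Icc (m e - δ) (m e)) ≤ volume (Icc c d) :=
    measure_mono (iUnion₂_subset fun e he => Icc_subset_Icc (h2 e he) (h3 e he))
  rw [k] at k2
  simp only [Real.volume_Icc, sub_sub_cancel, Finset.sum_const, nsmul_eq_mul] at k2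
  rw [← ENNReal.ofReal_natCast, ← ENNReal.ofReal_mul (Nat.cast_nonneg _),
    ENNReal.ofReal_le_ofReal_iff (by linarith)] at k2
  exact k2

theorem two (i j : Fin 2) : j = i ∨ j = i.rev := by revert i j; decide

theorem sq_iff {x : E2} (i : Fin 2) :
    x ∈ Sq ↔ (|x i| ≤ 1 ∧ |x i.rev| ≤ 1) ∧ (|x i| = 1 ∨ |x i.rev| = 1) := by
  have h : ‖x‖ = max |x i| |x i.rev| := by
    refine le_antisymm ((pi_norm_le_iff_of_nonneg (by positivity)).2 fun j => ?_)
      (max_le (norm_le_pi_norm x i) (norm_le_pi_norm x i.rev))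
    have := two i j
    rcases this with rfl | rfl
    · exact le_max_left _ _
    · exact le_max_right _ _
  rw [mem_sphere_zero_iff_norm, h, max_eq_iff]
  constructor
  · rintro (k | k)
    · exact ⟨⟨k.1.le, k.1 ▸ k.2⟩, .inl k.1⟩
    · exact ⟨⟨k.1 ▸ k.2, k.1.le⟩, .inr k.1⟩
  · rintro ⟨k1, k | k⟩
    · exact .inl ⟨k, k ▸ k1.2⟩
    · exact .inr ⟨k, k ▸ k1.1⟩

/-- the two signs -/
def rr (b : Bool) : ℝ := if b then 1 else -1

theorem rr_or (b : Bool) : rr b = 1 ∨ rr b = -1 := by cases b <;> simp [rr]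

theorem abs_rr (b : Bool) : |rr b| = 1 := by cases b <;> simp [rr]

theorem rr_inj {b b' : Bool} (h : rr b = rr b') : b = b' := by
  cases b <;> cases b' <;> simp [rr] at h ⊢ <;> linarith

theorem lt_or {x : E2} (h : |x 0| < 1 ∨ |x 1| < 1) (i : Fin 2) : |x i| < 1 ∨ |x i.rev| < 1 := by
  fin_cases i
  · exact h
  · exact h.symm

/-- a connected set without corners lies in one side -/
theorem side {Z : Set E2} (hZ : IsPreconnected Z) (hS : Z ⊆ Sq) {y : E2} (hy : y ∈ Z)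
    (hc : ∀ x ∈ Z, |x 0| < 1 ∨ |x 1| < 1) :
    ∃ σ : Fin 2 × Bool, ∀ x ∈ Z, x σ.1.rev = rr σ.2 ∧ |x σ.1| < 1 := by
  obtain ⟨i, b, hi⟩ : ∃ (i : Fin 2) (b : Bool), y i.rev = rr b := by
    rcases ((sq_iff 0).1 (hS hy)).2 with k | k <;> rcases (abs_eq zero_le_one).1 k with k | k
    exacts [⟨1, true, k⟩, ⟨1, false, k⟩, ⟨0, true, k⟩, ⟨0, false, k⟩]
  have key : ∀ x ∈ Z, x i.rev = rr b → |x i| < 1 := fun x hx k =>
    (lt_or (hc x hx) i).resolve_right (by rw [k, abs_rr]; exact lt_irrefl _)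
  refine ⟨(i, b), fun x hx => ?_⟩
  suffices k : x i.rev = rr b from ⟨k, key x hx k⟩
  by_contra hn
  have cov : ∀ w ∈ Z, w i.rev ≠ rr b → w i.rev = -rr b ∨ |w i| = 1 := fun w hw k => by
    rcases ((sq_iff i).1 (hS hw)).2 with k1 | k1
    · exact .inr k1
    · exact .inl ((abs_eq_abs.1 (k1.trans (abs_rr b).symm)).resolve_left k)
  obtain ⟨w, hw, k1, k2⟩ := isPreconnected_closed_iff.1 hZ {w | w i.rev = rr b}
    {w | w i.rev = -rr b ∨ |w i| = 1} (isClosed_eq (by fun_prop) continuous_const)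
    ((isClosed_eq (by fun_prop) continuous_const).union
      (isClosed_eq (by fun_prop) continuous_const))
    (fun w hw => by
      by_cases k : w i.rev = rr b
      · exact .inl k
      · exact .inr (cov w hw k)) ⟨y, hy, hi⟩ ⟨x, hx, cov x hx hn⟩
  rcases k2 with k2 | k2
  · have := rr_or b
    have k1 : w i.rev = rr b := k1
    rcases this with k | k <;> linarith
  · exact (key w hw k1).ne k2

theorem pt_same (i : Fin 2) (s r : ℝ) : pt i s r i = s := if_pos rfl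

theorem pt_rev (i : Fin 2) (s r : ℝ) : pt i s r i.rev = r := if_neg (by revert i; decide)

theorem pt_mem (i : Fin 2) {s : ℝ} (hs : |s| ≤ 1) (b : Bool) : pt i s (rr b) ∈ Sq := by
  rw [sq_iff i, pt_same, pt_rev, abs_rr]
  exact ⟨⟨hs, le_rfl⟩, .inr rfl⟩

theorem ext2 (i : Fin 2) {x x' : E2} (h : x i = x' i) (h' : x i.rev = x' i.rev) : x = x' := by
  funext j
  have := two i j
  rcases this with rfl | rfl <;> assumption

/-- a zone is long -/
theorem long {z : Band E2} {y : E2} {Λ : ℝ≥0} (hz : z.Ok) (hW : z.W = {y})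
    (hL : LipschitzOnWith Λ z.half.half.u z.half.half.B) (hΛ : (0 : ℝ) < Λ) {i : Fin 2} {r : ℝ}
    (hs : ∀ x ∈ z.B, x i.rev = r) : ∃ a ∈ z.B, ∃ b ∈ z.B, a i + 2 / Λ ≤ b i := by
  have hy : y ∈ z.B := (hW ▸ mem_singleton y : y ∈ z.W).1
  have key : ∀ s : ℝ, s = 1 ∨ s = -1 → ∃ a ∈ z.B, a ∈ z.half.half.B ∧ z.half.half.u a = s := by
    intro s hs
    obtain ⟨h1, h2⟩ := hz.Mmem y hy (s / 4) (by rcases hs with rfl | rfl <;> norm_num)
    refine ⟨_, h1, ⟨⟨h1, ?_⟩, ?_⟩, ?_⟩ <;> simp only [Band.half, h2, cl] <;>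
      rcases hs with rfl | rfl <;> norm_num [abs_le]
  obtain ⟨a, a1, a2, a3⟩ := key 1 (.inl rfl)
  obtain ⟨b, b1, b2, b3⟩ := key (-1) (.inr rfl)
  have k := hL.dist_le_mul a a2 b b2
  have k2 : dist a b ≤ |a i - b i| := (dist_pi_le_iff (abs_nonneg _)).2 fun j => by
    have := two i j
    rcases this with rfl | rfl
    · exact le_rfl
    · rw [hs a a1, hs b b1, dist_self]; exact abs_nonneg _
  have k3 : 2 / Λ ≤ |a i - b i| := by
    rw [a3, b3, Real.dist_eq] at k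
    rw [div_le_iff₀ hΛ]
    norm_num at k
    nlinarith
  rcases le_abs.1 k3 with k4 | k4
  · exact ⟨b, b1, a, a1, by linarith⟩
  · exact ⟨a, a1, b, b1, by linarith⟩

variable {L Λ : ℝ≥0} {κ : Type}

/-- the ends -/
def yy (D : Dat L Λ κ) (e : κ × Bool) : E2 := if e.2 then D.p e.1 else D.q e.1

theorem yy_mem (D : Dat L Λ κ) (e : κ × Bool) : yy D e ∈ ({D.p e.1, D.q e.1} : Set E2) := by
  unfold yy
  split_ifs <;> simp

theorem yy_inj (D : Dat L Λ κ) {e e' : κ × Bool} (h : e ≠ e') : yy D e ≠ yy D e' := by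
  intro k
  by_cases h1 : e.1 = e'.1
  · obtain ⟨φ, h2, h3⟩ := (D.arc e.1).1
    have h4 : D.p e.1 ≠ D.q e.1 := fun h5 => by
      have := φ.left_inv (show (0 : ℝ) ∈ Icc (0 : ℝ) 1 by simp)
      rw [h2, h5, ← h3, φ.left_inv (show (1 : ℝ) ∈ Icc (0 : ℝ) 1 by simp)] at this
      exact one_ne_zero this
    obtain ⟨k1, b⟩ := e
    obtain ⟨k2, b'⟩ := e'
    obtain rfl : k1 = k2 := h1
    cases b <;> cases b'
    exacts [h rfl, h4 k.symm, h4 k, h rfl]
  · exact Set.disjoint_left.1 (D.ends _ _ h1) (yy_mem D e) (k ▸ yy_mem D e')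

theorem sides (D : Dat L Λ κ) : ∃ σ : κ × Bool → Fin 2 × Bool, ∀ e, ∀ x ∈ (D.z (yy D e)).B,
    x (σ e).1.rev = rr (σ e).2 ∧ |x (σ e).1| < 1 := by
  refine (Classical.skolem (p := fun e (σ : Fin 2 × Bool) => ∀ x ∈ (D.z (yy D e)).B,
    x σ.1.rev = rr σ.2 ∧ |x σ.1| < 1)).1 fun e => ?_
  obtain ⟨h1, h2, h3, h4, -⟩ := D.zone e.1 _ (yy_mem D e)
  exact side ((Bd.bas E2).pre h1 (h3 ▸ isPreconnected_singleton)).1 h2.1
    (h3 ▸ mem_singleton _ : yy D e ∈ (D.z (yy D e)).W).1 h4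

open Classical in
/-- the number of ends on a side, and near a corner -/
theorem ends [Fintype κ] (D : Dat L Λ κ) {σ : κ × Bool → Fin 2 × Bool}
    (hσ : ∀ e, ∀ x ∈ (D.z (yy D e)).B, x (σ e).1.rev = rr (σ e).2 ∧ |x (σ e).1| < 1)
    (hΛ : (0 : ℝ) < Λ) {ζ : ℝ} (hζ : 0 < ζ) (t : Fin 2 × Bool) :
    ((Finset.univ.filter fun e => σ e = t).card : ℝ) ≤ Λ ∧ ∀ b : Bool,
      ((Finset.univ.filter fun e => σ e = t ∧
        ∃ x ∈ (D.z (yy D e)).B, 1 - 2 * ζ ≤ rr b * x t.1).card : ℝ) ≤ ζ * Λ + 1 := by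
  have hδ : (0 : ℝ) < 2 / Λ := by positivity
  have key : ∀ (b : Bool) (c : ℝ) (s : Finset (κ × Bool)), c ≤ 1 →
      (∀ e ∈ s, σ e = t ∧ (c ≤ -1 ∨ ∃ x ∈ (D.z (yy D e)).B, c + 2 / Λ ≤ rr b * x t.1)) →
      s.card * (2 / (Λ : ℝ)) ≤ 1 - c := by
    intro b c s hc hs
    refine cnt s (fun e => (fun x : E2 => rr b * x t.1) '' (D.z (yy D e)).B) hc
      (fun e he e' he' hne => ?_) fun e he => ?_
    · refine Set.disjoint_left.2 ?_
      rintro _ ⟨x, hx, rfl⟩ ⟨x', hx', k⟩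
      have k1 := (hσ e x hx).1
      have k2 := (hσ e' x' hx').1
      rw [(hs e he).1] at k1
      rw [(hs e' he').1] at k2
      have k3 : x' = x := ext2 t.1
        (mul_left_cancel₀ (by rcases rr_or b with h | h <;> rw [h] <;> norm_num) k)
        (k2.trans k1.symm)
      exact Set.disjoint_left.1 (D.zdisj _ _ _ (yy_mem D e) _ (yy_mem D e') (yy_inj D hne)) hx
        (k3 ▸ hx')
    obtain ⟨h1, -, h3, -, -, h6⟩ := D.zone e.1 _ (yy_mem D e)
    have h7 := hσ e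
    rw [(hs e he).1] at h7
    have oc := (((Bd.bas E2).pre h1 (h3 ▸ isPreconnected_singleton)).1.image
      (fun x : E2 => rr b * x t.1) (by fun_prop)).ordConnected
    have bd : ∀ x ∈ (D.z (yy D e)).B, -1 ≤ rr b * x t.1 ∧ rr b * x t.1 ≤ 1 := fun x hx =>
      abs_le.1 (by rw [abs_mul, abs_rr, one_mul]; exact (h7 x hx).2.le)
    obtain ⟨a, ha, a', ha', k⟩ : ∃ a ∈ (D.z (yy D e)).B, ∃ a' ∈ (D.z (yy D e)).B,
        rr b * a t.1 + 2 / Λ ≤ rr b * a' t.1 := by
      obtain ⟨a, ha, a', ha', k⟩ := long h1 h3 h6 hΛ fun x hx => (h7 x hx).1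
      rcases rr_or b with h | h <;> rw [h]
      · exact ⟨a, ha, a', ha', by linarith⟩
      · exact ⟨a', ha', a, ha, by linarith⟩
    obtain ⟨x, hx, k1, k2⟩ : ∃ x ∈ (D.z (yy D e)).B, rr b * a t.1 + 2 / Λ ≤ rr b * x t.1 ∧
        c + 2 / Λ ≤ rr b * x t.1 := by
      rcases (hs e he).2 with h | ⟨x, hx, h⟩
      · exact ⟨a', ha', k, by linarith [(bd a ha).1]⟩
      · rcases le_total (rr b * a' t.1) (rr b * x t.1) with h' | h'
        · exact ⟨x, hx, k.trans h', h⟩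
        · exact ⟨a', ha', k, h.trans h'⟩
    exact ⟨rr b * x t.1, (Icc_subset_Icc_left (by linarith)).trans
      (oc.out ⟨a, ha, rfl⟩ ⟨x, hx, rfl⟩), by linarith, (bd x hx).2⟩
  refine ⟨?_, fun b => ?_⟩
  · have k := key true (-1) (Finset.univ.filter fun e => σ e = t) (by norm_num) fun e he =>
      ⟨(Finset.mem_filter.1 he).2, .inl le_rfl⟩
    rw [← mul_div_assoc, div_le_iff₀ hΛ] at k
    linarith
  · have k := key b (1 - 2 * ζ - 2 / Λ) (Finset.univ.filter fun e => σ e = t ∧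
        ∃ x ∈ (D.z (yy D e)).B, 1 - 2 * ζ ≤ rr b * x t.1) (by linarith) fun e he =>
      ⟨(Finset.mem_filter.1 he).2.1, .inr (by simpa using (Finset.mem_filter.1 he).2.2)⟩
    have k1 := mul_le_mul_of_nonneg_right k hΛ.le
    have k2 : 2 / (Λ : ℝ) * Λ = 2 := div_mul_cancel₀ _ hΛ.ne'
    rw [mul_assoc, k2] at k1
    nlinarith

theorem corner {D : Dat L Λ κ} {g : κ → Band E2} (h : Bdy D g) (k : κ) (i : Fin 2) (a b : Bool) :
    (g k).u (pt i (rr a) (rr b)) = 1 ∨ (g k).u (pt i (rr a) (rr b)) = -1 := by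
  refine (h.on k).out _ (pt_mem i (abs_rr a).le b) fun hx => ?_
  have : |pt i (rr a) (rr b) 0| < 1 ∨ |pt i (rr a) (rr b) 1| < 1 := by
    rw [h.B_eq] at hx
    rcases hx with hx | hx
    · exact (D.zone k _ (by simp)).2.2.2.1 _ hx
    · exact (D.zone k _ (by simp)).2.2.2.1 _ hx
  have := lt_or this i
  rw [pt_same, pt_rev, abs_rr, abs_rr] at this
  simp at this

/-- a change of sign along a side gives an end on this side -/
theorem exists_end {D : Dat L Λ κ} {g : κ → Band E2} (h : Bdy D g) {σ : κ × Bool → Fin 2 × Bool}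
    (hσ : ∀ e, ∀ x ∈ (D.z (yy D e)).B, x (σ e).1.rev = rr (σ e).2 ∧ |x (σ e).1| < 1) (k : κ)
    (i : Fin 2) (b : Bool) (hne : (g k).u (pt i 1 (rr b)) ≠ (g k).u (pt i (-1) (rr b))) :
    ∃ c, σ (k, c) = (i, b) := by
  have c1 : (g k).u (pt i 1 (rr b)) = 1 ∨ _ := corner h k i true b
  have c2 : (g k).u (pt i (-1) (rr b)) = 1 ∨ _ := corner h k i false b
  have cont : ContinuousOn (fun s => (g k).u (pt i s (rr b))) (uIcc (-1) 1) := by
    refine (h.on k).upl.1.comp (Continuous.continuousOn (continuous_pi fun j => ?_))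
      fun s hs => pt_mem i (abs_le.2 (by rwa [uIcc_of_le (by norm_num)] at hs)) b
    unfold pt
    split_ifs <;> fun_prop
  obtain ⟨s, hs, h0⟩ := intermediate_value_uIcc cont (show (0 : ℝ) ∈ _ by
    change (0 : ℝ) ∈ uIcc ((g k).u (pt i (-1) (rr b))) ((g k).u (pt i 1 (rr b)))
    have c1 : (g k).u (pt i 1 (rr b)) = 1 ∨ (g k).u (pt i 1 (rr b)) = -1 := c1
    have c2 : (g k).u (pt i (-1) (rr b)) = 1 ∨ (g k).u (pt i (-1) (rr b)) = -1 := c2
    rcases c1 with c1 | c1 <;> rcases c2 with c2 | c2 <;> rw [c1, c2] at hne ⊢ <;>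
      simp at hne ⊢)
  have h0 : (g k).u (pt i s (rr b)) = 0 := h0
  have hW : pt i s (rr b) ∈ (g k).W := by
    rw [(Bd.bas E2).on_W (h.on k)]
    exact ⟨pt_mem i (abs_le.2 (by rwa [uIcc_of_le (by norm_num)] at hs)) b, h0⟩
  obtain ⟨c, hc⟩ : ∃ c, yy D (k, c) = pt i s (rr b) := by
    rw [h.W_eq] at hW
    rcases hW with hW | hW
    exacts [⟨true, hW.symm⟩, ⟨false, hW.symm⟩]
  obtain ⟨k1, k2⟩ := hσ (k, c) _
    ((D.zone k _ (yy_mem D (k, c))).2.2.1 ▸ mem_singleton _ : yy D (k, c) ∈ (D.z _).W).1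
  rw [hc] at k1 k2
  have k3 : (σ (k, c)).1 = i := by
    by_contra k3
    have : ∀ i j : Fin 2, j ≠ i → j = i.rev := by decide
    rw [this _ _ k3, pt_rev, abs_rr] at k2
    exact lt_irrefl _ k2
  rw [k3, pt_rev] at k1
  exact ⟨c, Prod.ext k3 (rr_inj k1).symm⟩

end Cnt

open Cnt Finset in
theorem count : COUNT := by
  classical
  intro L Λ κ _ D g ζ ε h hζ hζ1 hζΛ hε hN
  have hΛ : (0 : ℝ) < Λ := by
    by_contra k
    nlinarith [Λ.coe_nonneg]
  obtain ⟨σ, hσ⟩ := sides D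
  have E := ends D hσ hΛ hζ
  -- the total number of arcs
  have tot : (Fintype.card κ : ℝ) ≤ 2 * Λ := by
    have k : ((univ : Finset (κ × Bool)).card : ℝ) =
        ∑ t : Fin 2 × Bool, ((univ.filter fun e => σ e = t).card : ℝ) := by
      exact_mod_cast card_eq_sum_card_fiberwise (f := σ) fun _ _ => mem_univ _
    have k2 := sum_le_sum (s := univ) fun t _ => (E t).1
    rw [← k] at k2
    simp at k2
    linarith
  obtain ⟨τ, hτ⟩ : ∃ τ : Fin 2 → Bool → κ → ℝ, τ = fun i b k =>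
    ε k * ((g k).u (pt i 1 (rr b)) - (g k).u (pt i (-1) (rr b))) := ⟨_, rfl⟩
  have τv : ∀ i b k, τ i b k = 2 ∨ τ i b k = 0 ∨ τ i b k = -2 := fun i b k => by
    have c1 : (g k).u (pt i 1 (rr b)) = 1 ∨ (g k).u (pt i 1 (rr b)) = -1 := corner h k i true b
    have c2 : (g k).u (pt i (-1) (rr b)) = 1 ∨ (g k).u (pt i (-1) (rr b)) = -1 :=
      corner h k i false b
    simp only [hτ]
    rcases c1 with c1 | c1 <;> rcases c2 with c2 | c2 <;> rcases hε k with c | c <;>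
      rw [c1, c2, c] <;> norm_num
  obtain ⟨F, hF⟩ : ∃ F : Fin 2 → Finset κ, F = fun i => univ.filter fun k => D.co k = i :=
    ⟨_, rfl⟩
  obtain ⟨P, hP⟩ : ∃ P : Fin 2 → Bool → Finset κ, P = fun i b => (F i).filter fun k =>
    τ i b k = 2 := ⟨_, rfl⟩
  have PF : ∀ i b, P i b ⊆ F i := fun i b => by simp only [hP]; exact filter_subset _ _
  have Pc : ∀ i b, Λ * (1 - ζ) ≤ ((P i b).card : ℝ) := fun i b => by
    have k := hN i (rr b) (rr_or b)
    simp only [stair, ← sum_sub_distrib, ← mul_sub] at k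
    have k2 : ∑ k ∈ F i, τ i b k ≤ ∑ k ∈ F i, if τ i b k = 2 then (2 : ℝ) else 0 :=
      sum_le_sum fun k _ => by
        rcases τv i b k with c | c | c <;> rw [c] <;> norm_num
    rw [← sum_filter, sum_const, nsmul_eq_mul] at k2
    simp only [hP]
    simp only [hF, hτ] at k2 ⊢
    linarith
  have F01 : ((F 0).card : ℝ) + (F 1).card = Fintype.card κ := by
    have k := card_eq_sum_card_fiberwise (s := univ) (t := univ) (f := D.co) fun _ _ => mem_univ _
    rw [Fin.sum_univ_two, card_univ] at k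
    simp only [hF]
    exact_mod_cast k.symm
  have Fc : ∀ i, ((F i).card : ℝ) ≤ Λ * (1 + ζ) := fun i => by
    have k0 : ((P 0 true).card : ℝ) ≤ (F 0).card := by exact_mod_cast Finset.card_le_card (PF 0 true)
    have k1 : ((P 1 true).card : ℝ) ≤ (F 1).card := by exact_mod_cast Finset.card_le_card (PF 1 true)
    have := Pc 0 true
    have := Pc 1 true
    fin_cases i <;> simp <;> linarith
  -- the ends near the corners
  obtain ⟨B, hB⟩ : ∃ B : Finset (κ × Bool), B = univ.biUnion fun t : (Fin 2 × Bool) × Bool =>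
    univ.filter fun e => σ e = t.1 ∧ ∃ x ∈ (D.z (yy D e)).B, 1 - 2 * ζ ≤ rr t.2 * x t.1.1 :=
    ⟨_, rfl⟩
  have Bc : ((B.image Prod.fst).card : ℝ) ≤ 16 * ζ * Λ := by
    have k : ((B.image Prod.fst).card : ℝ) ≤ ∑ t : (Fin 2 × Bool) × Bool, ((univ.filter fun e =>
        σ e = t.1 ∧ ∃ x ∈ (D.z (yy D e)).B, 1 - 2 * ζ ≤ rr t.2 * x t.1.1).card : ℝ) := by
      rw [hB]
      exact_mod_cast card_image_le.trans card_biUnion_le
    have k2 := k.trans (sum_le_sum fun t _ => (E t.1).2 t.2)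
    simp at k2
    linarith
  obtain ⟨G, hG⟩ : ∃ G : Fin 2 → Finset κ, G = fun i =>
    (P i true ∩ P i false) \ B.image Prod.fst := ⟨_, rfl⟩
  have Gc : ∀ i, Λ * (1 - 19 * ζ) ≤ ((G i).card : ℝ) := fun i => by
    have k1 : ((P i true ∪ P i false).card : ℝ) + (P i true ∩ P i false).card =
        (P i true).card + (P i false).card := by exact_mod_cast card_union_add_card_inter _ _
    have k2 : ((P i true ∪ P i false).card : ℝ) ≤ (F i).card := by
      exact_mod_cast Finset.card_le_card (union_subset (PF i true) (PF i false))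
    have k3 : ((P i true ∩ P i false).card : ℝ) ≤ (G i).card + (B.image Prod.fst).card := by
      simp only [hG]
      exact_mod_cast card_le_card_sdiff_add_card
    linarith [Pc i true, Pc i false, Fc i]
  have GP : ∀ i, ∀ k ∈ G i, D.co k = i ∧ τ i true k = 2 ∧ D.Thru ζ k := fun i k hk => by
    simp only [hG, hP, hF, Finset.mem_sdiff, Finset.mem_inter, Finset.mem_filter, Finset.mem_univ,
      true_and] at hk
    obtain ⟨⟨⟨k1, k2⟩, -, k3⟩, k4⟩ := hk
    have ex : ∀ b, τ i b k = 2 → ∃ c, σ (k, c) = (i, b) := fun b hb =>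
      exists_end h hσ k i b fun k5 => by simp [hτ, k5] at hb
    obtain ⟨c, hc⟩ := ex true k2
    obtain ⟨c', hc'⟩ := ex false k3
    have ne : c ≠ c' := fun k5 => by simp [k5, hc'] at hc
    have s1 : ∀ d, (σ (k, d)).1 = i := fun d => by
      rcases (show ∀ c c' d : Bool, c ≠ c' → d = c ∨ d = c' by decide) c c' d ne with rfl | rfl
      · rw [hc]
      · rw [hc']
    have mid : ∀ d, ∀ x ∈ (D.z (yy D (k, d))).B, |x i| < 1 - 2 * ζ := fun d x hx => by
      by_contra k5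
      refine k4 (mem_image.2 ⟨(k, d), ?_, rfl⟩)
      obtain ⟨b, hb⟩ : ∃ b, 1 - 2 * ζ ≤ rr b * x i := by
        rcases le_abs.1 (not_lt.1 k5) with k6 | k6
        · exact ⟨true, by simpa [rr] using k6⟩
        · exact ⟨false, by simpa [rr] using k6⟩
      rw [hB, Finset.mem_biUnion]
      exact ⟨(σ (k, d), b), mem_univ _, mem_filter.2 ⟨mem_univ _, rfl, x, hx, by rwa [s1]⟩⟩
    have val : ∀ d, yy D (k, d) i.rev = rr (σ (k, d)).2 := fun d => by
      rw [← s1 d]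
      exact (hσ (k, d) _ ((D.zone k _ (yy_mem D (k, d))).2.2.1 ▸ mem_singleton _ :
        yy D (k, d) ∈ (D.z _).W).1).1
    refine ⟨k1, k2, ?_, fun k5 => ?_⟩
    · rw [k1]
      rintro x (hx | hx)
      exacts [mid true x hx, mid false x hx]
    · rw [k1] at k5
      have k6 := rr_inj (((val true).symm.trans k5).trans (val false))
      cases c <;> cases c' <;> simp_all
  have all : ∀ i, ∃ t, D.co t = i ∧ D.Thru ζ t := fun i => by
    have k : (0 : ℝ) < (G i).card := lt_of_lt_of_le (mul_pos hΛ (by linarith)) (Gc i)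
    obtain ⟨t, ht⟩ := card_pos.1 (by exact_mod_cast k)
    exact ⟨t, (GP i t ht).1, (GP i t ht).2.2⟩
  have ζΛ : 0 ≤ ζ * Λ := by linarith
  refine ⟨?_, fun i => ?_⟩
  · have dj : Disjoint (G 0) (G 1) := Finset.disjoint_left.2 fun k k0 k1 => by
      have := (GP 0 k k0).1.symm.trans (GP 1 k k1).1
      simp at this
    have k : (univ.filter fun k => ¬ D.Sel ζ k) ⊆ univ \ (G 0 ∪ G 1) := fun k hk => by
      refine mem_sdiff.2 ⟨mem_univ _, fun k1 => (mem_filter.1 hk).2 ⟨?_, all⟩⟩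
      rcases mem_union.1 k1 with k1 | k1
      exacts [(GP 0 k k1).2.2, (GP 1 k k1).2.2]
    have k1 := Finset.card_le_card k
    have k2 := card_sdiff_add_card_eq_card (subset_univ (G 0 ∪ G 1))
    rw [card_union_of_disjoint dj, card_univ] at k2
    have k3 : ((univ.filter fun k => ¬ D.Sel ζ k).card : ℝ) + ((G 0).card + (G 1).card) ≤
        Fintype.card κ := by exact_mod_cast (by omega)
    rw [Nat.card_eq_fintype_card, Fintype.card_subtype]
    linarith [Gc 0, Gc 1]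
  have sub : G i ⊆ univ.filter fun k => D.Sel ζ k ∧ D.co k = i := fun k hk =>
    mem_filter.2 ⟨mem_univ _, ⟨(GP i k hk).2.2, all⟩, (GP i k hk).1⟩
  have sub' : (univ.filter fun k => D.Sel ζ k ∧ D.co k = i) ⊆ F i := fun k hk => by
    simp only [hF]
    exact mem_filter.2 ⟨mem_univ _, (mem_filter.1 hk).2.2⟩
  have c1 : ((G i).card : ℝ) ≤ (univ.filter fun k => D.Sel ζ k ∧ D.co k = i).card := by
    exact_mod_cast Finset.card_le_card sub
  have c2 : ((univ.filter fun k => D.Sel ζ k ∧ D.co k = i).card : ℝ) ≤ (F i).card := by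
    exact_mod_cast Finset.card_le_card sub'
  refine ⟨?_, ?_⟩
  · rw [Nat.card_eq_fintype_card, Fintype.card_subtype]
    linarith [Gc i]
  · have k1 : ∑ k ∈ G i, (τ i true k + 2) ≤
        ∑ k ∈ univ.filter fun k => D.Sel ζ k ∧ D.co k = i, (τ i true k + 2) :=
      sum_le_sum_of_subset_of_nonneg sub fun k _ _ => by
        rcases τv i true k with c | c | c <;> rw [c] <;> norm_num
    rw [sum_congr rfl fun k hk => by rw [(GP i k hk).2.1], sum_const, sum_add_distrib, sum_const,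
      nsmul_eq_mul, nsmul_eq_mul] at k1
    simp only [hτ, rr, if_true] at k1
    linarith [Gc i, Fc i]

end P073.Fi
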