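import Vale.Agent.P073Y.Fi.Sk
import Vale.Agent.P073Y.Bd.Collar0
import Vale.Agent.P073Y.Bd.Collar
import Vale.Agent.P073Y.Bd.Cups
import Vale.Agent.P073Y.Bd.Bas
import Vale.Agent.P073Y.Bd.Map

/-!
# Cups in the thin collar of the square
-/

open Set Metric Topology Filter

namespace P073.Fi

open P073.Bd

namespace Cq

/-- the data of the collar -/
structure Nu (ζ : ℝ) where
  /-- the collar -/
  ν : ConHomeo (Sq ×ˢ Icc (0 : ℝ) 1) (Col ζ)
  pos : 0 < ζ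
  zero : ∀ x ∈ Sq, ν.toFun (x, 0) = x
  inv : ∀ y ∈ Col ζ, ν.invFun y = (pr y, dp ζ y)

variable {ζ d d' w : ℝ} (n : Nu ζ) {b b' s h : Band E2}

/-- the cup in the square -/
noncomputable def cq (b : Band E2) (d w : ℝ) : Band E2 :=
  Collar.setU ((C0.cup b Sq d w).map n.ν) fun y => cl (min (2 * b.u (pr y)) ((d - dp ζ y) / w))

theorem col_sub : Col ζ ⊆ Q := fun _ hy => mem_closedBall_zero_iff.2 hy.2

include n in
theorem pr_mem {y : E2} (hy : y ∈ Col ζ) : (pr y, dp ζ y) ∈ Sq ×ˢ Icc (0 : ℝ) 1 :=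
  n.inv y hy ▸ n.ν.mapsTo_inv hy

include n in
theorem ext {y y' : E2} (hy : y ∈ Col ζ) (hy' : y' ∈ Col ζ) (h1 : pr y = pr y')
    (h2 : dp ζ y = dp ζ y') : y = y' := by
  rw [← n.ν.right_inv hy, ← n.ν.right_inv hy', n.inv y hy, n.inv y' hy', h1, h2]

theorem mem_B {y : E2} :
    y ∈ (cq n b d w).B ↔ y ∈ Col ζ ∧ |min (2 * b.u (pr y)) ((d - dp ζ y) / w)| ≤ 1 := by
  constructor
  · rintro ⟨q, hq, rfl⟩
    have h1 := n.inv _ (n.ν.mapsTo hq.1)
    rw [n.ν.left_inv hq.1] at h1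
    refine ⟨n.ν.mapsTo hq.1, ?_⟩
    generalize n.ν.toFun q = y at h1
    subst h1
    exact hq.2
  · rintro ⟨h1, h2⟩
    exact ⟨_, ⟨pr_mem n h1, h2⟩, by rw [← n.inv y h1, n.ν.right_inv h1]⟩

theorem u_eq : EqOn (cq n b d w).u ((C0.cup b Sq d w).map n.ν).u (Col ζ) := fun y hy => by
  change _ = (C0.cup b Sq d w).u (n.ν.invFun y)
  rw [n.inv y hy]
  rfl

theorem cup_on (hb : b.On Sq) (hw : 0 < w) (hd : 2 * w ≤ d ∧ d + 2 * w ≤ 1) :
    (C0.cup b Sq d w).On (Sq ×ˢ Icc 0 1) :=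
  C0.cup_on (isCompact_sphere _ _) (locCone_sphere_pi 2) hb hw hd

theorem u_eqB : EqOn (cq n b d w).u ((C0.cup b Sq d w).map n.ν).u ((C0.cup b Sq d w).map n.ν).B :=
  fun _ hy => u_eq n ((mem_B n).1 hy).1

theorem mem_of (hb : b.On Sq) {x : E2} (hx : x ∈ Sq) (h : |2 * b.u x| ≤ 1) : x ∈ b.B := by
  by_contra hn
  rcases hb.out x hx hn with h1 | h1 <;> rw [h1] at h <;> norm_num at h

theorem on (hb : b.On Sq) (hw : 0 < w) (hd : 2 * w ≤ d ∧ d + 2 * w ≤ 1) :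
    (cq n b d w).On Q := by
  have hon := Mp.map_on n.ν (cup_on hb hw hd)
  have hU : EqOn (cq n b d w).u (fun _ => -1) (closedBall 0 (1 - ζ)) := fun y hy => by
    refine Collar.cl_low ((min_le_right _ _).trans ?_)
    have h1 : 1 ≤ dp ζ y := by
      rw [dp, le_div_iff₀ n.pos]
      linarith [mem_closedBall_zero_iff.1 hy]
    rw [div_le_iff₀ hw]
    linarith [hd.2]
  have e : Q = Col ζ ∪ closedBall 0 (1 - ζ) := by
    refine Subset.antisymm (fun y hy => ?_)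
      (union_subset col_sub (closedBall_subset_closedBall (by linarith [n.pos])))
    rcases le_total (1 - ζ) ‖y‖ with h | h
    · exact Or.inl ⟨h, mem_closedBall_zero_iff.1 hy⟩
    · exact Or.inr (mem_closedBall_zero_iff.2 h)
  refine ⟨Collar.setU_ok hon.ok (u_eqB n), hon.sub.trans col_sub, ?_, fun y hy hy' => ?_⟩
  · rw [e]
    exact C0.pl_union ((isClosed_le continuous_const continuous_norm).inter
      (isClosed_le continuous_norm continuous_const)) isClosed_closedBall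
      (A2.pl_congr hon.upl (u_eq n))
      (A2.pl_congr (A2.pl_const _ (Convex.conicalSet (convex_closedBall _ _))) hU)
  · rcases e ▸ hy with h | h
    · rw [u_eq n h]
      exact hon.out y h hy'
    · exact Or.inr (hU h)

include n in
theorem sq_col {x : E2} (hx : x ∈ Sq) : x ∈ Col ζ ∧ pr x = x ∧ dp ζ x = 0 := by
  have h0 : (x, (0 : ℝ)) ∈ Sq ×ˢ Icc (0 : ℝ) 1 := ⟨hx, le_rfl, zero_le_one⟩
  have h1 : x ∈ Col ζ := n.zero x hx ▸ n.ν.mapsTo h0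
  have h2 := n.ν.left_inv h0
  rw [n.zero x hx, n.inv x h1] at h2
  exact ⟨h1, Prod.ext_iff.1 h2⟩

theorem isExt (hb : b.On Sq) (hw : 0 < w) (hd : 2 * w ≤ d) : Ext (cq n b d w) b.half Sq := by
  have hdw : 2 ≤ (d - 0) / w := by
    rw [le_div_iff₀ hw]
    linarith
  have k : ∀ x ∈ Sq, min (2 * b.u x) ((d - 0) / w) = 2 * b.u x := fun x hx =>
    min_eq_left (by linarith [(C0.u_mem hb hx).2])
  refine ⟨?_, fun x hx => ?_, fun x hx t ht => ?_⟩
  · ext x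
    rw [mem_inter_iff, mem_B]
    constructor
    · rintro ⟨⟨-, h⟩, hx⟩
      rw [(sq_col n hx).2.1, (sq_col n hx).2.2, k x hx] at h
      refine ⟨mem_of hb hx h, ?_⟩
      rw [abs_mul, abs_two] at h
      linarith
    · rintro ⟨hx, h⟩
      have h1 := hb.sub hx
      refine ⟨⟨(sq_col n h1).1, ?_⟩, h1⟩
      rw [(sq_col n h1).2.1, (sq_col n h1).2.2, k x h1, abs_mul, abs_two]
      linarith
  · change cl (min (2 * b.u (pr x)) ((d - dp ζ x) / w)) = cl (2 * b.u x)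
    rw [(sq_col n hx).2.1, (sq_col n hx).2.2, k x hx]
  · have h1 := hb.sub hx.1
    have h2 : (x, (0 : ℝ)) ∈ (C0.cup b Sq d w).B := by
      refine ⟨⟨h1, le_rfl, zero_le_one⟩, ?_⟩
      change |min (2 * b.u x) ((d - 0) / w)| ≤ 1
      rw [k x h1, abs_mul, abs_two]
      linarith [hx.2]
    change n.ν.toFun ((C0.cup b Sq d w).M (n.ν.invFun x, t)) = b.M (x, t / 2)
    rw [n.inv x (sq_col n h1).1, (sq_col n h1).2.1, (sq_col n h1).2.2, C0.M_high hw h2 hdw ht,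
      C0.mt_in hx.1]
    exact n.zero _ (hb.sub (hb.ok.Mmem x hx.1 _ ⟨by linarith [ht.1], by linarith [ht.2]⟩).1)

theorem W_eq (hb : b.On Sq) (hw : 0 < w) (hd : 2 * w ≤ d ∧ d + 2 * w ≤ 1) :
    (cq n b d w).W = n.ν.toFun '' (b.W ×ˢ Icc 0 d ∪ {x ∈ Sq | 0 ≤ b.u x} ×ˢ {d}) := by
  refine (Collar.setU_W (u_eqB n)).trans ((Mp.map_W n.ν (cup_on hb hw hd).sub).trans ?_)
  congr 1
  ext ⟨x, r⟩
  change (((x, r) ∈ Sq ×ˢ Icc (0 : ℝ) 1 ∧ |min (2 * b.u x) ((d - r) / w)| ≤ 1) ∧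
    cl (min (2 * b.u x) ((d - r) / w)) = 0) ↔ _
  rw [Collar.cl_eq_zero, (bas E2).on_W hb]
  simp only [mem_prod, mem_Icc, mem_union, mem_ofPred_eq, mem_singleton_iff]
  constructor
  · rintro ⟨⟨⟨hx, hr, -⟩, -⟩, h⟩
    have h1 : 0 ≤ 2 * b.u x := h ▸ min_le_left _ _
    have h2 : 0 ≤ (d - r) / w := h ▸ min_le_right _ _
    rw [le_div_iff₀ hw] at h2
    rcases min_choice (2 * b.u x) ((d - r) / w) with h3 | h3 <;> rw [h3] at h
    · exact Or.inl ⟨⟨hx, by linarith⟩, hr, by linarith⟩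
    · rw [div_eq_iff hw.ne'] at h
      exact Or.inr ⟨⟨hx, by linarith⟩, by linarith⟩
  · rintro (⟨⟨hx, h⟩, hr, hr'⟩ | ⟨⟨hx, h⟩, rfl⟩)
    · have e : min (2 * b.u x) ((d - r) / w) = 0 := by
        rw [h, mul_zero]
        exact min_eq_left (div_nonneg (by linarith) hw.le)
      rw [e]
      exact ⟨⟨⟨hx, hr, by linarith⟩, by norm_num⟩, rfl⟩
    · have e : min (2 * b.u x) ((r - r) / w) = 0 := by
        rw [sub_self, zero_div]
        exact min_eq_right (by linarith)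
      rw [e]
      exact ⟨⟨⟨hx, by linarith, by linarith⟩, by norm_num⟩, rfl⟩

theorem arc (hb : b.On Sq) (hw : 0 < w) (hd : 2 * w ≤ d ∧ d + 2 * w ≤ 1) {p q : E2}
    (hW : b.W = {p, q}) (hA : IsArc {x ∈ Sq | 0 ≤ b.u x} p q) : IsArc (cq n b d w).W p q := by
  have hS : b.W ⊆ Sq := fun x hx => hb.sub hx.1
  have h1 := (CupsA.cup_ball (hW ▸ hA.conBall) (d := d) (by linarith)).image n.ν
    (CupsA.cup_sub hS (sep_subset _ _) (by linarith) (by linarith))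
  have e1 : n.ν.toFun '' (b.W ×ˢ ({0} : Set ℝ)) = b.W := by
    ext x
    constructor
    · rintro ⟨⟨y, t⟩, hz, rfl⟩
      obtain rfl : t = 0 := hz.2
      rw [n.zero y (hS hz.1)]
      exact hz.1
    · exact fun hx => ⟨(x, 0), ⟨hx, rfl⟩, n.zero x (hS hx)⟩
  rw [e1, ← W_eq n hb hw hd, hW] at h1
  obtain ⟨p', q', h2, h3⟩ := h1.one_arc
  rcases pair_eq_pair_iff.1 h3 with ⟨rfl, rfl⟩ | ⟨rfl, rfl⟩
  · exact h2
  · exact h2.symm

theorem disj (hb' : b'.On Sq) (hw : 0 < w) (hd : d + 4 * w ≤ d') (h : ∀ x ∈ b'.B, b.u x = -1) :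
    Disjoint (cq n b d w).B (cq n b' d' w).B := by
  refine disjoint_left.2 fun y h1 h2 => ?_
  rw [mem_B] at h1 h2
  obtain ⟨h3, h4⟩ := le_min_iff.1 (abs_le.1 h1.2).1
  rw [le_div_iff₀ hw] at h4
  have h5 : 3 ≤ (d' - dp ζ y) / w := by
    rw [le_div_iff₀ hw]
    linarith
  have h6 : |2 * b'.u (pr y)| ≤ 1 := by
    rcases min_choice (2 * b'.u (pr y)) ((d' - dp ζ y) / w) with e | e <;> rw [e] at h2
    · exact h2.2
    · linarith [(abs_le.1 h2.2).2]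
  rw [h _ (mem_of hb' (pr_mem n h1.1).1 h6)] at h3
  norm_num at h3

theorem move (hb : b.On Sq) (hw : 0 < w) (hd : 2 * w ≤ d ∧ d + 2 * w ≤ 1) {x : E2}
    (hx : x ∈ (cq n b d w).B) {t : ℝ} (ht : t ∈ I) : (cq n b d w).M (x, t) ∈ Col ζ ∧
      (pr x ∈ b.B → pr ((cq n b d w).M (x, t)) ∈ b.B) ∧
      (pr x ∉ b.B → pr ((cq n b d w).M (x, t)) = pr x) ∧
      dp ζ ((cq n b d w).M (x, t)) = d - w * C0.F ((d - dp ζ x) / w) (2 * b.u (pr x)) t := by
  rw [mem_B] at hx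
  have h1 : (pr x, dp ζ x) ∈ (C0.cup b Sq d w).B := ⟨pr_mem n hx.1, hx.2⟩
  have h2 := C0.M_mem hb hw hd h1 ht
  have h3 : (cq n b d w).M (x, t) = n.ν.toFun ((C0.cup b Sq d w).M ((pr x, dp ζ x), t)) := by
    rw [← n.inv x hx.1]
    rfl
  have h4 := n.inv _ (n.ν.mapsTo h2)
  rw [n.ν.left_inv h2, ← h3, Prod.ext_iff] at h4
  refine ⟨h3 ▸ n.ν.mapsTo h2, fun h => ?_, fun h => h4.1.symm.trans (C0.mt_out h _), h4.2.symm⟩
  exact mem_of_eq_of_mem (h4.1.symm.trans (C0.mt_in h _))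
    (hb.ok.Mmem _ h _ (C0.sig_mem hb h1 ht)).1

theorem stub (hb : b.On Sq) (hh : h.On Sq) (hS : Stub ζ s h)
    (hd : Disjoint b.B h.B) {x : E2} (hx : x ∈ s.B) (hc : x ∈ Col ζ) {t : ℝ} (ht : t ∈ I) :
    s.M (x, t) ∈ Col ζ ∧ pr (s.M (x, t)) ∉ b.B ∧ b.u (pr (s.M (x, t))) = b.u (pr x) ∧
      dp ζ (s.M (x, t)) = dp ζ x ∧ pr (s.M (x, t)) = h.M (pr x, t) := by
  obtain ⟨h1, -, h2⟩ := hS x hc
  obtain ⟨h3, h4⟩ := h2 hx t ht
  refine ⟨⟨h4 ▸ hc.1, h4 ▸ hc.2⟩, ?_, ?_, by rw [dp, dp, h4], h3⟩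
  · rw [h3]
    exact disjoint_right.1 hd (hh.ok.Mmem _ (h1.1 hx) t ht).1
  · rw [h3]
    exact (bas E2).comm_u hh.ok hh.sub hb ((bas E2).comm_of_disjoint hh.ok hd.symm) _
      (h1.1 hx) t ht

theorem last (hb : b.On Sq) (hw : 0 < w) (hd : 2 * w ≤ d ∧ d + 2 * w ≤ 1) (hs : s.On Q)
    (hh : h.On Sq) (hS : Stub ζ s h) (hj : Disjoint b.B h.B) :
    Comm (cq n b d w) s ∧ Comm s (cq n b d w) ∧
      ((∀ x ∈ h.B, b.u x = -1) → Disjoint (cq n b d w).B s.B) ∧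
      ∀ y y', h.W = {y, y'} → b.u y = -1 → ((cq n b d w).W ∩ s.W).Subsingleton := by
  have k0 : ∀ x ∈ s.B, x ∈ Col ζ → pr x ∉ b.B := fun x hx hc =>
    disjoint_right.1 hj ((hS x hc).1.1 hx)
  have k1 : ∀ x ∈ s.B, x ∈ Col ζ → ∀ t ∈ I,
      (s.M (x, t) ∈ (cq n b d w).B ↔ x ∈ (cq n b d w).B) := fun x hx hc t ht => by
    obtain ⟨h1, -, h2, h3, -⟩ := stub hb hh hS hj hx hc ht
    rw [mem_B, mem_B, h2, h3]
    exact and_congr_left fun _ => iff_of_true h1 hc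
  have k2 : ∀ x ∈ (cq n b d w).B, x ∈ s.B → ∀ r ∈ I, ∀ t ∈ I,
      s.M ((cq n b d w).M (x, r), t) = (cq n b d w).M (s.M (x, t), r) := by
    intro x hx hx' r hr t ht
    have hc := ((mem_B n).1 hx).1
    obtain ⟨a1, -, a2, a3⟩ := move n hb hw hd hx hr
    replace a2 := a2 (k0 x hx' hc)
    obtain ⟨-, a4, a5, a6, a7⟩ := stub hb hh hS hj hx' hc ht
    obtain ⟨b1, -, b2, b3⟩ := move n hb hw hd ((k1 x hx' hc t ht).2 hx) hr
    obtain ⟨c1, -, -, c2, c3⟩ := stub hb hh hS hj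
      ((hS _ a1).1.2 (a2 ▸ (hS x hc).1.1 hx')) a1 ht
    exact ext n c1 b1 (by rw [c3, a2, b2 a4, a7]) (by rw [c2, a3, b3, a5, a6])
  refine ⟨fun x hx r hr => ?_, fun x hx t ht => ?_, fun h1 => disjoint_left.2 fun y h2 h3 => ?_,
    fun y y' h1 h2 => ?_⟩
  · have hc := ((mem_B n).1 hx).1
    obtain ⟨a1, a2, a3, -⟩ := move n hb hw hd hx hr
    refine ⟨?_, fun hx' => ⟨?_, k2 x hx hx' r hr⟩⟩
    · by_cases h1 : pr x ∈ b.B
      · exact iff_of_false (fun h2 => k0 _ h2 a1 (a2 h1)) fun h2 => k0 _ h2 hc h1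
      · rw [(hS _ a1).1, (hS x hc).1, a3 h1]
    · rw [(hS _ a1).2.1, (hS x hc).2.1, a3 (k0 x hx' hc)]
  · by_cases hc : x ∈ Col ζ
    · obtain ⟨-, -, h2, h3, -⟩ := stub hb hh hS hj hx hc ht
      refine ⟨k1 x hx hc t ht, fun hx' => ⟨?_, fun r hr => (k2 x hx' hx r hr t ht).symm⟩⟩
      change cl (min (2 * b.u (pr (s.M (x, t)))) ((d - dp ζ (s.M (x, t))) / w)) = _
      rw [h2, h3]
      rfl
    · refine ⟨iff_of_false (fun h1 => hc ?_) fun h1 => hc ((mem_B n).1 h1).1,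
        fun h1 => (hc ((mem_B n).1 h1).1).elim⟩
      have h2 := (stub hb hh hS hj (hs.ok.Mmem x hx t ht).1 ((mem_B n).1 h1).1
        (hs.ok.urange x hx)).1
      rwa [hs.ok.MM x hx t ht _ (hs.ok.urange x hx), hs.ok.Mid x hx] at h2
  · rw [mem_B] at h2
    have h4 := (le_min_iff.1 (abs_le.1 h2.2).1).1
    rw [h1 _ ((hS y h2.1).1.1 h3)] at h4
    norm_num at h4
  · have key : ∀ x ∈ (cq n b d w).W ∩ s.W, x ∈ Col ζ ∧ pr x = y' ∧ dp ζ x = d := by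
      rintro x ⟨⟨h3, h4⟩, h5, h6⟩
      rw [mem_B] at h3
      have h7 : pr x ∈ h.W := ⟨(hS x h3.1).1.1 h5, (hS x h3.1).2.1.symm.trans h6⟩
      have h8 := (le_min_iff.1 (abs_le.1 h3.2).1).1
      have h9 : min (2 * b.u (pr x)) ((d - dp ζ x) / w) = 0 := Collar.cl_eq_zero.1 h4
      rw [h1] at h7
      refine ⟨h3.1, h7.resolve_left fun e => ?_, ?_⟩
      · rw [e, h2] at h8
        norm_num at h8
      · rcases min_choice (2 * b.u (pr x)) ((d - dp ζ x) / w) with e | e <;> rw [e] at h9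
        · exact (k0 x h5 h3.1 (mem_of hb (pr_mem n h3.1).1 (by rw [h9]; norm_num))).elim
        · rw [div_eq_iff hw.ne'] at h9
          linarith
    intro x hx x' hx'
    obtain ⟨a1, a2, a3⟩ := key x hx
    obtain ⟨b1, b2, b3⟩ := key x' hx'
    exact ext n a1 b1 (a2.trans b2.symm) (a3.trans b3.symm)

end Cq

open Cq CupsA

theorem cupq_of (h : SHZ) : CUPQ := by
  intro κ _ ζ g p q hζ hζ' hg hp
  obtain ⟨-, ν, ν0, hν⟩ := h.2 hζ hζ'
  let n : Nu ζ := ⟨ν, hζ, ν0, hν⟩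
  obtain ⟨rk, hinj, hlt, hmono⟩ := exists_rk fun k => {x ∈ Sq | 0 ≤ (g k).u x}
  set w : ℝ := 1 / (4 * ((Nat.card κ : ℝ) + 1)) with hw'
  have hw : 0 < w := by positivity
  have hwN : w * (4 * ((Nat.card κ : ℝ) + 1)) = 1 := by
    rw [hw']
    field_simp
  let d : κ → ℝ := fun k => (4 * rk k + 2) * w
  have hd : ∀ k, 2 * w ≤ d k ∧ d k + 2 * w ≤ 1 := fun k => by
    have h1 : (rk k : ℝ) ≤ Nat.card κ := by exact_mod_cast (hlt k).le
    have h3 := mul_le_mul_of_nonneg_left h1 hw.le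
    have h4 := mul_nonneg hw.le (Nat.cast_nonneg (rk k))
    constructor <;> simp only [d] <;> nlinarith
  have hdl : ∀ k l, rk k < rk l → d k + 4 * w ≤ d l := fun k l h => by
    have h1 : (rk k : ℝ) + 1 ≤ rk l := by exact_mod_cast h
    have h3 := mul_le_mul_of_nonneg_left h1 hw.le
    simp only [d]
    nlinarith
  have hW : ∀ k x, x ∈ (g k).W ↔ x ∈ Sq ∧ (g k).u x = 0 := fun k x => by
    rw [(bas E2).on_W (hg k).1]
    rfl
  have hWS : ∀ k, (g k).W ⊆ Sq := fun k x hx => ((hW k x).1 hx).1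
  have hnest : ∀ k l, rk k < rk l → ∃ z ∈ (g l).W, (g k).u z ≤ 0 := by
    intro k l hkl
    by_contra h1
    obtain ⟨-, x₀, hx₀, a1, a2⟩ := hp k l fun e => hkl.ne (by rw [e])
    have h3 := nest (hg l).1.upl.1 (hg k).2.2.2.isConnected.isPreconnected hx₀ a1 a2
      fun x hx h3 => not_le.1 fun h4 => h1 ⟨x, (hW l x).2 ⟨hx, h3⟩, h4⟩
    refine lt_asymm hkl (hmono l k ⟨fun x hx => ⟨hx.1, ?_⟩, fun h4 => ?_⟩)
    · by_contra h5
      exact absurd (h3 x hx.1 (not_le.1 h5).le) (not_lt.2 hx.2)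
    · exact absurd (h3 _ (hg k).2.2.1.left_mem.1 (hg k).2.2.2.left_mem.2)
        (not_lt.2 (h4 (hg k).2.2.1.left_mem).2)
  have hD : ∀ k l, rk k < rk l →
      ((∀ x ∈ (g l).B, (g k).u x = 1) ∨ ∀ x ∈ (g l).B, (g k).u x = -1) →
      Disjoint (cq n (g k) (d k) w).B (cq n (g l) (d l) w).B := by
    intro k l hkl h1
    refine disj n (hg l).1 hw (hdl k l hkl) (h1.resolve_left fun h2 => ?_)
    obtain ⟨z, hz, h3⟩ := hnest k l hkl
    rw [h2 z hz.1] at h3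
    norm_num at h3
  have hS : ∀ k l, rk k < rk l →
      ((cq n (g k) (d k) w).W ∩ (cq n (g l) (d l) w).W).Subsingleton := by
    intro k l hkl
    have hdj := disjoint_left.1 (hp k l fun e => hkl.ne (by rw [e])).1
    obtain ⟨z, hz, h3⟩ := hnest k l hkl
    have hz0 : (g k).u z < 0 := lt_of_le_of_ne h3 fun h4 =>
      hdj ((hW k z).2 ⟨hWS l hz, h4⟩).1 hz.1
    have key : ∀ x ∈ (cq n (g k) (d k) w).W ∩ (cq n (g l) (d l) w).W,
        ∃ y, x = ν.toFun (y, d k) ∧ y ∈ ({p l, q l} : Set E2) ∧ y ≠ z := by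
      intro x hx
      rw [W_eq n (hg k).1 hw (hd k), W_eq n (hg l).1 hw (hd l)] at hx
      obtain ⟨y, t, h4, h5, h6 | h6⟩ := cup_inter ν (hWS k) (sep_subset _ _) (hWS l)
        (sep_subset _ _) (by linarith [hd k]) (by linarith [hdl k l hkl]) (by linarith [hd l])
        hx.1 hx.2
      · exact (hdj h6.1.1 h5.1).elim
      · exact ⟨y, h6.2 ▸ h4, (hg l).2.1 ▸ h5, fun h7 => absurd h6.1.2 (not_le.2 (h7 ▸ hz0))⟩
    intro x hx x' hx'
    obtain ⟨y, h4, h5, h6⟩ := key x hx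
    obtain ⟨y', h4', h5', h6'⟩ := key x' hx'
    rw [(hg l).2.1] at hz
    have h7 : y = y' := by
      rcases hz with rfl | rfl
      · exact (h5.resolve_left h6).trans (h5'.resolve_left h6').symm
      · exact (h5.resolve_right h6).trans (h5'.resolve_right h6').symm
    rw [h4, h4', h7]
  refine ⟨fun k => cq n (g k) (d k) w, d, fun k => ⟨on n (hg k).1 hw (hd k),
    isExt n (hg k).1 hw (hd k).1, arc n (hg k).1 hw (hd k) (hg k).2.1 (hg k).2.2.1, ?_,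
    fun y _ => ?_⟩, fun k l hkl => ⟨?_, ?_, fun h1 h2 => ?_⟩,
    fun k s h a1 a2 a3 a4 => last n (hg k).1 hw (hd k) a1 a2 a3 a4⟩
  · rw [← mul_one_div]
    exact (hd k).2
  · change cl (min _ ((d k - dp ζ y) / w)) = _
    rw [hw', one_div, div_inv_eq_mul]
  · have c1 := cup_on (hg k).1 hw (hd k)
    have c2 := cup_on (hg l).1 hw (hd l)
    refine Collar.setU_comm (Mp.map_comm ν c1.ok c2.ok c1.sub c2.sub (C0.cup_comm (bas E2)
      (hg k).1 (hg l).1 ((bas E2).comm_of_disjoint (hg k).1.ok (hp k l hkl).1)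
      ((bas E2).comm_of_disjoint (hg l).1.ok (hp k l hkl).1.symm) hw (hd k) (hd l) ?_)) (u_eqB n)
    rcases lt_or_gt_of_ne (hinj.ne hkl) with h | h
    · exact le_abs.2 (Or.inr (by linarith [hdl k l h]))
    · exact le_abs.2 (Or.inl (by linarith [hdl l k h]))
  · rcases lt_or_gt_of_ne (hinj.ne hkl) with h | h
    · exact hS k l h
    · rw [inter_comm]
      exact hS l k h
  · rcases lt_or_gt_of_ne (hinj.ne hkl) with h | h
    · exact hD k l h h1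
    · exact (hD l k h h2).symm

end P073.Fi
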