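import Vale.Agent.P073Y.Fi.Sk
import Vale.Agent.P073Z.EN.B
import Mathlib.MeasureTheory.Integral.IntervalIntegral.DerivIntegrable

/-!
# The energy of almost linear maps on the interval and on the square
-/

open Set Metric Topology Filter MeasureTheory
open scoped NNReal ENNReal

namespace P073.Fi

open P073.Bd (I)

namespace Eng

theorem lipAt_le_deriv {m : ℝ → ℝ} {X : Set ℝ} {x m' : ℝ} (h : HasDerivWithinAt m m' X x) :
    lipAt m X x ≤ ‖m'‖ₑ := by
  refine le_of_forall_gt_imp_ge_of_dense fun c hc => Cone.lipAt_le ?_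
  by_cases hc' : c = ⊤
  · refine Eventually.of_forall fun y => ?_
    by_cases e : y = x
    · simp [e]
    · rw [hc', ENNReal.top_mul (by simpa using e)]
      exact le_top
  lift c to ℝ≥0 using hc'
  have h1 : ‖m'‖ < c := by exact_mod_cast enorm_lt_coe.1 hc
  filter_upwards [h.isLittleO.def (sub_pos.2 h1)] with y hy
  rw [edist_dist, edist_dist, ← ENNReal.ofReal_coe_nnreal, ← ENNReal.ofReal_mul c.coe_nonneg,
    dist_eq_norm, dist_eq_norm]
  refine ENNReal.ofReal_le_ofReal ?_
  have h2 := norm_add_le (m y - m x - (y - x) • m') ((y - x) • m')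
  rw [sub_add_cancel, norm_smul] at h2
  linarith

theorem mono_en {m : ℝ → ℝ} {K : ℝ≥0} {p : ℝ} (hp : 1 ≤ p) (hm : MonotoneOn m I)
    (hL : LipschitzOnWith K m I) :
    ∫⁻ x in I, lipAt m I x ^ p ≤ (K : ℝ≥0∞) ^ (p - 1) * ENNReal.ofReal (m 1 - m (-1)) := by
  obtain ⟨G, h1, h2, h3⟩ := hm.exists_tendsto_deriv_liminf_lintegral_enorm_le (by norm_num)
  have h4 := (lintegral_enorm_le_liminf_of_tendsto h1 fun n => (h2 n).aemeasurable.enorm).trans h3
  refine le_trans ?_ (mul_le_mul_right h4 _)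
  rw [← lintegral_const_mul' _ _
    (ENNReal.rpow_ne_top_of_nonneg (by linarith) ENNReal.coe_ne_top), ← restrict_Ioo_eq_restrict_Icc]
  refine lintegral_mono_ae ((ae_restrict_iff' measurableSet_Ioo).2 ?_)
  filter_upwards [hm.ae_differentiableWithinAt_of_mem] with x hx hx'
  have h5 := ((hx (Ioo_subset_Icc_self hx')).differentiableAt
    (Icc_mem_nhds hx'.1 hx'.2)).hasDerivAt.hasDerivWithinAt (s := I)
  conv_lhs => rw [show p = p - 1 + 1 by ring,
    ENNReal.rpow_add_of_nonneg _ _ (by linarith) zero_le_one, ENNReal.rpow_one]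
  exact mul_le_mul' (ENNReal.rpow_le_rpow (Cone.lipAt_le_of_lip hL (Ioo_subset_Icc_self hx'))
    (by linarith)) (lipAt_le_deriv h5)

theorem lipAt_mono {S T T' : Type} [MetricSpace S] [PseudoEMetricSpace T] [PseudoEMetricSpace T']
    {h : S → T} {h' : S → T'} {X : Set S} {x : S}
    (H : ∀ y ∈ X, edist (h y) (h x) ≤ edist (h' y) (h' x)) : lipAt h X x ≤ lipAt h' X x := by
  refine le_of_forall_gt_imp_ge_of_dense fun c hc => Cone.lipAt_le ?_
  filter_upwards [Cone.ev_of_lipAt_lt hc, self_mem_nhdsWithin] with y h1 hy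
  exact (H y hy).trans h1

/-- the one-dimensional estimate for a dominated function -/
theorem dom_en {T : Type} [PseudoEMetricSpace T] {g : ℝ → T} {a : ℝ → ℝ} {p θ : ℝ} {Λ : ℝ≥0}
    (hp : 1 ≤ p) (ha : LipschitzOnWith Λ a I) (h1 : 2 * Λ * (1 - θ) ≤ a 1 - a (-1))
    (hg : ∀ x ∈ I, ∀ y ∈ I, edist (g y) (g x) ≤ edist (Λ * y - a y) (Λ * x - a x)) :
    ∫⁻ x in I, lipAt g I x ^ p ≤ ENNReal.ofReal (θ * (2 * Λ) ^ p) := by
  have hm : MonotoneOn (fun s => Λ * s - a s) I := fun x hx y hy hxy => by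
    have := ha.dist_le_mul y hy x hx
    rw [Real.dist_eq, Real.dist_eq, abs_of_nonneg (sub_nonneg.2 hxy)] at this
    have := le_abs_self (a y - a x)
    simp only
    linarith
  have hL : LipschitzOnWith (2 * Λ) (fun s => Λ * s - a s) I :=
    LipschitzOnWith.of_dist_le_mul fun x hx y hy => by
      have h2 := ha.dist_le_mul x hx y hy
      rw [Real.dist_eq, Real.dist_eq] at h2 ⊢
      have h3 := abs_sub (Λ * (x - y)) (a x - a y)
      rw [abs_mul, abs_of_nonneg Λ.coe_nonneg] at h3
      rw [show Λ * x - a x - (Λ * y - a y) = Λ * (x - y) - (a x - a y) by ring]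
      push_cast
      linarith
  refine le_trans (setLIntegral_mono' measurableSet_Icc fun x hx =>
    ENNReal.rpow_le_rpow (lipAt_mono (hg x hx)) (by linarith)) ((mono_en hp hm hL).trans ?_)
  have h0 : (0 : ℝ) ≤ 2 * Λ := by positivity
  rw [← ENNReal.ofReal_coe_nnreal, ENNReal.ofReal_rpow_of_nonneg (NNReal.coe_nonneg _) (by linarith),
    ← ENNReal.ofReal_mul (by positivity)]
  refine ENNReal.ofReal_le_ofReal ?_
  push_cast
  conv_rhs => rw [show p = p - 1 + 1 by ring, Real.rpow_add_of_nonneg h0 (by linarith) zero_le_one,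
    Real.rpow_one, mul_left_comm]
  exact mul_le_mul_of_nonneg_left (by linarith) (by positivity)

theorem Q_eq : Q = Set.pi univ fun _ => I := by
  rw [Q, closedBall_pi _ zero_le_one]
  simp [Real.closedBall_eq_Icc]

theorem fubini {F : ℝ → ℝ≥0∞} (hF : AEMeasurable F (volume.restrict I)) (i : Fin 2) :
    ∫⁻ x in Q, F (x i) = 2 * ∫⁻ s in I, F s := by
  have h1 : (volume.restrict Q : Measure E2).map (Function.eval i) =
      (2 : ℝ≥0∞) • volume.restrict I := by
    rw [Q_eq, volume_pi, Measure.restrict_pi_pi, Measure.pi_map_eval]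
    congr 1
    simp
    norm_num
  have h2 := lintegral_map' (μ := (volume.restrict Q : Measure E2)) (g := Function.eval i) (f := F)
    (h1 ▸ hF.smul_measure 2) (measurable_pi_apply i).aemeasurable
  rw [h1, lintegral_smul_measure] at h2
  exact h2.symm

end Eng

open Eng

theorem en1 : EN1 := by
  intro p θ Λ a b hp _ h1 h2 h3
  have key : ∀ x ∈ I, ∀ y ∈ I, |a y - a x| + |b y - b x| ≤ Λ * |y - x| := by
    intro x hx y hy
    have a1 := h1.dist_le_mul y hy x hx
    have a2 := h2.dist_le_mul y hy x hx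
    rw [Real.dist_eq, Real.dist_eq, abs_le] at a1 a2
    rcases abs_cases (a y - a x) with e | e <;> rcases abs_cases (b y - b x) with e' | e' <;>
      linarith [a1.1, a1.2, a2.1, a2.2]
  unfold En
  rw [Nat.cast_one, hausdorffMeasure_real]
  refine dom_en hp (LipschitzOnWith.of_dist_le_mul fun x hx y hy => ?_) h3 fun x hx y hy => ?_
  · rw [Real.dist_eq, Real.dist_eq]
    linarith [key y hy x hx, abs_nonneg (b x - b y)]
  · rw [edist_dist, edist_dist, Prod.dist_eq, Real.dist_eq, Real.dist_eq, Real.dist_eq]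
    refine ENNReal.ofReal_le_ofReal (max_le (le_of_eq ?_) ?_)
    · rw [← abs_neg]
      congr 1
      ring
    · have a1 := key x hx y hy
      have a2 := abs_sub_abs_le_abs_sub (Λ * (y - x)) (a y - a x)
      rw [abs_mul, abs_of_nonneg Λ.coe_nonneg] at a2
      rw [show Λ * y - a y - (Λ * x - a x) = Λ * (y - x) - (a y - a x) by ring]
      simp only
      linarith

theorem en2 : EN2 := by
  intro p θ ζ Λ M h f hp hθ hζ hζ' hM hf
  have hp0 : 0 ≤ p := by linarith
  have hOQ : ball (0 : E2) (1 - 2 * ζ) ⊆ Q :=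
    ball_subset_closedBall.trans (closedBall_subset_closedBall (by linarith))
  have hI : ∀ y ∈ Q, ∀ i, y i ∈ I := fun y hy i => by
    rw [Q_eq] at hy
    exact hy i trivial
  have h1 : ∀ x ∈ ball (0 : E2) (1 - 2 * ζ), lipAt (fun x => h x - (Λ : ℝ) • x) Q x ^ p ≤
      ∑ i, lipAt (fun s => f i s - Λ * s) I (x i) ^ p := by
    intro x hx
    obtain ⟨j, hj⟩ := Finite.exists_max fun i => lipAt (fun s => f i s - Λ * s) I (x i)
    refine le_trans (ENNReal.rpow_le_rpow ?_ hp0) (Finset.single_le_sum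
      (f := fun i => lipAt (fun s => f i s - Λ * s) I (x i) ^ p) (fun _ _ => zero_le)
      (Finset.mem_univ j))
    refine le_of_forall_gt_imp_ge_of_dense fun c hc => Cone.lipAt_le ?_
    have h2 : ∀ i, ∀ᶠ y in 𝓝[Q] x, edist (f i (y i) - Λ * y i) (f i (x i) - Λ * x i) ≤
        c * edist (y i) (x i) := fun i =>
      ((continuous_apply i).continuousWithinAt.tendsto_nhdsWithin fun y hy => hI y hy i).eventually
        (Cone.ev_of_lipAt_lt ((hj i).trans_lt hc))
    filter_upwards [eventually_all.2 h2, mem_nhdsWithin_of_mem_nhds (isOpen_ball.mem_nhds hx)]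
      with y hy hy'
    refine edist_pi_le_iff.2 fun i => ?_
    simp only [Pi.sub_apply, Pi.smul_apply, smul_eq_mul]
    rw [(hf i).2.2 y (mem_ball_zero_iff.1 hy').le, (hf i).2.2 x (mem_ball_zero_iff.1 hx).le]
    exact (hy i).trans (mul_le_mul_right (edist_le_pi_edist y x i) c)
  have hme : ∀ i, AEMeasurable (fun s => lipAt (fun s => f i s - Λ * s) I s ^ p)
      (volume.restrict I) := fun i => (Cone.aemeasurable_lipAt measurableSet_Icc
    ((hf i).1.continuousOn.sub (by fun_prop)) volume).pow_const p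
  have h3 : ∀ i : Fin 2, ∫⁻ x in Q, lipAt (fun s => f i s - Λ * s) I (x i) ^ p ≤
      2 * ENNReal.ofReal (θ * (2 * Λ) ^ p) := fun i => by
    rw [fubini (hme i) i]
    refine mul_le_mul_right (dom_en hp (hf i).1 (hf i).2.1 fun x _ y _ => le_of_eq ?_) _
    rw [← edist_neg_neg, neg_sub, neg_sub]
  have h4 : LipschitzOnWith (M + Λ) (fun x => h x - (Λ : ℝ) • x) Q := by
    intro x hx y hy
    simp only [sub_eq_add_neg]
    refine (edist_add_add_le _ _ _ _).trans ?_
    rw [ENNReal.coe_add, add_mul, edist_neg_neg]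
    refine add_le_add (edist_pi_le_iff.2 fun i => hM i hx hy) (le_of_eq ?_)
    rw [edist_smul₀]
    simp [ENNReal.smul_def]
  have h5 : volume (Q \ ball (0 : E2) (1 - 2 * ζ)) ≤ ENNReal.ofReal (16 * ζ) := by
    rw [measure_sdiff hOQ measurableSet_ball.nullMeasurableSet measure_ball_lt_top.ne,
      Real.volume_pi_ball _ (by linarith), Real.volume_pi_closedBall _ zero_le_one,
      ← ENNReal.ofReal_sub _ (pow_nonneg (by linarith) _), Fintype.card_fin]
    exact ENNReal.ofReal_le_ofReal (by nlinarith)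
  have h6 : (μH[((2 : ℕ) : ℝ)] : Measure E2) = volume := by
    have := hausdorffMeasure_pi_real (ι := Fin 2)
    rwa [Fintype.card_fin] at this
  unfold En
  rw [h6, ← lintegral_inter_add_sdiff _ Q (measurableSet_ball (x := (0 : E2)) (ε := 1 - 2 * ζ)),
    inter_eq_right.2 hOQ, ENNReal.ofReal_add (by positivity) (by positivity)]
  refine add_le_add ?_ ?_
  · refine (setLIntegral_mono' measurableSet_ball h1).trans ((lintegral_mono_set hOQ).trans ?_)
    have h7 : AEMeasurable (fun x : E2 => lipAt (fun s => f 0 s - Λ * s) I (x 0) ^ p)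
        (volume.restrict Q) := by
      refine (hme 0).comp_quasiMeasurePreserving (f := fun x : E2 => x 0)
        ⟨measurable_pi_apply 0, ?_⟩
      rw [Q_eq, volume_pi, Measure.restrict_pi_pi]
      exact (Measure.quasiMeasurePreserving_eval (fun _ : Fin 2 => volume.restrict I) 0).2
    simp only [Fin.sum_univ_two]
    rw [lintegral_add_left' h7]
    refine (add_le_add (h3 0) (h3 1)).trans (le_of_eq ?_)
    rw [mul_assoc, ENNReal.ofReal_mul (by norm_num : (0 : ℝ) ≤ 4), ENNReal.ofReal_ofNat]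
    ring
  · refine (setLIntegral_mono' (measurableSet_closedBall.diff measurableSet_ball) fun x hx =>
      ENNReal.rpow_le_rpow (Cone.lipAt_le_of_lip h4 hx.1) hp0).trans ?_
    rw [setLIntegral_const, ENNReal.ofReal_mul (by positivity), mul_comm,
      ← ENNReal.ofReal_coe_nnreal, ENNReal.ofReal_rpow_of_nonneg (NNReal.coe_nonneg _) hp0]
    exact mul_le_mul_left h5 _

end P073.Fi
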