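import Vale.Agent.P073Y.Fi.Sk
import Vale.Agent.P073Y.Bd.Map
import Vale.Agent.P073Y.Bd.Bas
import Vale.Agent.P073Y.Bd.Collar

/-!
# The sharp model in the square: assembly
-/

open Set Metric Topology Filter MeasureTheory
open scoped NNReal ENNReal

namespace P073.Fi

open P073.Bd (Band I cl Match Sgn Comm Ext PwLip lipg bas)

namespace F2

theorem pt_self (i : Fin 2) (s r : ℝ) : pt i s r i = s := if_pos rfl

theorem pt_rev (i : Fin 2) (s r : ℝ) : pt i s r i.rev = r :=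
  if_neg (by fin_cases i <;> decide)

theorem pt_abs (i j : Fin 2) {s r : ℝ} (hs : |s| = 1) (hr : |r| = 1) : |pt i s r j| = 1 := by
  unfold pt
  split_ifs <;> assumption

theorem pt_dist (i : Fin 2) (s s' r : ℝ) : dist (pt i s r) (pt i s' r) ≤ dist s s' := by
  refine (dist_pi_le_iff dist_nonneg).2 fun j => ?_
  unfold pt
  split_ifs
  · exact le_rfl
  · rw [dist_self]
    exact dist_nonneg

theorem pt_lip (i : Fin 2) (r : ℝ) : LipschitzWith 1 fun s => pt i s r :=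
  LipschitzWith.of_dist_le_mul fun s s' => by simpa using pt_dist i s s' r

theorem pt_mem (i : Fin 2) {s r : ℝ} (hs : s ∈ I) (hr : |r| = 1) : pt i s r ∈ Sq := by
  rw [mem_sphere_zero_iff_norm]
  refine le_antisymm ((pi_norm_le_iff_of_nonneg zero_le_one).2 fun j => ?_) ?_
  · unfold pt
    split_ifs
    · exact abs_le.2 hs
    · exact hr.le
  · have := norm_le_pi_norm (pt i s r) i.rev
    rwa [pt_rev, Real.norm_eq_abs, hr] at this

theorem side_lip {M : ℝ≥0} {f : E2 → ℝ} (h : PwLip M f Sq) (i : Fin 2) {r : ℝ} (hr : |r| = 1) :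
    LipschitzOnWith M (fun s => f (pt i s r)) I := by
  classical
  obtain ⟨𝒞, h1, h2⟩ := h
  refine lipg.1 (convex_Icc _ _) ⟨𝒞.image fun Y => (fun s => pt i s r) ⁻¹' Y, ?_, fun s hs => ?_⟩
  · intro Z hZ
    obtain ⟨Y, hY, rfl⟩ := Finset.mem_image.1 hZ
    refine ⟨(h1 Y hY).1.preimage (pt_lip i r).continuous, ?_⟩
    have := (h1 Y hY).2.comp (pt_lip i r).lipschitzOnWith (mapsTo_preimage _ _)
    rwa [mul_one] at this
  · obtain ⟨Y, hY, h3⟩ := mem_iUnion₂.1 (h2 (pt_mem i hs hr))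
    exact mem_biUnion (Finset.mem_image_of_mem _ hY) h3

theorem two_lip {T : Type} [PseudoMetricSpace T] {M : ℝ≥0} {f : T → ℝ} {X : Set T}
    (h : LipschitzOnWith M f X) : LipschitzOnWith (2 * M) (fun x => 2 * f x) X :=
  LipschitzOnWith.of_dist_le_mul fun x hx y hy => by
    have := h.dist_le_mul x hx y hy
    rw [Real.dist_eq] at this ⊢
    rw [← mul_sub, abs_mul, abs_two]
    push_cast
    linarith

theorem cl_two_lip {T : Type} [PseudoMetricSpace T] {M : ℝ≥0} {f : T → ℝ} {X : Set T}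
    (h : LipschitzOnWith M f X) : LipschitzOnWith (2 * M) (fun x => cl (2 * f x)) X :=
  LipschitzOnWith.of_dist_le_mul fun x hx y hy =>
    (Bd.Collar.cl_lip _ _).trans ((two_lip h).dist_le_mul x hx y hy)

theorem two_pw {M : ℝ≥0} {f : E2 → ℝ} {X : Set E2} (h : PwLip M f X) :
    PwLip (2 * M) (fun x => 2 * f x) X := by
  obtain ⟨𝒞, h1, h2⟩ := h
  exact ⟨𝒞, fun Y hY => ⟨(h1 Y hY).1, two_lip (h1 Y hY).2⟩, h2⟩

theorem cl_two {s : ℝ} (h : s = 1 ∨ s = -1) : cl (2 * s) = s := by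
  rcases h with rfl | rfl <;> norm_num [cl]

theorem cl_mono : Monotone cl := fun _ _ h => max_le_max le_rfl (min_le_min h le_rfl)

theorem cl_cl (a : ℝ) : cl (cl a) = cl a := by
  unfold cl
  simp only [max_def, min_def]
  split_ifs <;> linarith

theorem cl_dbl (a : ℝ) : cl (2 * cl a) = cl (2 * a) := by
  unfold cl
  simp only [max_def, min_def]
  split_ifs <;> linarith

theorem cl_half (a b : ℝ) :
    cl (2 * cl (min (2 * a) b)) = cl (min (cl (2 * cl (2 * a))) (2 * b)) := by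
  rw [cl_dbl, cl_dbl, mul_min_of_nonneg _ _ zero_le_two, cl_mono.map_min, cl_mono.map_min, cl_cl]

theorem sum_lip {E ι : Type} [NormedAddCommGroup E] [NormedSpace ℝ E] {X : Set E} {M : ℝ≥0}
    (hX : Convex ℝ X) (hc : IsClosed X) (s : Finset ι) (B : ι → Set E) (u : ι → E → ℝ) (ε : ι → ℝ)
    (hε : ∀ k, ε k = 1 ∨ ε k = -1) (h : ∀ k ∈ s, IsClosed (B k) ∧ LipschitzOnWith M (u k) X ∧
      ∀ x ∈ X, x ∉ B k → u k x = 1 ∨ u k x = -1)
    (hd : ∀ k ∈ s, ∀ l ∈ s, k ≠ l → Disjoint (B k) (B l)) :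
    LipschitzOnWith M (fun x => ∑ k ∈ s, ε k * u k x) X := by
  refine lipg.1 hX (lipg.2 s (fun k => ⟨B k, fun x => ε k * u k x, Prod.fst⟩) hc
    (fun k hk => ?_) hd)
  obtain ⟨h1, h2, h3⟩ := h k hk
  have h4 : LipschitzOnWith M (fun x => ε k * u k x) X :=
    LipschitzOnWith.of_dist_le_mul fun x hx y hy => by
      have := h2.dist_le_mul x hx y hy
      rw [Real.dist_eq] at this ⊢
      rw [← mul_sub, abs_mul]
      rcases hε k with e | e <;> rw [e] <;> simpa using this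
  refine ⟨h4.continuousOn, h1, ⟨{X}, fun Y hY => ?_, by simp⟩, fun x hx hx' => ?_⟩
  · rw [Finset.mem_singleton.1 hY]
    exact ⟨hc, h4⟩
  · change ε k * u k x = 1 ∨ ε k * u k x = -1
    rcases hε k with e | e <;> rcases h3 x hx hx' with e' | e' <;> rw [e, e'] <;> norm_num

theorem numeric {p ζ Λ : ℝ} (hp : 1 ≤ p) (hζ : 0 ≤ ζ) (hΛ : 0 ≤ Λ) :
    4 * (80 * ζ) * (2 * Λ) ^ p + 16 * ζ * (328 * Λ + Λ) ^ p ≤ ζ * (120000 * Λ) ^ p := by
  have h1 : (2 * Λ) ^ p ≤ (328 * Λ + Λ) ^ p :=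
    Real.rpow_le_rpow (by positivity) (by linarith) (by linarith)
  have h2 : (336 : ℝ) ≤ 336 ^ p := by
    have := Real.rpow_le_rpow_of_exponent_le (show (1:ℝ) ≤ 336 by norm_num) hp
    rwa [Real.rpow_one] at this
  have h3 : (336 * (328 * Λ + Λ)) ^ p ≤ (120000 * Λ) ^ p :=
    Real.rpow_le_rpow (by positivity) (by linarith) (by linarith)
  rw [Real.mul_rpow (by norm_num) (by positivity)] at h3
  have h4 : 0 ≤ (328 * Λ + Λ) ^ p := by positivity
  have h5 := mul_le_mul_of_nonneg_right h2 h4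
  nlinarith [mul_le_mul_of_nonneg_left (h5.trans h3) hζ, mul_le_mul_of_nonneg_left h1 hζ]

variable {L Λ : ℝ≥0} {κ : Type} {D : Dat L Λ κ} {g : κ → Band E2}

theorem corner (hg : Bdy D g) (k : κ) (i : Fin 2) {s r : ℝ} (hs : |s| = 1) (hr : |r| = 1) :
    (g k).u (pt i s r) = 1 ∨ (g k).u (pt i s r) = -1 := by
  refine (hg.on k).out _ (pt_mem i (abs_le.1 hs.le) hr) fun h => ?_
  rw [hg.B_eq] at h
  have h1 : |pt i s r 0| < 1 ∨ |pt i s r 1| < 1 :=
    h.elim ((D.zone k _ (Or.inl rfl)).2.2.2.1 _) ((D.zone k _ (Or.inr rfl)).2.2.2.1 _)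
  rw [pt_abs i 0 hs hr, pt_abs i 1 hs hr] at h1
  exact absurd h1 (by norm_num)

end F2

open F2

theorem f2q_of (hSh : SHEAR) (hB : BDY) (hO : OPP) (hS : SIDES) (hM : MATCH) (hT : THRU)
    (hC : CUPQ) (hLc : LIPC) (hN : COUNT) (hE : EN2) : F2Q 120000 := by
  classical
  intro L Λ L' κ _ D ζ hζ hζ' hΛ hL'
  have hζ4 : ζ ≤ 1 / 4 := by linarith
  have hΛ0 : (0 : ℝ) < Λ := by
    by_contra h
    nlinarith [not_lt.1 h]
  obtain ⟨x₀, hx₀, hside⟩ := hS D hζ
  obtain ⟨g, hg, hneg, hext⟩ := hB D x₀ hx₀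
  obtain ⟨s1, s2⟩ := hside g hg hneg
  have hy : ∀ t : {k // D.Sel ζ k}, ∃ y₀ y₁, Opp ζ (D.co t) (g t) y₀ y₁ ∧
      ∀ W, IsArc W y₀ y₁ → IsArc W (D.p t) (D.q t) := fun t =>
    (hO D hg hζ t t.2.1).elim (fun h => ⟨_, _, h, fun _ h => h⟩) fun h => ⟨_, _, h, fun _ h => h.symm⟩
  choose y₀ y₁ hop harc using hy
  have hψ : ∀ i, ∃ ψ : ℝ → ℝ, (∀ t : {k // D.Sel ζ k ∧ D.co k = i}, Car i ψ (g t)) ∧
      Rep ζ (2 / ζ) ψ ∧
      Rep ζ ((2 - 2 * ((Nat.card {k // D.Sel ζ k ∧ D.co k = i} : ℝ) - 1) / Λ) / ζ) ψ := fun i =>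
    hM i (fun t : {k // D.Sel ζ k ∧ D.co k = i} => g t) (fun t => y₀ ⟨t, t.2.1⟩)
      (fun t => y₁ ⟨t, t.2.1⟩) hζ hζ4 hΛ0 (fun ⟨t, h, e⟩ => by subst e; exact hop ⟨t, h⟩) (fun t => hg.slip t)
      fun t t' h => ⟨hg.disj _ _ fun e => h (Subtype.ext e), hg.sep _ _ (fun e => h (Subtype.ext e))
        (D.fam _ _ (fun e => h (Subtype.ext e)) (t.2.2.trans t'.2.2.symm))⟩
  choose ψ hcar r1 r2 using hψ
  obtain ⟨K, hK, K1, K2⟩ : ∃ K : Fin 2 → ℝ≥0, (∀ i, Rep ζ (K i) (ψ i)) ∧ (∀ i, (K i : ℝ) ≤ 2 / ζ) ∧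
      ∀ i, (K i : ℝ) ≤ (2 - 2 * ((Nat.card {k // D.Sel ζ k ∧ D.co k = i} : ℝ) - 1) / Λ) / ζ := by
    have h0 : (0 : ℝ) ∈ I := ⟨by norm_num, by norm_num⟩
    refine ⟨fun i => ⟨min _ _, le_min (by positivity : 0 ≤ 2 / ζ) (nonneg_of_mul_nonneg_left
      ((abs_nonneg _).trans ((r2 i).near 0 h0)) hζ)⟩, fun i => ⟨(r1 i).mono, (r1 i).pl, (r1 i).fix,
      fun s hs => ?_⟩, fun i => min_le_left _ _, fun i => min_le_right _ _⟩
    change _ ≤ min _ _ * ζ
    rw [min_mul_of_nonneg _ _ hζ.le]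
    exact le_min ((r1 i).near s hs) ((r2 i).near s hs)
  obtain ⟨s, hs1, hs2⟩ := hT (fun t : {k // D.Sel ζ k} => D.co t) (fun t => g t) y₀ y₁ ψ
    (fun i => K i) hζ hζ4 (fun i => ⟨(K i).coe_nonneg, hK i⟩)
    (fun t => ⟨hop t, hcar _ ⟨t, t.2, rfl⟩⟩) fun t t' h => hg.disj _ _ fun e => h (Subtype.ext e)
  obtain ⟨a, d, ha1, ha2, ha3⟩ := hC (fun k : {k // ¬ D.Sel ζ k} => g k) (fun k => D.p k)
    (fun k => D.q k) hζ hζ4 (fun k => ⟨hg.on k, hg.W_eq k, hg.pos k, hg.neg k⟩)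
    fun k l h => ⟨hg.disj _ _ fun e => h (Subtype.ext e), s2 _ _ k.2 l.2⟩
  obtain ⟨β, e1, e2⟩ : ∃ β : κ → Band E2, (∀ t : {k // D.Sel ζ k}, β t = s t) ∧
      ∀ k : {k // ¬ D.Sel ζ k}, β k = a k :=
    ⟨fun k => if h : D.Sel ζ k then s ⟨k, h⟩ else a ⟨k, h⟩, fun t => dif_pos t.2, fun k => dif_neg k.2⟩
  have cases : ∀ {P : κ → Prop}, (∀ t : {k // D.Sel ζ k}, P t) → (∀ k : {k // ¬ D.Sel ζ k}, P k) →
      ∀ k, P k := fun h1 h2 k => (em (D.Sel ζ k)).elim (fun h => h1 ⟨k, h⟩) fun h => h2 ⟨k, h⟩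
  have hon : ∀ k, (β k).On Q ∧ Ext (β k) (g k).half Sq ∧ IsArc (β k).W (D.p k) (D.q k) :=
    cases (fun t => e1 t ▸ ⟨(hs1 t).1, (hs1 t).2.1, harc t _ (hs1 t).2.2.2.1⟩)
      fun k => e2 k ▸ ⟨(ha1 k).1, (ha1 k).2.1, (ha1 k).2.2.1⟩
  have mixed : ∀ (k : {k // ¬ D.Sel ζ k}) (t : {k // D.Sel ζ k}), Comm (a k) (s t) ∧
      Comm (s t) (a k) ∧ (Disjoint (D.A k) (D.A t) → Disjoint (a k).B (s t).B) ∧
      ((a k).W ∩ (s t).W).Subsingleton := fun k t => by
    have hne : k.1 ≠ t.1 := fun e => k.2 (e ▸ t.2)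
    obtain ⟨m1, m2, m3, m4⟩ := ha3 k (s t) (g t).half (hs1 t).1 ((bas E2).half_on (hg.on t))
      (hs1 t).2.2.1 ((hg.disj _ _ hne).mono_right fun x hx => hx.1)
    obtain ⟨y, hy1, hy2⟩ := s1 _ _ k.2 t.2
    have hW : (g t).half.W = {D.p t, D.q t} := ((bas E2).half_W _).trans (hg.W_eq t)
    refine ⟨m1, m2, fun h => m3 fun x hx => (hg.sep _ _ hne h).resolve_left (fun h' => ?_) x hx.1, ?_⟩
    · rw [h' y ((hg.W_eq t).ge hy1).1] at hy2
      norm_num at hy2
    · rcases hy1 with rfl | rfl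
      · exact m4 _ _ hW hy2
      · exact m4 _ _ (hW.trans (pair_comm _ _)) hy2
  have htwo : ∀ k l, k ≠ l → Comm (β k) (β l) ∧
      (Disjoint (D.A k) (D.A l) → Disjoint (β k).B (β l).B) ∧
      ((β k).W ∩ (β l).W).Subsingleton := by
    refine cases (fun t => cases (fun t' h => ?_) fun l _ => ?_) fun k =>
      cases (fun t _ => ?_) fun l h => ?_
    · rw [e1, e1]
      obtain ⟨b1, b2, b3⟩ := hs2 t t' fun e => h (congrArg Subtype.val e)
      refine ⟨b1, fun hd => b2 (by_contra fun hco => ?_), b3⟩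
      have e : (D.co t').rev = D.co t := by
        revert hco
        generalize D.co t = i
        generalize D.co t' = j
        fin_cases i <;> fin_cases j <;> decide
      obtain ⟨o, ho, h1, -⟩ := (hop t).ori
      have w0 : y₀ t' ∈ (g t').B := ((hop t').W_eq.ge (Or.inl rfl)).1
      have w1 : y₁ t' ∈ (g t').B := ((hop t').W_eq.ge (Or.inr rfl)).1
      have v0 := (h1 _ ((hg.on t').sub w0)).2 (by rw [← e, (hop t').lo]; linarith)
      have v1 := (h1 _ ((hg.on t').sub w1)).1 (by rw [← e, (hop t').hi]; linarith)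
      rcases hg.sep _ _ h hd with h2 | h2 <;> rw [h2 _ w0] at v0 <;> rw [h2 _ w1] at v1 <;> linarith
    · rw [e1, e2]
      obtain ⟨-, b2, b3, b4⟩ := mixed l t
      exact ⟨b2, fun h => (b3 h.symm).symm, inter_comm _ _ ▸ b4⟩
    · rw [e1, e2]
      obtain ⟨b1, -, b3, b4⟩ := mixed k t
      exact ⟨b1, b3, b4⟩
    · rw [e2, e2]
      obtain ⟨b1, b2, b3⟩ := ha2 k l fun e => h (congrArg Subtype.val e)
      exact ⟨b1, fun hd => b3 (hg.sep _ _ h hd) (hg.sep _ _ h.symm hd.symm), b2⟩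
  have h1abs : |(1 : ℝ)| = 1 := abs_one
  have h1abs' : |(-1 : ℝ)| = 1 := by norm_num
  have hcard : (Nat.card {k // ¬ D.Sel ζ k} : ℝ) ≤ Nat.card κ := by
    exact_mod_cast Finite.card_subtype_le _
  have hL0 := L.coe_nonneg
  have hn0 : (0 : ℝ) ≤ Nat.card {k // ¬ D.Sel ζ k} := Nat.cast_nonneg _
  have hlip : ∀ k, LipschitzOnWith L' (β k).u Q := by
    push_cast at hL'
    refine cases (fun t => ?_) fun k => ?_
    · have h1 := (hSh hζ hζ4).2 (D.co t) (hK (D.co t)) (cl_two_lip (side_lip (hg.lip t) (D.co t) h1abs))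
        (by
          refine LipschitzOnWith.of_dist_le_mul fun x hx y hy => ?_
          rw [(hcar _ ⟨t, t.2, rfl⟩ x hx).2, (hcar _ ⟨t, t.2, rfl⟩ y hy).2]
          exact (cl_two_lip (side_lip (hg.lip t) (D.co t) h1abs')).dist_le_mul x hx y hy)
      rw [e1]
      refine LipschitzOnWith.weaken (LipschitzOnWith.of_dist_le_mul fun x hx y hy => ?_)
        (show 2 * L * (1 + K (D.co t)) ≤ L' from ?_)
      · rw [(hs1 t).2.2.2.2 x hx, (hs1 t).2.2.2.2 y hy]
        exact h1.dist_le_mul x hx y hy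
      · rw [← NNReal.coe_le_coe]
        push_cast
        have h2 := (le_div_iff₀ hζ).1 (K1 (D.co t))
        refine le_of_mul_le_mul_left ?_ hζ
        nlinarith [mul_le_mul_of_nonneg_left h2 hL0]
    · have h1 := hLc (M' := L') (d := d k) (N := 4 * ((Nat.card {k // ¬ D.Sel ζ k} : ℝ) + 1)) hζ hζ4
        (by positivity) (le_trans (by gcongr; norm_num) (ha1 k).2.2.2.1) (two_pw (hg.lip k))
        (by
          rw [← NNReal.coe_le_coe]
          push_cast
          refine le_of_mul_le_mul_left ?_ hζ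
          nlinarith)
        (by
          rw [div_le_iff₀ hζ]
          nlinarith)
      rw [e2]
      refine LipschitzOnWith.of_dist_le_mul fun x hx y hy => ?_
      rw [(ha1 k).2.2.2.2 x hx, (ha1 k).2.2.2.2 y hy]
      exact h1.dist_le_mul x hx y hy
  refine ⟨β, ⟨fun k => (hon k).1, fun k => (hon k).2.2, fun k => (hext k _ (hon k).2.1).1,
    fun k => (hext k _ (hon k).2.1).2, hlip, htwo⟩, fun ε hε hnet p hp => ?_⟩
  have hcor : ∀ k i {s r : ℝ}, |s| = 1 → |r| = 1 → (β k).half.u (pt i s r) = (g k).u (pt i s r) :=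
    fun k i s r hs hr => by
      change cl (2 * (β k).u _) = _
      rw [(hon k).2.1.2.1 _ (pt_mem i (abs_le.1 hs.le) hr)]
      change cl (2 * cl (2 * _)) = _
      rw [cl_two (corner hg k i hs hr), cl_two (corner hg k i hs hr)]
  obtain ⟨c1, c2⟩ := hN D ε hg hζ hζ' hΛ hε fun i r hr => by
    have hr' : |r| = 1 := by rcases hr with rfl | rfl <;> norm_num
    have := hnet i r hr
    simp only [stair] at this ⊢
    simpa only [hcor _ i h1abs hr', hcor _ i h1abs' hr'] using this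
  have hlip' : ∀ k, LipschitzOnWith (328 * Λ) (β k).half.u Q := by
    refine cases (fun t => ?_) fun k => ?_
    · have h1 := (hSh hζ hζ4).2 (D.co t) (hK (D.co t)) (side_lip (hg.slip t) (D.co t) h1abs)
        (by
          refine LipschitzOnWith.of_dist_le_mul fun x hx y hy => ?_
          have h2 := (side_lip (hg.slip t) (D.co t) h1abs').dist_le_mul x hx y hy
          change dist (cl (2 * cl (2 * _))) (cl (2 * cl (2 * _))) ≤ _ at h2 ⊢
          rwa [(hcar _ ⟨t, t.2, rfl⟩ x hx).2, (hcar _ ⟨t, t.2, rfl⟩ y hy).2])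
      rw [e1]
      refine LipschitzOnWith.weaken (LipschitzOnWith.of_dist_le_mul fun x hx y hy => ?_)
        (show Λ * (1 + K (D.co t)) ≤ 328 * Λ from ?_)
      · change dist (cl (2 * _)) (cl (2 * _)) ≤ _
        rw [(hs1 t).2.2.2.2 x hx, (hs1 t).2.2.2.2 y hy]
        exact h1.dist_le_mul x hx y hy
      · rw [← NNReal.coe_le_coe]
        push_cast
        have h2 := (le_div_iff₀ hζ).1 (K2 (D.co t))
        have h3 := (c2 (D.co t)).1
        have h4 : (K (D.co t) : ℝ) * ζ * Λ ≤ 2 * Λ -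
            2 * ((Nat.card {k // D.Sel ζ k ∧ D.co k = D.co t} : ℝ) - 1) := by
          have := mul_le_mul_of_nonneg_right h2 hΛ0.le
          rwa [sub_mul, div_mul_cancel₀ _ hΛ0.ne'] at this
        have h5 : (K (D.co t) : ℝ) ≤ 82 :=
          le_of_mul_le_mul_right (by nlinarith) (mul_pos hζ hΛ0)
        nlinarith
    · have h1 := hLc (M' := 328 * Λ) (d := d k)
        (N := 2 * (4 * ((Nat.card {k // ¬ D.Sel ζ k} : ℝ) + 1))) hζ hζ4
        (by positivity) (le_trans (add_le_add le_rfl (by rw [div_le_div_iff₀ (by positivity) (by positivity)]; nlinarith)) (ha1 k).2.2.2.1) (hg.slip k)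
        (by gcongr; norm_num)
        (by
          rw [div_le_iff₀ hζ]
          push_cast
          nlinarith)
      rw [e2]
      refine LipschitzOnWith.of_dist_le_mul fun x hx y hy => ?_
      change dist (cl (2 * _)) (cl (2 * _)) ≤ _
      rw [(ha1 k).2.2.2.2 x hx, (ha1 k).2.2.2.2 y hy, cl_half, cl_half, mul_left_comm,
        mul_left_comm 2 (d k - dp ζ y)]
      exact h1.dist_le_mul x hx y hy
  have key := hE (θ := 80 * ζ) (M := 328 * Λ) (Λ := Λ)
    (h := stair D.co ε fun k => (β k).half.u)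
    (fun i σ => ∑ k with D.co k = i, ε k * if D.Sel ζ k then (g k).half.half.u (pt i σ 1) else -1)
    hp (by positivity) hζ hζ4 (fun i => ?_) fun i => ⟨?_, ?_, fun x hx => ?_⟩
  · refine key.trans (ENNReal.ofReal_le_ofReal ?_)
    push_cast
    exact numeric hp hζ.le hΛ0.le
  · refine sum_lip (convex_closedBall _ _) isClosed_closedBall _ (fun k => (β k).B) _ ε hε
      (fun k _ => ⟨(hon k).1.ok.cpt.isClosed, hlip' k, fun x hx hx' => ?_⟩) fun k hk l hl h =>
      (htwo k l h).2.1 (D.fam k l h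
        ((Finset.mem_filter.1 hk).2.trans (Finset.mem_filter.1 hl).2.symm))
    have h1 := (hon k).1.out x hx hx'
    change cl (2 * _) = 1 ∨ cl (2 * _) = -1
    rwa [cl_two h1]
  · refine sum_lip (convex_Icc _ _) isClosed_Icc _ (fun k => (fun σ => pt i σ 1) ⁻¹' (g k).B) _ ε hε
      (fun k _ => ⟨(hg.on k).ok.cpt.isClosed.preimage (pt_lip i 1).continuous, ?_,
        fun x hx hx' => ?_⟩) fun k _ l _ h => (hg.disj k l h).preimage _
    · by_cases h : D.Sel ζ k
      · simp only [if_pos h]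
        exact side_lip (hg.slip k) i h1abs
      · simp only [if_neg h]
        exact (LipschitzWith.const' _).lipschitzOnWith
    · split_ifs
      · have h1 := (hg.on k).out _ (pt_mem i hx h1abs) hx'
        change cl (2 * cl (2 * _)) = 1 ∨ cl (2 * cl (2 * _)) = -1
        rwa [cl_two h1, cl_two h1]
      · exact Or.inr rfl
  · refine (c2 i).2.trans (le_of_eq ?_)
    rw [← Finset.sum_sub_distrib, Finset.sum_filter, Finset.sum_filter]
    refine Finset.sum_congr rfl fun k _ => ?_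
    have h1 : ∀ {s : ℝ}, |s| = 1 → (g k).half.half.u (pt i s 1) = (g k).u (pt i s 1) := fun hs => by
      change cl (2 * cl (2 * _)) = _
      rw [cl_two (corner hg k i hs h1abs), cl_two (corner hg k i hs h1abs)]
    by_cases h : D.Sel ζ k <;> by_cases h' : D.co k = i <;> simp [h, h', h1 h1abs, h1 h1abs', mul_sub]
  · have hxQ : x ∈ Q := mem_closedBall_zero_iff.2 (by linarith)
    refine Finset.sum_congr rfl fun k hk => congrArg _ ?_
    have hi := (Finset.mem_filter.1 hk).2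
    revert hi
    refine cases (P := fun k => D.co k = i → (β k).half.u x =
      if D.Sel ζ k then (g k).half.half.u (pt i (x i) 1) else -1) (fun t hi => ?_) (fun k _ => ?_) k
    · rw [if_pos t.2, e1]
      change cl (2 * _) = cl (2 * _)
      rw [(hs1 t).2.2.2.2 x hxQ, hi]
      have h1 := (abs_le.1 ((norm_le_pi_norm x i.rev).trans hx)).1
      have h2 : sh (ψ i) (K i) ζ (x i) (x i.rev) = x i := by
        rw [sh, max_eq_left (show 2 * ζ - (1 + x i.rev) ≤ 0 by linarith), mul_zero, sub_zero,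
          add_zero, max_eq_left (min_le_right _ _)]
      rw [h2]
    · rw [if_neg k.2, e2]
      change cl (2 * _) = _
      have h1 : 2 ≤ dp ζ x := by
        rw [dp, le_div_iff₀ hζ]
        linarith
      have h2 : d k ≤ 1 := le_trans (le_add_of_nonneg_right (by positivity)) (ha1 k).2.2.2.1
      rw [(ha1 k).2.2.2.2 x hxQ, Bd.Collar.cl_low ((min_le_right _ _).trans (by nlinarith))]
      exact cl_two (Or.inr rfl)

end P073.Fi
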