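import Vale.Agent.P073Y.Fi.Congr
import Vale.Agent.P073Y.Bd.Map
import Vale.Agent.P073Y.Bd.Bas

/-!
# The sharp model in a face with a chart
-/

open Set Metric Topology Filter MeasureTheory
open scoped NNReal ENNReal

namespace P073.Fi

open P073.Bd (Band I cl Match Comm bas)
open P073.Bd.Mp

namespace FacemsAux

variable {E F : Type} [NormedAddCommGroup E] [NormedSpace ℝ E]
  [NormedAddCommGroup F] [NormedSpace ℝ F] {X : Set E} {Y : Set F}

theorem map_half (φ : ConHomeo X Y) {b : Band E} (hs : b.B ⊆ X) :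
    (b.map φ).half = b.half.map φ := by
  have e : (b.map φ).half.B = (b.half.map φ).B := by
    ext y
    constructor
    · rintro ⟨⟨x, hx, rfl⟩, h⟩
      rw [map_u φ b (hs hx)] at h
      exact ⟨x, ⟨hx, h⟩, rfl⟩
    · rintro ⟨x, hx, rfl⟩
      exact ⟨⟨x, hx.1, rfl⟩, by rw [map_u φ b (hs hx.1)]; exact hx.2⟩
  show Band.mk _ _ _ = Band.mk _ _ _
  congr 1

theorem inv_image (φ : ConHomeo X Y) {Z : Set E} (hZ : Z ⊆ X) :
    φ.invFun '' (φ.toFun '' Z) = Z := (φ.left_inv.mono hZ).image_image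

theorem match_back (φ : ConHomeo X Y) {a : Band E} {g : Band F} (ha : a.Ok) (hs : a.B ⊆ X)
    (hg : g.B ⊆ Y) (h : Match (a.map φ) g) : Match a (g.map φ.symm) := by
  rintro x hx ⟨y, hy, rfl⟩
  have e : φ.toFun (φ.symm.toFun y) = y := φ.right_inv (hg hy)
  obtain ⟨ε, hε, h1, h2⟩ := h _ (mem_image_of_mem _ hx) (e.symm ▸ hy)
  refine ⟨ε, hε, ?_, fun s hI => ?_⟩
  · rw [map_u φ a (hs hx)] at h1
    exact h1
  · have h3 := h2 s hI
    rw [map_M φ a (hs hx)] at h3
    show φ.invFun (g.M (φ.toFun (φ.symm.toFun y), ε * s)) = _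
    rw [h3, φ.left_inv (hs (ha.Mmem _ hx s hI).1)]

end FacemsAux

open FacemsAux

theorem facems_of {c : ℝ≥0} (h : F2Q c) : FACEMS c := by
  intro E _ _ _ κ _ C S M₁ M₂ L Λ L' ζ χ A p q z co hSC hχ l₁ l₂ hA hends hz hzd hfam hζ hζ' hΛ hL
  have hball : ConBall 2 C S := ⟨hSC, χ, hχ⟩
  have hS : ∀ k, ∀ y ∈ ({p k, q k} : Set E), y ∈ S := fun k y hy => ((hA k).2.2.ge hy).2
  have hB : ∀ k, ∀ y ∈ ({p k, q k} : Set E), (z y).B ⊆ C := fun k y hy =>
    (hz k y hy).2.1.1.trans hSC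
  have hpre : ∀ k, ∀ y' ∈ ({χ.toFun (p k), χ.toFun (q k)} : Set E2),
      ∃ y ∈ ({p k, q k} : Set E), χ.toFun y = y' ∧ χ.invFun y' = y := fun k y' hy => by
    rw [← image_pair] at hy
    obtain ⟨y, hy, rfl⟩ := hy
    exact ⟨y, hy, rfl, χ.left_inv (hSC (hS k y hy))⟩
  let D : Dat (L * M₂) Λ κ :=
    { A := fun k => χ.toFun '' A k
      p := fun k => χ.toFun (p k)
      q := fun k => χ.toFun (q k)
      z := fun v => (z (χ.invFun v)).map χ
      co := co
      arc := fun k => ⟨(hA k).1.image χ (hA k).2.1,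
        (image_mono (hA k).2.1).trans χ.mapsTo.image_subset, by
          rw [← hχ, ← χ.injOn.image_inter (hA k).2.1 hSC, (hA k).2.2, image_pair]⟩
      ends := fun k l hkl => Set.disjoint_left.2 fun y' h1 h2 => by
        obtain ⟨y, hy, -, e⟩ := hpre k y' h1
        obtain ⟨w, hw, -, e'⟩ := hpre l y' h2
        exact Set.disjoint_left.1 (hends k l hkl) hy (e.symm.trans e' ▸ hw)
      zone := fun k y' hy' => by
        obtain ⟨y, hy, e, e'⟩ := hpre k y' hy'
        obtain ⟨z1, z2, z3, z4, z5, z6⟩ := hz k y hy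
        rw [e']
        refine ⟨map_ok χ z1 (hB k y hy),
          map_in ((χ.restr hball.conicalSet_bdry hSC).cast rfl hχ) z2, ?_, ?_, ?_, ?_⟩
        · rw [map_W χ (hB k y hy), z3, image_singleton, e]
        · rintro _ ⟨x, hx, rfl⟩
          exact z4 x hx
        · refine z5.comp (l₂.mono ((image_mono (hB k y hy)).trans χ.mapsTo.image_subset)) ?_
          rintro _ ⟨x, hx, rfl⟩
          rwa [χ.left_inv (hB k y hy hx)]
        · rw [map_half χ (hB k y hy), map_half χ (b := (z y).half) fun x hx => hB k y hy hx.1]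
          exact z6
      zdisj := fun k l y' hy' w' hw' hne => by
        obtain ⟨y, hy, e, e'⟩ := hpre k y' hy'
        obtain ⟨w, hw, f, f'⟩ := hpre l w' hw'
        rw [e', f']
        exact disjoint_image_image fun a ha b hb hab =>
          Set.disjoint_left.1 (hzd k l y hy w hw fun g => hne (by rw [← e, ← f, g])) ha
            ((χ.injOn (hB k y hy ha) (hB l w hw hb) hab).symm ▸ hb)
      fam := fun k l hkl e => disjoint_image_image fun a ha b hb hab =>
        Set.disjoint_left.1 (hfam k l hkl e) ha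
          ((χ.injOn ((hA k).2.1 ha) ((hA l).2.1 hb) hab).symm ▸ hb) }
  obtain ⟨L₂, hL₂⟩ : ∃ L₂ : ℝ≥0, (L₂ : ℝ) = c * (L * M₂ + Nat.card κ + 1) / ζ :=
    ⟨NNReal.mk _ (by positivity), rfl⟩
  obtain ⟨β, hβ, hs⟩ := h (L' := L₂) D hζ hζ' hΛ (by
    rw [hL₂, mul_div_cancel₀ _ hζ.ne', NNReal.coe_mul])
  have hQ : ∀ k, (β k).B ⊆ Q := fun k => (hβ.on k).sub
  have hW : ∀ k, (β k).W ⊆ Q := fun k x hx => hQ k hx.1
  have hDz : ∀ k, ∀ y ∈ ({p k, q k} : Set E), (D.z (χ.toFun y)).half = (z y).half.map χ :=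
    fun k y hy => by
      show ((z (χ.invFun (χ.toFun y))).map χ).half = _
      rw [χ.left_inv (hSC (hS k y hy)), map_half χ (hB k y hy)]
  have hmt : ∀ k, ∀ y ∈ ({p k, q k} : Set E), Match (D.z (χ.toFun y)).half (β k) →
      Match (z y).half ((β k).map χ.symm) := fun k y hy H =>
    match_back χ ((bas E).half_ok (hz k y hy).1) (fun x hx => hB k y hy hx.1) (hQ k)
      (hDz k y hy ▸ H)
  refine ⟨fun k => (β k).map χ.symm, ⟨fun k => map_on χ.symm (hβ.on k), fun k => ?_, fun k => ?_,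
    fun k => ⟨hmt k _ (Or.inl rfl) (hβ.mt k).1, hmt k _ (Or.inr rfl) (hβ.mt k).2⟩, fun k => ?_,
    fun k l hkl => ⟨map_comm χ.symm (hβ.on k).ok (hβ.on l).ok (hQ k) (hQ l) (hβ.two k l hkl).1,
      fun hd => ?_, ?_⟩⟩, fun ε hε => ?_⟩
  · have h1 := (hβ.arc k).image χ.symm (hW k)
    rw [map_W χ.symm (hQ k)]
    convert h1 using 1
    · exact (χ.left_inv (hSC (hS k _ (Or.inl rfl)))).symm
    · exact (χ.left_inv (hSC (hS k _ (Or.inr rfl)))).symm
  · have h1 := hβ.bd k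
    have h2 : (D.z (D.p k)).half = _ := hDz k _ (Or.inl rfl)
    have h3 : (D.z (D.q k)).half = _ := hDz k _ (Or.inr rfl)
    rw [h2, h3, map_B, map_B, ← image_union] at h1
    rw [map_B, ← inv_image χ hSC, hχ, ← ConHomeo.symm_toFun,
      ← χ.symm.injOn.image_inter (hQ k) sphere_subset_closedBall, h1]
    exact inv_image χ (union_subset (fun x hx => hB k _ (Or.inl rfl) hx.1)
      fun x hx => hB k _ (Or.inr rfl) hx.1)
  · refine ((hβ.lip k).comp l₁ χ.mapsTo).weaken ?_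
    rw [← NNReal.coe_le_coe, NNReal.coe_mul, hL₂, div_mul_eq_mul_div, div_le_iff₀ hζ]
    calc (c:ℝ) * (L * M₂ + Nat.card κ + 1) * M₁ = c * M₁ * (M₂ * L + Nat.card κ + 1) := by ring
      _ ≤ ζ * L' := hL
      _ = L' * ζ := mul_comm _ _
  · have h1 := (hβ.two k l hkl).2.1 (disjoint_image_image fun a ha b hb hab =>
      Set.disjoint_left.1 hd ha ((χ.injOn ((hA k).2.1 ha) ((hA l).2.1 hb) hab).symm ▸ hb))
    exact disjoint_image_image fun a ha b hb hab =>
      Set.disjoint_left.1 h1 ha ((χ.symm.injOn (hQ k ha) (hQ l hb) hab).symm ▸ hb)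
  · rw [map_W χ.symm (hQ k), map_W χ.symm (hQ l), ← χ.symm.injOn.image_inter (hW k) (hW l)]
    exact (hβ.two k l hkl).2.2.image _
  · refine Shp.congr (h := stair D.co ε fun k => (β k).half.u) (hs ε hε) fun v hv => ?_
    funext i
    refine Finset.sum_congr rfl fun k _ => ?_
    show ε k * cl (2 * (β k).u v) = ε k * cl (2 * (β k).u (χ.toFun (χ.invFun v)))
    rw [χ.right_inv hv]

end P073.Fi
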