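import Vale.Agent.P073Y.Fi.Sk2
import Vale.Agent.P073Y.Wf.Faces

/-!
# The bands of the arcs, sharp in the chosen faces
-/

open Set Metric Topology Filter MeasureTheory
open scoped NNReal ENNReal

namespace P073.Fi

open P073.Bd (Band FACEM bas)
open P073.Wb P073.Wb.FacesAux P073.Wf

namespace FacessAux

variable {X : Base} {c₁ c : ℝ≥0} {Fr : Frame X c₁} {D : X.ι → Set E3}

theorem fam_eq {i j : X.ι} (h : co₂ X i = co₂ X j) : X.fam i = X.fam j := by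
  revert h
  unfold co₂
  cases X.fam i <;> cases X.fam j <;> simp

theorem sharp (h : FACEMS c) (hS : State Fr D) (T : Trace Fr D) {fro : Set X.K.ι}
    {Λ : X.K.ι → ℝ≥0} {ζ : ℝ} (hζ : 0 < ζ) (hζ' : ζ ≤ 1 / 100)
    (hW : Wide X fro Fr.P (fun _ => Fr.z) Λ) {φ : X.K.ι} {χ : ConHomeo (X.K.cell φ) Q}
    (hq : Sqr X fro Fr.P Λ c ζ φ χ) : ∃ β : {a // T.face a = φ} → Band E3,
    (∀ k, One T φ k.1 (β k)) ∧ (∀ k l, k ≠ l → Two T φ k.1 l.1 (β k) (β l)) ∧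
    (∀ k, (β k).On (X.K.cell φ)) ∧
    ∀ [Fintype {a // T.face a = φ}] (ε : {a // T.face a = φ} → ℝ), (∀ k, ε k = 1 ∨ ε k = -1) →
      Shp (stair (fun k : {a // T.face a = φ} => co₂ X (T.lab k.1)) ε
        fun k v => (β k).half.u (χ.invFun v)) (Λ φ) ζ c := by
  have := T.finα
  have hd := hq.dim
  let inst : Fintype {a // T.face a = φ} := Fintype.ofFinite _
  have he : ∀ k : {a // T.face a = φ}, ∀ y ∈ ({T.p k.1, T.q k.1} : Set E3),
      y ∈ Fr.P ∧ y ∈ X.K.bd φ := fun k y hy =>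
    ⟨(ends hS T hy).2.2.2, k.2 ▸ (ends hS T hy).2.1⟩
  have hj : ∀ k l : {a // T.face a = φ}, k ≠ l →
      Disjoint ({T.p k.1, T.q k.1} : Set E3) {T.p l.1, T.q l.1} := fun k l hkl =>
    ends_disj hS T (fun e => hkl (Subtype.ext e)) (k.2.trans l.2.symm)
  have hc : Nat.card {a // T.face a = φ} ≤ (Fr.P ∩ X.K.cell φ).ncard := by
    have : Finite ↥(Fr.P ∩ X.K.cell φ) := Fr.Pfin.subset inter_subset_left
    refine Nat.card_le_card_of_injective (β := ↥(Fr.P ∩ X.K.cell φ)) (fun k => ⟨T.p k.1,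
      (he k _ (Or.inl rfl)).1, X.K.bd_subset φ (he k _ (Or.inl rfl)).2⟩) fun k l e => ?_
    by_contra hkl
    exact disjoint_left.1 (hj k l hkl) (Or.inl rfl) (Or.inl (congrArg Subtype.val e))
  obtain ⟨β, hβ, hs⟩ := h (κ := {a // T.face a = φ}) (S := X.K.bd φ) (L := X.L₀ φ) (Λ := Λ φ)
    (L' := X.L φ) χ (fun k => T.A k.1) (fun k => T.p k.1) (fun k => T.q k.1) Fr.z
    (fun k => co₂ X (T.lab k.1)) (X.K.bd_subset φ) hq.bd hq.lip hq.lip'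
    (fun k => by
      obtain ⟨a, rfl⟩ := k
      exact ⟨T.arc a, fun x hx => (T.sub a hx).2, T.ends a⟩) hj
    (fun k y hy => by
      obtain ⟨z1, z2, z3, z4, z5⟩ := zone hd (he k y hy).1 (he k y hy).2
      refine ⟨z1, z2, z3, fun x hx => ?_, z5, ?_⟩
      · have hx' : x ∈ X.K.cell φ := X.K.bd_subset φ (z2.1 hx)
        have h1 : ∀ i, |χ.toFun x i| ≤ 1 := fun i =>
          (norm_le_pi_norm (χ.toFun x) i).trans (mem_closedBall_zero_iff.1 (χ.mapsTo hx'))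
        by_contra hn
        rw [not_or, not_lt, not_lt] at hn
        exact z4 x (hq.corner x hx' (le_antisymm (h1 0) hn.1) (le_antisymm (h1 1) hn.2)) hx
      · obtain ⟨e, e1, -, e3, e4, -, -⟩ := Fr.wire y (he k y hy).1
        have h7 : y ∈ (Fr.z y).W := z3 ▸ mem_singleton y
        have h8 : X.K.cell e ⊆ X.K.cell φ :=
          (X.K.subset_bd_of_mem (e4 h7.1) (he k y hy).2).trans (X.K.bd_subset φ)
        obtain ⟨ℓ, l1, l2⟩ := hq.wire e e1 h8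
        have h9 : (Fr.z y).half.half.B ⊆ X.K.cell e := fun x hx => e3.1 hx.1.1
        refine ((hW e e1 (hq.free e h8 e1.ge) y ⟨(he k y hy).1, e3.1 h7.1⟩).comp
          (l1.mono (image_mono h9)) ?_).weaken l2
        rintro _ ⟨x, hx, rfl⟩
        rwa [χ.left_inv (h8 (h9 hx))])
    (fun k l y hy y' hy' hne => Fr.zdisj y (he k y hy).1 y' (he l y' hy').1 hne)
    (fun k l hkl e => by
      by_cases hl : T.lab k.1 = T.lab l.1
      · exact T.disj _ _ (fun e => hkl (Subtype.ext e)) (k.2.trans l.2.symm) hl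
      · exact (hS.disj _ _ hl (fam_eq e)).mono (fun x hx => (T.sub _ hx).1)
          fun x hx => (T.sub _ hx).1) hζ hζ' hq.big
    (le_trans (by gcongr) hq.L_ge)
  refine ⟨β, fun k => ⟨⟨(hβ.on k).ok, (bas E3).on_in (hβ.on k)⟩, hβ.arc k, hβ.bd k, hβ.mt k,
    fun h' => absurd h' hq.notU, (hβ.lip k).mono (hβ.on k).sub⟩,
    fun k l hkl => ⟨(hβ.two k l hkl).1, (hβ.two k l hkl).2.1, fun _ => (hβ.two k l hkl).2.2⟩,
    hβ.on, fun {inst'} ε hε => ?_⟩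
  obtain rfl : inst = inst' := Subsingleton.elim _ _
  exact hs ε hε

end FacessAux

open FacessAux

theorem facess_of {c₀ c : ℝ≥0} (h : FACEM c₀) (h' : FACEMS c) : FACESS c₀ c := by
  intro X c₁ Fr S D Λ ζ 𝓢 χ hζ hζ' hW hq hS hI T
  have key : ∀ φ : X.K.ι, ∃ β : {a // T.face a = φ} → Band E3,
      (∀ k, One T φ k.1 (β k)) ∧ (∀ k l, k ≠ l → Two T φ k.1 l.1 (β k) (β l)) ∧
      (φ ∈ S.fro → (∀ k, Nt S T φ k.1 (β k)) ∧
        (¬ X.K.cell φ ⊆ X.U → ∀ k l, k ≠ l → Disjoint (β k).B (β l).B)) ∧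
      ∀ hφ : φ ∈ 𝓢, (∀ k, (β k).On (X.K.cell φ)) ∧
        ∀ [Fintype {a // T.face a = φ}] (ε : {a // T.face a = φ} → ℝ),
          (∀ k, ε k = 1 ∨ ε k = -1) →
          Shp (stair (fun k : {a // T.face a = φ} => co₂ X (T.lab k.1)) ε
            fun k v => (β k).half.u ((χ φ hφ).invFun v)) (Λ φ) ζ c := by
    intro φ
    by_cases hφ : φ ∈ 𝓢
    · obtain ⟨β, h1, h2, h3, h4⟩ := sharp h' hS T hζ hζ' hW (hq φ hφ)
      exact ⟨β, h1, h2, fun hf => absurd hf ((hq φ hφ).free φ Subset.rfl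
        (by rw [(hq φ hφ).dim]; norm_num)), fun _ => ⟨h3, h4⟩⟩
    · obtain ⟨β, h1, h2, h3⟩ := faceS S h hS hI T φ
      exact ⟨β, h1, h2, h3, fun h4 => absurd h4 hφ⟩
  choose β h1 h2 h4 h5 using key
  have e : ∀ a' φ (hφ : T.face a' = φ), β _ ⟨a', rfl⟩ = β φ ⟨a', hφ⟩ := by
    rintro _ _ rfl
    rfl
  have h3 : ∀ a a', a ≠ a' → T.face a = T.face a' →
      Two T (T.face a) a a' (β _ ⟨a, rfl⟩) (β _ ⟨a', rfl⟩) := fun a a' hne hf => by
    rw [e a' _ hf.symm]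
    exact h2 _ ⟨a, rfl⟩ ⟨a', hf.symm⟩ fun e' => hne (congrArg Subtype.val e')
  refine ⟨fun a => β _ ⟨a, rfl⟩, ⟨fun a => (h1 _ ⟨a, rfl⟩).1, fun a => (h1 _ ⟨a, rfl⟩).2.1,
    fun a => (h1 _ ⟨a, rfl⟩).2.2.1, fun a => (h1 _ ⟨a, rfl⟩).2.2.2.1,
    fun a a' h h' => (h3 a a' h h').1, fun a a' h h' => (h3 a a' h h').2.1,
    fun a a' h h' => (h3 a a' h h').2.2, fun a => (h1 _ ⟨a, rfl⟩).2.2.2.2.1,
    fun a => (h1 _ ⟨a, rfl⟩).2.2.2.2.2⟩, ⟨fun a ha => (h4 _ ha).1 ⟨a, rfl⟩,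
    fun a a' hne hf ha hU => ?_⟩, fun φ hφ => ⟨fun a ha => ?_, fun ε hε => ?_⟩⟩
  · show Disjoint (β _ ⟨a, rfl⟩).B (β _ ⟨a', rfl⟩).B
    rw [e a' _ hf.symm]
    exact (h4 _ ha).2 hU ⟨a, rfl⟩ ⟨a', hf.symm⟩ fun e' => hne (congrArg Subtype.val e')
  · show (β _ ⟨a, rfl⟩).On _
    rw [e a φ ha]
    exact (h5 φ hφ).1 ⟨a, ha⟩
  · have e' : (fun (k : {a // T.face a = φ}) v => (β _ ⟨k.1, rfl⟩).half.u ((χ φ hφ).invFun v)) =
        fun k v => (β φ k).half.u ((χ φ hφ).invFun v) := by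
      funext k v
      rw [e k.1 φ k.2]
    exact e' ▸ (h5 φ hφ).2 ε hε

end P073.Fi
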