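import Vale.Agent.P073Y.Fi.Sk2
import Vale.Agent.P073Y.Wf.Init1F

/-!
# Spreading the points on the free wires, with wide zones
-/

open Set Metric Topology Filter
open scoped NNReal

namespace P073.Fi

open P073.Bd (Band I cl Match Sgn Comm Ext PwLip Chart Lev corner Gen1)
open P073.Wb P073.Wf P073.Wb.Init1 P073.A2

namespace Init1s

/-- slope `α` on `[-a, a]` and slope `β` outside -/
noncomputable def fz (a α β s : ℝ) : ℝ := β * s + (α - β) * max (-a) (min s a)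

variable {a α β s t : ℝ}

theorem fz_pl (a α β : ℝ) : PLOn (fz a α β) univ :=
  pl_add (pl_mul β (pl_id conicalSet_univ)) (pl_mul _ (pl_max (pl_const _ conicalSet_univ)
    (pl_min (pl_id conicalSet_univ) (pl_const _ conicalSet_univ))))

theorem fz_in (h : |s| ≤ a) : fz a α β s = α * s := by
  rw [fz, min_eq_left (abs_le.1 h).2, max_eq_right (abs_le.1 h).1]
  ring

theorem fz_ge (ha : 0 ≤ a) (h : a ≤ s) : fz a α β s = α * a + β * (s - a) := by
  rw [fz, min_eq_right h, max_eq_right (by linarith)]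
  ring

theorem fz_le (ha : 0 ≤ a) (h : s ≤ -a) : fz a α β s = -(α * a) + β * (s + a) := by
  rw [fz, min_eq_left (by linarith), max_eq_left h]
  ring

theorem fz_sub (a α β : ℝ) (h : t ≤ s) :
    ∃ m, 0 ≤ m ∧ m ≤ s - t ∧ fz a α β s - fz a α β t = α * m + β * (s - t - m) := by
  refine ⟨max (-a) (min s a) - max (-a) (min t a),
    sub_nonneg.2 (max_le_max le_rfl (min_le_min h le_rfl)), ?_, by unfold fz; ring⟩
  simp only [max_def, min_def]
  split_ifs <;> linarith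

theorem fz_mono (hα : 0 < α) (hβ : 0 < β) : StrictMono (fz a α β) := fun t s h => by
  obtain ⟨m, h1, h2, h3⟩ := fz_sub a α β h.le
  rcases h1.eq_or_lt with rfl | h1
  · nlinarith
  · nlinarith [mul_pos hα h1, mul_nonneg hβ.le (sub_nonneg.2 h2)]

theorem fz_lip {K : ℝ} (hα : 0 < α) (hβ : 0 < β) (h1 : α ≤ K) (h2 : β ≤ K) (s t : ℝ) :
    |fz a α β s - fz a α β t| ≤ K * |s - t| := by
  wlog h : t ≤ s generalizing s t
  · rw [abs_sub_comm, abs_sub_comm s]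
    exact this t s (not_le.1 h).le
  obtain ⟨m, m1, m2, m3⟩ := fz_sub a α β h
  rw [abs_of_nonneg (sub_nonneg.2 ((fz_mono hα hβ).monotone h)), abs_of_nonneg (sub_nonneg.2 h), m3]
  nlinarith [mul_le_mul_of_nonneg_right h1 m1, mul_le_mul_of_nonneg_right h2 (sub_nonneg.2 m2)]

theorem fz_inv (ha : 0 ≤ a) (hα : 0 < α) (hβ : 0 < β) (s : ℝ) :
    fz (α * a) α⁻¹ β⁻¹ (fz a α β s) = s := by
  have h0 : 0 ≤ α * a := by positivity
  rcases le_total a s with h | h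
  · rw [fz_ge ha h, fz_ge h0 (by nlinarith)]
    field_simp
    ring
  rcases le_total s (-a) with h' | h'
  · rw [fz_le ha h', fz_le h0 (by nlinarith)]
    field_simp
    ring
  · rw [fz_in (abs_le.2 ⟨h', h⟩), fz_in (abs_le.2 ⟨by nlinarith, by nlinarith⟩)]
    field_simp

/-- the zone given by two inverse functions -/
def zs (c : ℝ) (f g : ℝ → ℝ) : Band ℝ where
  B := Icc (c + g (-1)) (c + g 1)
  u := fun s => f (s - c)
  M := fun q => c + g q.2

/-- inverse strictly monotone PL functions -/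
structure Inv (f g : ℝ → ℝ) : Prop where
  fpl : PLOn f univ
  gpl : PLOn g univ
  fm : StrictMono f
  gm : StrictMono g
  fg : ∀ s, f (g s) = s
  zero : f 0 = 0

variable {f g : ℝ → ℝ}

theorem Inv.gf (h : Inv f g) (s : ℝ) : g (f s) = s := h.fm.injective (h.fg _)

theorem Inv.ok (h : Inv f g) (c : ℝ) : (zs c f g).Ok := by
  have hl : LocCone (zs c f g).B := locCone_Icc _ _
  have hcs : ConicalSet ((zs c f g).B ×ˢ I) := Sh.conicalSet_prod hl.conicalSet Bd.Bas2.cs_I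
  refine ⟨isCompact_Icc, hl,
    pl_comp_univ (g := f) (h := fun s => s - c) h.fpl
      (pl_sub (pl_id hl.conicalSet) (pl_const c hl.conicalSet)),
    pl_add (pl_const c hcs) (pl_comp_univ (g := g) (h := Prod.snd) h.gpl (pl_snd hcs)),
    fun x hx => ⟨?_, ?_⟩,
    fun x _ s hs => ⟨⟨add_le_add_right (h.gm.monotone hs.1) c,
      add_le_add_right (h.gm.monotone hs.2) c⟩, ?_⟩, fun x _ => ?_, fun _ _ _ _ _ _ => rfl⟩
  · exact (h.fg _).symm.trans_le (h.fm.monotone (le_sub_iff_add_le'.2 hx.1))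
  · exact (h.fm.monotone (sub_le_iff_le_add'.2 hx.2)).trans_eq (h.fg _)
  · show f (c + g s - c) = s
    rw [add_sub_cancel_left, h.fg]
  · show c + g (f (x - c)) = x
    rw [h.gf, add_sub_cancel]

theorem Inv.W (h : Inv f g) (c : ℝ) : (zs c f g).W = {c} := by
  have g0 : g 0 = 0 := by rw [← h.zero, h.gf, h.zero]
  ext x
  constructor
  · intro hx
    exact sub_eq_zero.1 (h.fm.injective (hx.2.trans h.zero.symm))
  · rintro rfl
    have h1 := h.gm (show (-1 : ℝ) < 0 by norm_num)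
    have h2 := h.gm (show (0 : ℝ) < 1 by norm_num)
    exact ⟨⟨by linarith, by linarith⟩, by simp [zs, h.zero]⟩

theorem Inv.isIn (h : Inv f g) {c : ℝ} (hs : (zs c f g).B ⊆ Icc 0 1) : (zs c f g).In (Icc 0 1) := by
  refine ⟨hs, fun x _ hu => mem_nhdsWithin_of_mem_nhds ?_⟩
  have h1 := h.gm (abs_lt.1 hu).1
  have h2 := h.gm (abs_lt.1 hu).2
  rw [show (zs c f g).u x = f (x - c) from rfl, h.gf] at h1 h2
  exact Icc_mem_nhds (by linarith) (by linarith)

theorem centres_le {n : ℕ} {c : ℝ} (h : c ∈ centres n) :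
    0 < (n : ℝ) ∧ 1 / (2 * (n : ℝ)) ≤ c ∧ c + 1 / (2 * (n : ℝ)) ≤ 1 := by
  obtain ⟨k, hk, rfl⟩ := h
  have h1 : (k : ℝ) + 1 ≤ n := by exact_mod_cast hk
  have h0 : (0:ℝ) ≤ k := k.cast_nonneg
  have hn : (0:ℝ) < n := by linarith
  refine ⟨hn, div_le_div_of_nonneg_right (by linarith) (by positivity), ?_⟩
  rw [← add_div, div_le_one (by positivity)]
  linarith

theorem centres_gap {n : ℕ} {c d : ℝ} (h : c ∈ centres n) (h' : d ∈ centres n) (hcd : c < d) :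
    c + 1 / (2 * (n : ℝ)) + 1 / (2 * (n : ℝ)) ≤ d := by
  have hn := (centres_le h).1
  obtain ⟨k, hk, rfl⟩ := h
  obtain ⟨l, -, rfl⟩ := h'
  have h1 : k < l := by
    have := (div_lt_div_iff_of_pos_right (by positivity)).1 hcd
    exact_mod_cast (by linarith : (k:ℝ) < l)
  have h2 : (k : ℝ) + 1 ≤ l := by exact_mod_cast h1
  rw [← add_div, ← add_div]
  exact div_le_div_of_nonneg_right (by linarith) (by positivity)

/-- the profile of the wide zones -/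
theorem profile {n ζ : ℝ} (hn : 0 < n) (h0 : 0 < ζ) (h1 : ζ ≤ 1) : ∃ f g : ℝ → ℝ, Inv f g ∧
    -(1 / (2 * n)) < g (-1) ∧ g 1 < 1 / (2 * n) ∧ (∀ s t, |f s - f t| ≤ 8 * n / ζ * |s - t|) ∧
    ∀ s, |f s| ≤ 1 / 4 → 4 * f s = 2 * n * (1 + ζ) * s := by
  have ha : (0:ℝ) ≤ 1 / 4 := by norm_num
  have hα : 0 < 2 / (n * (1 + ζ)) := by positivity
  have hβ : 0 < ζ / (3 * n * (1 + ζ)) := by positivity
  have hI : Inv (fz (2 / (n * (1 + ζ)) * (1 / 4)) (2 / (n * (1 + ζ)))⁻¹ (ζ / (3 * n * (1 + ζ)))⁻¹)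
      (fz (1 / 4) (2 / (n * (1 + ζ))) (ζ / (3 * n * (1 + ζ)))) :=
    ⟨fz_pl _ _ _, fz_pl _ _ _, fz_mono (inv_pos.2 hα) (inv_pos.2 hβ), fz_mono hα hβ,
      fz_inv ha hα hβ, by rw [fz_in (by rw [abs_zero]; positivity), mul_zero]⟩
  have hd : 2 / (n * (1 + ζ)) * (1 / 4) + ζ / (3 * n * (1 + ζ)) * (3 / 4) < 1 / (2 * n) := by
    rw [← sub_pos]
    have : 1 / (2 * n) - (2 / (n * (1 + ζ)) * (1 / 4) + ζ / (3 * n * (1 + ζ)) * (3 / 4)) =
        ζ / (4 * n * (1 + ζ)) := by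
      field_simp
      ring
    rw [this]
    positivity
  refine ⟨_, _, hI, ?_, ?_, fz_lip (inv_pos.2 hα) (inv_pos.2 hβ) ?_ ?_, fun s hs => ?_⟩
  · rw [fz_le ha (by norm_num)]
    linarith
  · rw [fz_ge ha (by norm_num)]
    linarith
  · rw [inv_div, div_le_div_iff₀ two_pos h0]
    nlinarith [mul_le_mul_of_nonneg_left (show (1 + ζ) * ζ ≤ 2 by nlinarith) hn.le]
  · rw [inv_div]
    exact div_le_div_of_nonneg_right (by nlinarith) h0.le
  · have := hI.gf s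
    rw [fz_in hs] at this
    nth_rewrite 2 [← this]
    field_simp
    ring

/-- wide zones around the centres on a segment -/
theorem zones {x y : E3} (hxy : x ≠ y) {n : ℕ} {L Λ : ℝ≥0} {ζ : ℝ} (h0 : 0 < ζ) (h1 : ζ ≤ 1)
    (hL : 8 * (n : ℝ) ≤ ζ * L * dist x y) (hΛ : 2 * (n : ℝ) * (1 + ζ) ≤ Λ * dist x y) :
    ∃ z : E3 → Band E3, (∀ p ∈ (fun s : ℝ => AffineMap.lineMap x y s) '' centres n,
      (z p).Ok ∧ (z p).In (segment ℝ x y) ∧ (z p).B ⊆ segment ℝ x y \ {x, y} ∧ (z p).W = {p} ∧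
        LipschitzOnWith L (z p).u (z p).B ∧
        LipschitzOnWith Λ (z p).half.half.u (z p).half.half.B) ∧
      ∀ p ∈ (fun s : ℝ => AffineMap.lineMap x y s) '' centres n,
        ∀ q ∈ (fun s : ℝ => AffineMap.lineMap x y s) '' centres n, p ≠ q →
          Disjoint (z p).B (z q).B := by
  rcases Nat.eq_zero_or_pos n with rfl | hn
  · exact ⟨fun _ => ⟨∅, 0, 0⟩, by simp [centres], by simp [centres]⟩
  obtain ⟨f, g, hI, g1, g2, f1, f2⟩ := profile (Nat.cast_pos.2 hn) h0 h1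
  have hc : ConicalSet (Icc (0:ℝ) 1) := (locCone_Icc 0 1).conicalSet
  obtain ⟨σ, hσ⟩ := Sh.exists_ofCompact (Y := segment ℝ x y) (isCompact_Icc (a := (0:ℝ)) (b := 1))
    (fun t : ℝ => AffineMap.lineMap x y t) AffineMap.lineMap_continuous.continuousOn
    (AffineMap.lineMap_injective ℝ hxy).injOn (conicalOn_of_affine (AffineMap.lineMap x y) hc)
    (segment_eq_image_lineMap ℝ x y).symm
  have m0 : (0:ℝ) ∈ Icc (0:ℝ) 1 := ⟨le_rfl, zero_le_one⟩
  have m1 : (1:ℝ) ∈ Icc (0:ℝ) 1 := ⟨zero_le_one, le_rfl⟩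
  have s0 : σ.toFun 0 = x := by simp [hσ]
  have s1 : σ.toFun 1 = y := by simp [hσ]
  have hB : ∀ c ∈ centres n, (zs c f g).B ⊆ Ioo 0 1 := fun c h s hs =>
    ⟨by linarith [hs.1, (centres_le h).2.1], by linarith [hs.2, (centres_le h).2.2]⟩
  have hr : (0:ℝ) < 1 / (2 * (n : ℝ)) := by positivity
  have hz : ∀ c ∈ centres n, (zs (σ.invFun (σ.toFun c)) f g).map σ = (zs c f g).map σ :=
    fun c h => by
      rw [σ.left_inv ⟨by linarith [(centres_le h).2.1], by linarith [(centres_le h).2.2]⟩]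
  have hd : ∀ s s', dist (σ.toFun s) (σ.toFun s') = |s - s'| * dist x y := fun s s' => by
    rw [hσ, dist_lineMap_lineMap, Real.dist_eq]
  rw [← hσ]
  refine ⟨fun p => (zs (σ.invFun p) f g).map σ, ?_, ?_⟩
  · rintro _ ⟨c, h, rfl⟩
    have hB' := (hB c h).trans Ioo_subset_Icc_self
    simp only [hz c h]
    refine ⟨Bd.Mp.map_ok σ (hI.ok c) hB', Bd.Mp.map_in σ (hI.isIn hB'), ?_, ?_,
      LipschitzOnWith.of_dist_le_mul ?_, LipschitzOnWith.of_dist_le_mul ?_⟩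
    · rintro _ ⟨s, hs, rfl⟩
      refine ⟨σ.mapsTo (hB' hs), ?_⟩
      rintro (e | e)
      · exact (hB c h hs).1.ne' (σ.injOn (hB' hs) m0 (e.trans s0.symm))
      · exact (hB c h hs).2.ne (σ.injOn (hB' hs) m1 ((mem_singleton_iff.1 e).trans s1.symm))
    · rw [Bd.Mp.map_W σ hB', hI.W, image_singleton]
    · rintro _ ⟨s, hs, rfl⟩ _ ⟨s', hs', rfl⟩
      rw [Bd.Mp.map_u σ _ (hB' hs), Bd.Mp.map_u σ _ (hB' hs'), hd, Real.dist_eq]
      refine (f1 _ _).trans ?_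
      rw [sub_sub_sub_cancel_right, mul_comm |s - s'|, ← mul_assoc]
      exact mul_le_mul_of_nonneg_right ((div_le_iff₀' h0).2 (by linarith)) (abs_nonneg _)
    · have key : ∀ s ∈ (zs c f g).B, σ.toFun s ∈ ((zs c f g).map σ).half.half.B →
          ((zs c f g).map σ).half.half.u (σ.toFun s) = 2 * n * (1 + ζ) * (s - c) := by
        intro s hs hp
        have e := hp.2
        rw [Bd.Bas1.half_u hp, Bd.Bas1.half_u hp.1, Bd.Mp.map_u σ _ (hB' hs), ← f2]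
        · show 2 * (2 * f (s - c)) = _
          ring
        · rw [Bd.Bas1.half_u hp.1, Bd.Mp.map_u σ _ (hB' hs), abs_mul, abs_two] at e
          exact le_of_mul_le_mul_left (e.trans (by norm_num)) two_pos
      intro p hp q hq
      obtain ⟨s, hs, rfl⟩ := hp.1.1
      obtain ⟨s', hs', rfl⟩ := hq.1.1
      rw [key s hs hp, key s' hs' hq, hd, Real.dist_eq, ← mul_sub, sub_sub_sub_cancel_right, abs_mul,
        abs_of_pos (by positivity), mul_comm |s - s'|, ← mul_assoc]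
      exact mul_le_mul_of_nonneg_right hΛ (abs_nonneg _)
  · rintro _ ⟨c, h, rfl⟩ _ ⟨c', h', rfl⟩ hne
    have hcc : c ≠ c' := fun e => hne (congrArg σ.toFun e)
    simp only [hz c h, hz c' h']
    refine disjoint_image_image fun s hs s' hs' e => ?_
    obtain rfl := σ.injOn (Ioo_subset_Icc_self (hB c h hs)) (Ioo_subset_Icc_self (hB c' h' hs')) e
    rcases lt_or_gt_of_ne hcc with e' | e'
    · linarith [centres_gap h h' e', hs.2, hs'.1]
    · linarith [centres_gap h' h e', hs.1, hs'.2]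

end Init1s

open Init1s in
theorem init1s : INIT1S := by
  intro X c₀ lo hi g t lam fro w Λ ζ h0 h1 R hS
  classical
  have := X.finι
  have hUΩ : X.U ⊆ X.Ω := X.cover ▸ subset_union_right
  have hKΩ : X.K.carrier ⊆ X.Ω := X.cover ▸ subset_union_left
  have hcΩ : ∀ c, X.K.cell c ⊆ X.Ω := fun c => (X.K.cell_subset_carrier c).trans hKΩ
  have hlΩ : ∀ i, lvl g t i ⊆ X.Ω := fun _ _ hx => hx.1
  have hUd : X.U ⊆ dom X fro := subset_union_left
  have hcd : ∀ c ∈ fro, X.K.cell c ⊆ dom X fro := fun c hc x hx =>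
    Or.inr (mem_iUnion₂.2 ⟨c, hc, hx⟩)
  have hdΩ : dom X fro ⊆ X.Ω := union_subset hUΩ (iUnion₂_subset fun c _ => hcΩ c)
  have key : ∀ e, ∃ (θ : E3 → E3) (z : E3 → Band E3), X.K.dim e = 1 →
      ((∃ Φ : ConHomeo (X.K.cell e) (X.K.cell e), EqOn Φ.toFun θ (X.K.cell e)) ∧
        EqOn θ id (X.K.bd e) ∧ (e ∈ fro → EqOn θ id (X.K.cell e))) ∧
      (e ∉ fro →
        (∀ p ∈ θ '' ((⋃ i, lvl g t i) ∩ X.K.cell e), (z p).Ok ∧ (z p).In (X.K.cell e) ∧
          (z p).B ⊆ X.K.ocell e ∧ (z p).W = {p} ∧ LipschitzOnWith (X.L e) (z p).u (z p).B ∧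
          LipschitzOnWith (Λ e) (z p).half.half.u (z p).half.half.B) ∧
        ∀ p ∈ θ '' ((⋃ i, lvl g t i) ∩ X.K.cell e), ∀ q ∈ θ '' ((⋃ i, lvl g t i) ∩ X.K.cell e),
          p ≠ q → Disjoint (z p).B (z q).B) := by
    intro e
    by_cases he : X.K.dim e = 1
    swap
    · exact ⟨id, fun _ => ⟨∅, 0, 0⟩, fun h' => absurd h' he⟩
    by_cases hU : e ∈ fro
    · exact ⟨id, fun _ => ⟨∅, 0, 0⟩, fun _ => ⟨⟨⟨.refl (X.K.ball e).conicalSet, fun _ _ => rfl⟩,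
        fun _ _ => rfl, fun _ _ _ => rfl⟩, fun h' => absurd hU h'⟩⟩
    obtain ⟨x, y, e1, e2, e3, e4⟩ := hS e he hU
    have hxy : x ≠ y := by
      rintro rfl
      obtain ⟨z, hz⟩ := X.K.ocell_nonempty e
      rw [RCx.ocell, e1, e2, segment_same] at hz
      exact hz.2 (Or.inl hz.1)
    have hfin : ((⋃ i, lvl g t i) ∩ X.K.cell e).Finite := by
      rw [iUnion_inter]
      exact finite_iUnion fun i => (R.gen i).fin.subset
        (inter_subset_inter_right _ (X.K.cell_subset_skel he.le))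
    obtain ⟨θ, a1, a0, -⟩ := wire (L := X.L e) hxy hfin (fun p hp => ⟨e1 ▸ hp.2, fun hb =>
      let ⟨i, hi⟩ := mem_iUnion.1 hp.1
      disjoint_left.1 (R.gen i).vert hi (X.K.bd_subset_skel he.le (e2 ▸ hb))⟩) (by
        have := mul_le_mul_of_nonneg_right h1 (mul_nonneg (X.L e).coe_nonneg (dist_nonneg (x := x)
          (y := y)))
        have h2 : (0:ℝ) ≤ (((⋃ i, lvl g t i) ∩ X.K.cell e).ncard : ℕ) := Nat.cast_nonneg _
        linarith)
    obtain ⟨z, a2, a3⟩ := zones hxy h0 h1 e3 e4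
    rw [← a0] at a2 a3
    refine ⟨θ.toFun, z, fun _ => ⟨⟨⟨θ.cast e1.symm e1.symm, fun _ _ => rfl⟩, e2 ▸ a1,
      fun h' => absurd h' hU⟩, fun _ => ⟨fun p hp => ?_, a3⟩⟩⟩
    rw [RCx.ocell, e2]
    simpa only [← e1] using a2 p hp
  choose θ z hθ using key
  obtain ⟨Θ, b1, b2, b3⟩ := evenF X R.face R.froU θ fun e he => (hθ e he).1
  have b4 : ∀ x ∈ dom X fro, Θ.invFun x = x := fun x hx => by
    have := Θ.left_inv (hdΩ hx)
    rwa [b1 hx] at this
  let g' : ConHomeo X.Ω (Icc lo hi) := Θ.symm.trans g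
  have hg : ∀ x ∈ dom X fro, g'.toFun x = g.toFun x := fun x hx => congrArg g.toFun (b4 x hx)
  have hl : ∀ i, lvl g' t i = Θ.toFun '' lvl g t i := fun i => by
    refine Subset.antisymm (fun x hx => ⟨_, ⟨Θ.mapsTo_inv hx.1, hx.2⟩, Θ.right_inv hx.1⟩) ?_
    rintro _ ⟨x, hx, rfl⟩
    refine ⟨Θ.mapsTo hx.1, ?_⟩
    show g.toFun (Θ.invFun (Θ.toFun x)) _ = _
    rw [Θ.left_inv hx.1, hx.2]
  have hlU : ∀ i, ∀ Z ⊆ dom X fro, lvl g' t i ∩ Z = lvl g t i ∩ Z := fun i Z hZ =>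
    Subset.antisymm (fun x hx => ⟨⟨hx.1.1, hg x (hZ hx.2) ▸ hx.1.2⟩, hx.2⟩)
      fun x hx => ⟨⟨hx.1.1, (hg x (hZ hx.2)).symm ▸ hx.1.2⟩, hx.2⟩
  have hl2 : ∀ i j, lvl g' t i ∩ lvl g' t j = Θ.toFun '' (lvl g t i ∩ lvl g t j) := fun i j => by
    rw [hl, hl, Θ.injOn.image_inter (hlΩ i) (hlΩ j)]
  have hlu : ⋃ i, lvl g' t i = Θ.toFun '' ⋃ i, lvl g t i := by
    simp only [hl, image_iUnion]
  have huΩ : ⋃ i, lvl g t i ⊆ X.Ω := iUnion_subset hlΩ
  have hs : ∀ k, ∀ A ⊆ X.Ω, Θ.toFun '' A ∩ X.K.skel k = Θ.toFun '' (A ∩ X.K.skel k) :=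
    fun k A hA => img_inter Θ hA ((X.K.skel_subset_carrier k).trans hKΩ)
      (img_sub Θ b2 (X.K.sub_skel k))
  refine ⟨g', Θ, rfl, b1, b2, hl, ⟨R.lt, R.pos, ?_, R.inside, R.sep, R.face, R.froU, R.on,
    fun i x hx => ?_, R.keepU, R.keepbd, R.keep, R.comm, R.disj, fun i => ?_, fun i j hij => ?_,
    fun i φ hφ hU => ?_, fun i c hU => ?_, R.cvx, fun i c hc h3 => ?_, fun c hc hU => ?_,
    fun i => ?_, fun i j hf => ?_⟩, z, fun e he hU => ?_, fun e he hU => ?_⟩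
  · refine Subset.antisymm (fun x hx => ⟨X.ball.1 hx, ?_⟩) fun x hx => ?_
    · rw [hg x (hUd (X.bd_sub hx))]
      exact (R.bd_eq ▸ hx : x ∈ {x ∈ X.Ω | g.toFun x ∈ frontier (Icc lo hi)}).2
    · have a1 : Θ.invFun x ∈ X.bd := R.bd_eq ▸ ⟨Θ.mapsTo_inv hx.1, hx.2⟩
      have a2 := b1 (hUd (X.bd_sub a1))
      rw [Θ.right_inv hx.1] at a2
      exact a2 ▸ a1
  · rw [hg x hx]
    exact R.nat i x hx
  · rw [hlU i _ hUd]
    exact R.att i
  · rw [inter_inter_distrib_right, hlU i _ hUd, hlU j _ hUd, ← inter_inter_distrib_right]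
    exact R.att₂ i j hij
  · rw [hlU i _ (hU.trans hUd)]
    exact R.arc i φ hφ hU
  · refine LipschitzOnWith.of_dist_le_mul fun x hx y hy => ?_
    have a1 := hx.2
    have a2 := hy.2
    rw [hg x (hcd c hU hx.1)] at a1 ⊢
    rw [hg y (hcd c hU hy.1)] at a2 ⊢
    exact (R.lip i c hU).dist_le_mul x ⟨hx.1, a1⟩ y ⟨hy.1, a2⟩
  · rw [hlU i _ (hcd c hc)]
    exact R.discs i c hc h3
  · rw [hlu, hs 1 _ huΩ, img_inter Θ (inter_subset_left.trans huΩ) (hcΩ c) (b2 c),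
      (Θ.injOn.mono (inter_subset_right.trans (hcΩ c))).ncard_image]
    exact R.L_ge c hc hU
  · rw [hl]
    refine gen1_img Θ hKΩ b2 (hlΩ i) (fun x hx => ?_) (R.gen i)
    obtain ⟨r, hr, H⟩ := g.conical x hx.1
    refine ⟨r, hr, fun v hv hxv s hs => ⟨(H v hv hxv.1 s hs).1, ?_⟩⟩
    rw [(H v hv hxv.1 s hs).2, Pi.add_apply, Pi.smul_apply, Pi.sub_apply, hxv.2, hx.2, sub_self,
      smul_zero, add_zero]
  · rw [hl2, disjoint_iff_inter_eq_empty, hs 1 _ (inter_subset_left.trans (hlΩ i)),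
      hs 2 _ (inter_subset_left.trans (hlΩ i)), (R.gen₂ i j hf).1.inter_eq, image_empty]
    exact ⟨rfl, (R.gen₂ i j hf).2.image _⟩
  · rw [hlu, img_inter Θ huΩ (hcΩ e) (b2 e), ((b3 e he).mono inter_subset_right).image_eq]
    exact ⟨fun p hp => let ⟨c1, c2, c3, c4, c5, _⟩ := ((hθ e he).2 hU).1 p hp
      ⟨c1, c2, c3, c4, c5⟩, ((hθ e he).2 hU).2⟩
  · rw [hlu, img_inter Θ huΩ (hcΩ e) (b2 e), ((b3 e he).mono inter_subset_right).image_eq]
    exact fun p hp => (((hθ e he).2 hU).1 p hp).2.2.2.2.2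

end P073.Fi
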