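import Vale.Agent.P073Y.Fi.Sk
import Vale.Agent.P073Y.Bd.Bas
import Vale.Agent.P073Y.Bd.Map

/-!
# Matching the lower with the upper zones
-/

open Set Metric Topology Filter
open scoped NNReal

namespace P073.Fi

open P073.Bd (Band I cl PwLip)

namespace Mt

theorem pt_self (i : Fin 2) (s r : ℝ) : pt i s r i = s := if_pos rfl

theorem pt_rev (i : Fin 2) (s r : ℝ) : pt i s r i.rev = r := by
  fin_cases i <;> rfl

theorem pt_eq (i : Fin 2) (x : E2) : pt i (x i) (x i.rev) = x := by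
  funext j
  fin_cases i <;> fin_cases j <;> rfl

theorem pt_mem (i : Fin 2) {s r : ℝ} (hs : s ∈ I) (hr : r = 1 ∨ r = -1) : pt i s r ∈ Sq := by
  have h1 : |r| = 1 := by rcases hr with rfl | rfl <;> simp
  rw [mem_sphere_zero_iff_norm]
  refine le_antisymm ((pi_norm_le_iff_of_nonneg zero_le_one).2 fun j => ?_) ?_
  · rw [Real.norm_eq_abs]
    by_cases hj : j = i
    · rw [pt, if_pos hj]; exact abs_le.2 hs
    · rw [pt, if_neg hj, h1]
  · have := norm_le_pi_norm (pt i s r) i.rev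
    rwa [pt_rev, Real.norm_eq_abs, h1] at this

theorem pt_lip (i : Fin 2) (r : ℝ) : LipschitzWith 1 fun s => pt i s r := by
  refine LipschitzWith.of_dist_le_mul fun s t => ?_
  rw [NNReal.coe_one, one_mul]
  refine (dist_pi_le_iff dist_nonneg).2 fun j => ?_
  by_cases hj : j = i
  · simp [pt, hj]
  · simp [pt, hj]

theorem pt_pl (i : Fin 2) (r : ℝ) {X : Set ℝ} (hX : ConicalSet X) :
    PLOn (fun s => pt i s r) X := by
  refine A2.pl_pi hX fun j => ?_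
  by_cases hj : j = i
  · simpa [pt, hj] using A2.pl_id hX
  · simpa [pt, hj] using A2.pl_const r hX

theorem u_mem {g : Band E2} (h : g.On Sq) {x : E2} (hx : x ∈ Sq) : g.u x ∈ I := by
  by_cases hb : x ∈ g.B
  · exact h.ok.urange x hb
  · rcases h.out x hx hb with e | e <;> rw [e] <;> constructor <;> norm_num

/-- the facts on one band -/
structure One (ρ : ℝ) (i : Fin 2) (g : Band E2) (o a b : ℝ) (f : ℝ → ℝ) : Prop where
  sg : o = 1 ∨ o = -1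
  bd : -ρ < a ∧ a < b ∧ b < ρ ∧ -ρ < f a ∧ f b < ρ ∧ PLOn f (Icc a b) ∧ StrictMonoOn f (Icc a b)
  lo : ∀ s, pt i s (-1) ∈ g.B ↔ s ∈ Icc a b
  hi : ∀ s, pt i s 1 ∈ g.B ↔ s ∈ Icc (f a) (f b)
  eq : ∀ s ∈ Icc a b, g.u (pt i (f s) 1) = g.u (pt i s (-1))
  val : ∀ s ∈ I, (s ≤ a → g.u (pt i s (-1)) = -o) ∧ (b ≤ s → g.u (pt i s (-1)) = o) ∧
    (s ≤ f a → g.u (pt i s 1) = -o) ∧ (f b ≤ s → g.u (pt i s 1) = o)

theorem side {ζ : ℝ} {i : Fin 2} {g : Band E2} {y₀ y₁ : E2} (h : Opp ζ i g y₀ y₁) (hζ : 0 < ζ)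
    {o r a b : ℝ} (ho : o = 1 ∨ o = -1) (hr : r = 1 ∨ r = -1)
    (hm : MonotoneOn (fun s => o * g.u (pt i s r)) I) (hab : a < b)
    (hB : ∀ s, pt i s r ∈ g.B ↔ s ∈ Icc a b) (ha : o * g.u (pt i a r) = -1)
    (hb : o * g.u (pt i b r) = 1) :
    -(1 - 2 * ζ) < a ∧ b < 1 - 2 * ζ ∧ StrictMonoOn (fun s => o * g.u (pt i s r)) (Icc a b) ∧
      ∀ s ∈ I, (s ≤ a → g.u (pt i s r) = -o) ∧ (b ≤ s → g.u (pt i s r) = o) := by
  have h1 := h.mid _ ((hB a).2 ⟨le_rfl, hab.le⟩)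
  have h2 := h.mid _ ((hB b).2 ⟨hab.le, le_rfl⟩)
  rw [pt_self, abs_lt] at h1 h2
  have hsub : Icc a b ⊆ I := fun s hs => ⟨by linarith [hs.1], by linarith [hs.2]⟩
  refine ⟨h1.1, h2.2, (hm.mono hsub).strictMonoOn_of_injOn fun s hs t ht e => ?_,
    fun s hs => ⟨fun hsa => ?_, fun hbs => ?_⟩⟩
  · have e' : g.u (pt i s r) = g.u (pt i t r) := by
      rcases ho with rfl | rfl <;> simpa using e
    have := h.inj _ ((hB s).2 hs) _ ((hB t).2 ht) (by rw [pt_rev, pt_rev]) e'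
    simpa [pt_self] using congrFun this i
  · have e1 := hm hs (hsub ⟨le_rfl, hab.le⟩) hsa
    have e2 := u_mem h.on (pt_mem i hs hr)
    dsimp only at e1
    rcases ho with rfl | rfl <;> linarith [e2.1, e2.2]
  · have e1 := hm (hsub ⟨hab.le, le_rfl⟩) hs hbs
    have e2 := u_mem h.on (pt_mem i hs hr)
    dsimp only at e1
    rcases ho with rfl | rfl <;> linarith [e2.1, e2.2]

theorem one {ζ : ℝ} {i : Fin 2} {g : Band E2} {y₀ y₁ : E2} (h : Opp ζ i g y₀ y₁) (hζ : 0 < ζ) :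
    ∃ (o a b : ℝ) (f : ℝ → ℝ), One (1 - 2 * ζ) i g o a b f := by
  obtain ⟨o, ho, -, H⟩ := h.ori
  obtain ⟨m0, a, b, hab, hB, ha, hb⟩ := H (-1) (Or.inr rfl)
  obtain ⟨m1, a', b', hab', hB', ha', hb'⟩ := H 1 (Or.inl rfl)
  obtain ⟨p1, p2, p3, p4⟩ := side h hζ ho (Or.inr rfl) m0 hab hB ha hb
  obtain ⟨q1, q2, q3, q4⟩ := side h hζ ho (Or.inl rfl) m1 hab' hB' ha' hb'
  have hy : y₁ ∈ g.B := by
    have : y₁ ∈ g.W := by rw [h.W_eq]; exact Or.inr rfl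
    exact this.1
  have hu : ∀ s ∈ Icc a b, g.u (pt i s (-1)) ∈ I := fun s hs => h.on.ok.urange _ ((hB s).2 hs)
  set f : ℝ → ℝ := fun s => g.M (y₁, g.u (pt i s (-1))) i with hf
  have hp : ∀ s ∈ Icc a b, pt i (f s) 1 = g.M (y₁, g.u (pt i s (-1))) := fun s hs => by
    have e := h.side y₁ hy _ (hu s hs)
    rw [h.hi] at e
    have := pt_eq i (g.M (y₁, g.u (pt i s (-1))))
    rwa [e] at this
  have hm : ∀ s ∈ Icc a b, f s ∈ Icc a' b' := fun s hs => by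
    rw [← hB', hp s hs]
    exact (h.on.ok.Mmem y₁ hy _ (hu s hs)).1
  have he : ∀ s ∈ Icc a b, g.u (pt i (f s) 1) = g.u (pt i s (-1)) := fun s hs => by
    rw [hp s hs]
    exact (h.on.ok.Mmem y₁ hy _ (hu s hs)).2
  have hla : a ∈ Icc a b := ⟨le_rfl, hab.le⟩
  have hlb : b ∈ Icc a b := ⟨hab.le, le_rfl⟩
  have fa : f a = a' := q3.injOn (hm a hla) ⟨le_rfl, hab'.le⟩ (by
    rw [he a hla, ha, ha'])
  have fb : f b = b' := q3.injOn (hm b hlb) ⟨hab'.le, le_rfl⟩ (by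
    rw [he b hlb, hb, hb'])
  have hc : ConicalSet (Icc a b) := Convex.conicalSet (convex_Icc a b)
  have hpl : PLOn f (Icc a b) := by
    have h1 : PLOn (fun s => g.u (pt i s (-1))) (Icc a b) :=
      A2.pl_comp h.on.ok.upl (pt_pl i (-1) hc) fun s hs => (hB s).2 hs
    have h2 : PLOn (fun s => g.M (y₁, g.u (pt i s (-1)))) (Icc a b) :=
      A2.pl_comp h.on.ok.Mpl (A2.pl_prodMk (A2.pl_const y₁ hc) h1) fun s hs => ⟨hy, hu s hs⟩
    exact A2.pl_comp_univ (A2.pl_proj i A2.conicalSet_univ) h2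
  have hsm : StrictMonoOn f (Icc a b) := fun s hs t ht hst => by
    refine (q3.lt_iff_lt (hm s hs) (hm t ht)).1 ?_
    rw [he s hs, he t ht]
    exact p3 hs ht hst
  refine ⟨o, a, b, f, ho, ⟨p1, hab, p2, by rwa [fa], by rwa [fb], hpl, hsm⟩, hB,
    by rwa [fa, fb], he, fun s hs => ⟨(p4 s hs).1, (p4 s hs).2, ?_, ?_⟩⟩
  · rw [fa]; exact (q4 s hs).1
  · rw [fb]; exact (q4 s hs).2

variable {ρ : ℝ} {i : Fin 2}

theorem order {g g' : Band E2} {o a b o' a' b' : ℝ} {f f' : ℝ → ℝ} (hρ : ρ ≤ 1)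
    (h : One ρ i g o a b f) (h' : One ρ i g' o' a' b' f') (hd : Disjoint g.B g'.B)
    (hs : (∀ x ∈ g'.B, g.u x = 1) ∨ ∀ x ∈ g'.B, g.u x = -1) (hlt : b < a') : f b < f' a' := by
  obtain ⟨c1, c2, c3, c4, c5, -, c7⟩ := h'.bd
  have c8 : f' a' < f' b' := c7 ⟨le_rfl, c2.le⟩ ⟨c2.le, le_rfl⟩ c2
  have m0 : pt i a' (-1) ∈ g'.B := (h'.lo a').2 ⟨le_rfl, c2.le⟩
  have m1 : pt i (f' a') 1 ∈ g'.B := (h'.hi _).2 ⟨le_rfl, c8.le⟩
  have e : g.u (pt i (f' a') 1) = g.u (pt i a' (-1)) := by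
    rcases hs with hs | hs <;> rw [hs _ m0, hs _ m1]
  rw [(h.val a' ⟨by linarith, by linarith⟩).2.1 hlt.le] at e
  by_contra hn
  by_cases hle : f' a' ≤ f a
  · rw [(h.val (f' a') ⟨by linarith, by linarith⟩).2.2.1 hle] at e
    rcases h.sg with e' | e' <;> linarith
  · exact disjoint_left.1 hd ((h.hi _).2 ⟨(not_le.1 hle).le, not_lt.1 hn⟩) m1

theorem maps {ψ : ℝ → ℝ} (hρ : ρ ≤ 1) (hm : StrictMono ψ) (hf : ∀ s, ρ ≤ |s| → ψ s = s) {s : ℝ}
    (hs : s ∈ I) : ψ s ∈ I := by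
  have h1 := hm.monotone hs.1
  have h2 := hm.monotone hs.2
  rw [hf (-1) (by simpa using hρ)] at h1
  rw [hf 1 (by simpa using hρ)] at h2
  exact ⟨h1, h2⟩

theorem car {g : Band E2} {o a b : ℝ} {f ψ : ℝ → ℝ} (h : One ρ i g o a b f)
    (hm : StrictMono ψ) (hI : ∀ s ∈ I, ψ s ∈ I) (he : EqOn ψ f (Icc a b)) : Car i ψ g := by
  intro s hs
  have hab := h.bd.2.1
  have ea : ψ a = f a := he ⟨le_rfl, hab.le⟩
  have eb : ψ b = f b := he ⟨hab.le, le_rfl⟩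
  constructor
  · rw [h.hi, h.lo, ← ea, ← eb, mem_Icc, mem_Icc, hm.le_iff_le, hm.le_iff_le]
  rcases le_total s a with h1 | h1
  · rw [(h.val s hs).1 h1, (h.val _ (hI s hs)).2.2.1 (ea ▸ hm.monotone h1)]
  rcases le_total b s with h2 | h2
  · rw [(h.val s hs).2.1 h2, (h.val _ (hI s hs)).2.2.2 (eb ▸ hm.monotone h2)]
  · rw [he ⟨h1, h2⟩, h.eq s ⟨h1, h2⟩]

theorem cl_four {o : ℝ} (ho : o = 1 ∨ o = -1) : cl (2 * cl (2 * o)) = o := by
  rcases ho with rfl | rfl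
  · rw [Bd.Bas1.cl_of_ge (t := 2 * 1) (by norm_num), Bd.Bas1.cl_of_ge (by norm_num)]
  · rw [Bd.Bas1.cl_of_le (t := 2 * -1) (by norm_num), Bd.Bas1.cl_of_le (by norm_num)]

/-- the signed sum on a side is Lipschitz -/
theorem sum_lip {τ : Type} [Fintype τ] {Λ : ℝ≥0} (g : τ → Band E2) (o : τ → ℝ)
    (ho : ∀ t, o t = 1 ∨ o t = -1) (hg : ∀ t, (g t).On Sq)
    (hl : ∀ t, PwLip Λ (g t).half.half.u Sq) (hd : ∀ t t', t ≠ t' → Disjoint (g t).B (g t').B)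
    {r : ℝ} (hr : r = 1 ∨ r = -1) :
    LipschitzOnWith Λ (fun s => ∑ t, o t * (g t).half.half.u (pt i s r)) I := by
  classical
  refine Bd.Mp.lip_of_convex (convex_Icc _ _) (Bd.Mp.pw_sum Finset.univ
    (fun t => {s | pt i s r ∈ (g t).B}) (fun t s => o t * (g t).half.half.u (pt i s r))
    isClosed_Icc (fun t _ => ⟨?_, ?_, fun s hs hn => ?_⟩) fun t _ t' _ hne => ?_)
  · exact continuousOn_const.mul ((Bd.Bas1.half_on (Bd.Bas1.half_on (hg t))).upl.1.comp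
      (pt_lip i r).continuous.continuousOn fun s hs => pt_mem i hs hr)
  · obtain ⟨𝒞, h1, h2⟩ := hl t
    refine ⟨𝒞.image fun Y => (fun s => pt i s r) ⁻¹' Y, fun Z hZ => ?_, fun s hs => ?_⟩
    · obtain ⟨Y, hY, rfl⟩ := Finset.mem_image.1 hZ
      refine ⟨(h1 Y hY).1.preimage (pt_lip i r).continuous,
        LipschitzOnWith.of_dist_le_mul fun s hs s' hs' => ?_⟩
      have e1 := (h1 Y hY).2.dist_le_mul _ hs _ hs'
      have e2 := (pt_lip i r).dist_le_mul s s'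
      rw [NNReal.coe_one, one_mul] at e2
      have e3 : |o t| = 1 := by rcases ho t with e | e <;> rw [e] <;> simp
      rw [Real.dist_eq, ← mul_sub, abs_mul, e3, one_mul, ← Real.dist_eq]
      exact e1.trans (mul_le_mul_of_nonneg_left e2 Λ.2)
    · obtain ⟨Y, hY, hx⟩ := mem_iUnion₂.1 (h2 (pt_mem i hs hr))
      exact mem_iUnion₂.2 ⟨_, Finset.mem_image_of_mem _ hY, hx⟩
  · have e := (hg t).out _ (pt_mem i hs hr) hn
    change o t * cl (2 * cl (2 * (g t).u (pt i s r))) = 1 ∨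
      o t * cl (2 * cl (2 * (g t).u (pt i s r))) = -1
    rw [cl_four e]
    rcases ho t with e1 | e1 <;> rcases e with e2 | e2 <;> rw [e1, e2] <;> norm_num
  · exact disjoint_left.2 fun s h1 h2 => disjoint_left.1 (hd t t' hne) h1 h2

end Mt

open Mt in
theorem match_of (h : ONED) : MATCH := by
  intro τ _ ζ Λ i g y₀ y₁ hζ hζ4 hΛ hO hl hd
  have := Fintype.ofFinite τ
  choose o a b f H using fun t => one (hO t) hζ
  have hρ : 1 - 2 * ζ ≤ 1 := by linarith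
  obtain ⟨ψ, hm, hpl, hfix, he⟩ := h a b f (ρ := 1 - 2 * ζ) (by linarith) (fun t => (H t).bd)
    fun t t' hne => by
      have hab := (H t).bd.2.1
      have hab' := (H t').bd.2.1
      by_cases h1 : b t < a t'
      · exact Or.inl ⟨h1, order hρ (H t) (H t') (hd t t' hne).1 (hd t t' hne).2 h1⟩
      by_cases h2 : b t' < a t
      · exact Or.inr ⟨h2, order hρ (H t') (H t) (hd t' t hne.symm).1 (hd t' t hne.symm).2 h2⟩
      exact (disjoint_left.1 (hd t t' hne).1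
        (((H t).lo (max (a t) (a t'))).2 ⟨le_max_left _ _, max_le hab.le (not_lt.1 h1)⟩)
        (((H t').lo _).2 ⟨le_max_right _ _, max_le (not_lt.1 h2) hab'.le⟩)).elim
  have hI : ∀ s ∈ I, ψ s ∈ I := fun s hs => maps hρ hm hfix hs
  have hcar : ∀ t, Car i ψ (g t) := fun t => car (H t) hm hI (he t)
  refine ⟨ψ, hcar, ⟨hm, hpl, hfix, fun s hs => ?_⟩, ⟨hm, hpl, hfix, fun s hs => ?_⟩⟩
  · rw [div_mul_cancel₀ _ hζ.ne', abs_le]
    constructor <;> linarith [hs.1, hs.2, (hI s hs).1, (hI s hs).2]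
  rw [div_mul_cancel₀ _ hζ.ne', Nat.card_eq_fintype_card]
  have hm1 : (-1 : ℝ) ∈ I := ⟨le_rfl, by norm_num⟩
  have hp1 : (1 : ℝ) ∈ I := ⟨by norm_num, le_rfl⟩
  set F : ℝ → ℝ → ℝ := fun r s => ∑ t, o t * (g t).half.half.u (pt i s r) with hF
  have hends : ∀ r : ℝ, (r = 1 ∨ r = -1) → F r (-1) = -Fintype.card τ ∧ F r 1 = Fintype.card τ := by
    intro r hr
    have e : ∀ t, (g t).u (pt i (-1) r) = -o t ∧ (g t).u (pt i 1 r) = o t := fun t => by
      obtain ⟨c1, c2, c3, c4, c5, -, -⟩ := (H t).bd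
      rcases hr with rfl | rfl
      · exact ⟨((H t).val _ hm1).2.2.1 (by linarith), ((H t).val _ hp1).2.2.2 (by linarith)⟩
      · exact ⟨((H t).val _ hm1).1 (by linarith), ((H t).val _ hp1).2.1 (by linarith)⟩
    have e1 : ∀ t, o t * (g t).half.half.u (pt i (-1) r) = -1 := fun t => by
      change o t * cl (2 * cl (2 * (g t).u (pt i (-1) r))) = -1
      rw [(e t).1, cl_four (by rcases (H t).sg with e' | e' <;> rw [e'] <;> norm_num)]
      rcases (H t).sg with e' | e' <;> rw [e'] <;> norm_num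
    have e2 : ∀ t, o t * (g t).half.half.u (pt i 1 r) = 1 := fun t => by
      change o t * cl (2 * cl (2 * (g t).u (pt i 1 r))) = 1
      rw [(e t).2, cl_four (H t).sg]
      rcases (H t).sg with e' | e' <;> rw [e'] <;> norm_num
    simp [hF, e1, e2]
  have hlip : ∀ r : ℝ, (r = 1 ∨ r = -1) → ∀ s ∈ I,
      F r s + Fintype.card τ ≤ Λ * (s + 1) ∧ Fintype.card τ - F r s ≤ Λ * (1 - s) := by
    intro r hr s hs
    have L := sum_lip (i := i) g o (fun t => (H t).sg) (fun t => (hO t).on) hl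
      (fun t t' hne => (hd t t' hne).1) hr
    have e1 : dist (F r s) (F r (-1)) ≤ Λ * dist s (-1) := L.dist_le_mul s hs _ hm1
    have e2 : dist (F r 1) (F r s) ≤ Λ * dist 1 s := L.dist_le_mul _ hp1 s hs
    rw [(hends r hr).1, Real.dist_eq, Real.dist_eq, abs_of_nonneg (a := s - -1)
      (by linarith [hs.1])] at e1
    rw [(hends r hr).2, Real.dist_eq, Real.dist_eq, abs_of_nonneg (a := 1 - s)
      (by linarith [hs.2])] at e2
    constructor
    · linarith [le_abs_self (F r s - -Fintype.card τ)]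
    · linarith [le_abs_self (Fintype.card τ - F r s)]
  have hE : F 1 (ψ s) = F (-1) s := Finset.sum_congr rfl fun t _ => by
    change o t * cl (2 * cl (2 * (g t).u (pt i (ψ s) 1))) =
      o t * cl (2 * cl (2 * (g t).u (pt i s (-1))))
    rw [(hcar t s hs).2]
  obtain ⟨e1, e2⟩ := hlip (-1) (Or.inr rfl) s hs
  obtain ⟨e3, e4⟩ := hlip 1 (Or.inl rfl) _ (hI s hs)
  have hΛ' : (0 : ℝ) < Λ := hΛ
  have k1 : 2 * ((Fintype.card τ : ℝ) - 1) / Λ ≤ 2 - (ψ s - s) := by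
    rw [div_le_iff₀ hΛ']; linarith
  have k2 : 2 * ((Fintype.card τ : ℝ) - 1) / Λ ≤ 2 + (ψ s - s) := by
    rw [div_le_iff₀ hΛ']; linarith
  rw [abs_le]
  constructor <;> linarith

end P073.Fi
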