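import Vale.Agent.P073Y.Fi.Sk
import Vale.Agent.P073Z.A2.PL

/-!
# Strictly monotone PL interpolation on the line
-/

open Set

namespace P073.Fi

namespace Oned

open P073.A2

theorem pl_c (c : ℝ) : PLOn (fun _ : ℝ => c) univ := pl_const c conicalSet_univ

theorem pl_i : PLOn (fun s : ℝ => s) univ := pl_id conicalSet_univ

/-- continuation to the right of `m` -/
theorem ext {ψ g : ℝ → ℝ} {m n : ℝ} (h1 : StrictMono ψ) (h2 : PLOn ψ univ) (hmn : m ≤ n)
    (h3 : StrictMonoOn g (Icc m n)) (h4 : PLOn g (Icc m n)) (h5 : ψ m = g m) :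
    ∃ φ : ℝ → ℝ, StrictMono φ ∧ PLOn φ univ ∧ EqOn φ ψ (Iic m) ∧ EqOn φ g (Icc m n) ∧
      ∀ s, n ≤ s → φ s = g n + (s - n) := by
  let φ : ℝ → ℝ := fun s => ψ (min s m) + (g (max m (min s n)) - g m) + (max s n - n)
  have e1 : EqOn φ ψ (Iic m) := fun s (hs : s ≤ m) => by
    simp only [φ, min_eq_left hs, min_eq_left (hs.trans hmn), max_eq_left hs,
      max_eq_right (hs.trans hmn), sub_self, add_zero]
  have e2 : EqOn φ g (Icc m n) := fun s hs => by
    simp only [φ, min_eq_right hs.1, min_eq_left hs.2, max_eq_right hs.1, max_eq_right hs.2, h5]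
    ring
  have e3 : ∀ s, n ≤ s → φ s = g n + (s - n) := fun s hs => by
    simp only [φ, min_eq_right (hmn.trans hs), min_eq_right hs, max_eq_right hmn, max_eq_left hs,
      h5]
    ring
  refine ⟨φ, StrictMonoOn.Iic_union_Ici (a := n) ?_ fun s hs t ht hst => ?_, ?_, e1, e2, e3⟩
  · rw [← Iic_union_Icc_eq_Iic hmn]
    exact ((h1.strictMonoOn _).congr e1.symm).union (h3.congr e2.symm) isGreatest_Iic
      (isLeast_Icc hmn)
  · rw [e3 s hs, e3 t ht]
    linarith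
  · exact pl_add (pl_add (pl_comp_univ h2 (pl_min pl_i (pl_c m))) (pl_sub (pl_comp h4
      (pl_max (pl_c m) (pl_min pl_i (pl_c n))) fun s _ => ⟨le_max_left _ _,
        max_le hmn (min_le_right _ _)⟩) (pl_c _))) (pl_sub (pl_max pl_i (pl_c n)) (pl_c n))

/-- affine continuation to the right of `m` -/
theorem lin {ψ : ℝ → ℝ} {m n n' : ℝ} (h1 : StrictMono ψ) (h2 : PLOn ψ univ) (hmn : m < n)
    (h3 : ψ m < n') : ∃ φ : ℝ → ℝ, StrictMono φ ∧ PLOn φ univ ∧ EqOn φ ψ (Iic m) ∧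
      ∀ s, n ≤ s → φ s = n' + (s - n) := by
  have hc : 0 < (n' - ψ m) / (n - m) := div_pos (sub_pos.2 h3) (sub_pos.2 hmn)
  obtain ⟨φ, a1, a2, a3, -, a4⟩ := ext (g := fun s => ψ m + (n' - ψ m) / (n - m) * (s - m)) h1 h2
    hmn.le (fun s _ t _ hst => by
      have := mul_lt_mul_of_pos_left (sub_lt_sub_right hst m) hc
      linarith)
    (pl_mono (pl_add (pl_c _) (pl_mul _ (pl_sub pl_i (pl_c m)))) (locCone_Icc m n).conicalSet
      (subset_univ _)) (by simp)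
  refine ⟨φ, a1, a2, a3, fun s hs => ?_⟩
  rw [a4 s hs, div_mul_cancel₀ _ (sub_pos.2 hmn).ne']
  ring

end Oned

open Oned in
theorem oned : ONED := by
  intro τ _ a b f ρ hρ h1 h2
  classical
  have key : ∀ s : Finset τ, ∀ m m', -ρ < m → -ρ < m' → (∀ t ∈ s, b t < m ∧ f t (b t) < m') →
      ∃ ψ : ℝ → ℝ, StrictMono ψ ∧ PLOn ψ univ ∧ EqOn ψ id (Iic (-ρ)) ∧
        (∀ x, m ≤ x → ψ x = m' + (x - m)) ∧ ∀ t ∈ s, EqOn ψ (f t) (Icc (a t) (b t)) := by
    intro s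
    induction s using Finset.induction_on_max_value b with
    | empty =>
      intro m m' hm hm' _
      obtain ⟨ψ, a1, a2, a3, a4⟩ := lin (ψ := id) strictMono_id pl_i hm hm'
      exact ⟨ψ, a1, a2, a3, a4, fun _ ht => absurd ht (Finset.notMem_empty _)⟩
    | insert t₀ s ht₀ hmax ih =>
      intro m m' _ _ hs
      obtain ⟨b1, b2, -, b3, -, b4, b5⟩ := h1 t₀
      have hlt : ∀ t ∈ s, b t < a t₀ ∧ f t (b t) < f t₀ (a t₀) := fun t ht =>
        (h2 t t₀ fun e => ht₀ (e ▸ ht)).resolve_right fun h => by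
          linarith [h.1, hmax t ht, (h1 t).2.1]
      obtain ⟨ψ₀, a1, a2, a3, a4, a5⟩ := ih _ _ b1 b3 hlt
      obtain ⟨ψ₁, c1, c2, c3, c4, -⟩ := ext a1 a2 b2.le b5 b4 (by rw [a4 _ le_rfl]; ring)
      obtain ⟨h3, h4⟩ := hs t₀ (Finset.mem_insert_self _ _)
      obtain ⟨ψ, d1, d2, d3, d4⟩ := lin c1 c2 h3 ((c4 (right_mem_Icc.2 b2.le)).trans_lt h4)
      have e : EqOn ψ ψ₀ (Iic (a t₀)) := (d3.mono (Iic_subset_Iic.2 b2.le)).trans c3
      refine ⟨ψ, d1, d2, (e.mono (Iic_subset_Iic.2 b1.le)).trans a3, d4, fun t ht => ?_⟩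
      rcases Finset.mem_insert.1 ht with rfl | ht
      · exact (d3.mono Icc_subset_Iic_self).trans c4
      · exact (e.mono fun x hx => hx.2.trans (hlt t ht).1.le).trans (a5 t ht)
  have := Fintype.ofFinite τ
  obtain ⟨ψ, a1, a2, a3, a4, a5⟩ := key Finset.univ ρ ρ (by linarith) (by linarith)
    fun t _ => ⟨(h1 t).2.2.1, (h1 t).2.2.2.2.1⟩
  refine ⟨ψ, a1, a2, fun s hs => ?_, fun t => a5 t (Finset.mem_univ t)⟩
  rcases le_abs'.1 hs with h | h
  · exact a3 h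
  · rw [a4 s h]
    ring

end P073.Fi
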