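import Vale.Agent.P073Y.Fi.Sk

/-!
# Arcs which join opposite sides of the square
-/

open Set Metric Topology Filter
open scoped NNReal

namespace P073.Fi

open P073.Bd

namespace OppA

theorem rev_ne (i : Fin 2) : i.rev ≠ i := by
  revert i
  decide

theorem cases_i (i j : Fin 2) : j = i ∨ j = i.rev := by
  revert i j
  decide

theorem pt_i (i : Fin 2) (s r : ℝ) : pt i s r i = s := if_pos rfl

theorem pt_rev (i : Fin 2) (s r : ℝ) : pt i s r i.rev = r := if_neg (rev_ne i)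

theorem pt_eq (i : Fin 2) (x : E2) : pt i (x i) (x i.rev) = x := by
  funext j
  rcases cases_i i j with rfl | rfl
  exacts [pt_i _ _ _, pt_rev _ _ _]

theorem mem_Sq (i : Fin 2) {x : E2} : x ∈ Sq ↔ max |x i| |x i.rev| = 1 := by
  have e : ‖x‖ = max |x i| |x i.rev| := by
    refine le_antisymm ((pi_norm_le_iff_of_nonneg (le_max_of_le_left (abs_nonneg _))).2 fun j => ?_)
      (max_le (norm_le_pi_norm x i) (norm_le_pi_norm x i.rev))
    rcases cases_i i j with rfl | rfl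
    exacts [le_max_left _ _, le_max_right _ _]
  rw [mem_sphere_zero_iff_norm, e]

theorem pt_mem (i : Fin 2) {s r : ℝ} (hs : s ∈ I) (hr : r = 1 ∨ r = -1) : pt i s r ∈ Sq := by
  rw [mem_Sq i, pt_i, pt_rev]
  have : |r| = 1 := by rcases hr with rfl | rfl <;> simp
  rw [this]
  exact max_eq_right (abs_le.2 hs)

theorem pt_mem' (i : Fin 2) {s r : ℝ} (hs : s = 1 ∨ s = -1) (hr : r ∈ I) : pt i s r ∈ Sq := by
  rw [mem_Sq i, pt_i, pt_rev]
  have : |s| = 1 := by rcases hs with rfl | rfl <;> simp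
  rw [this]
  exact max_eq_left (abs_le.2 hr)

theorem cont_pt (i : Fin 2) : Continuous fun q : ℝ × ℝ => pt i q.1 q.2 := by
  refine continuous_pi fun j => ?_
  rcases cases_i i j with rfl | rfl
  · simpa only [pt_i] using continuous_fst
  · simpa only [pt_rev] using continuous_snd

theorem const_pm {f : ℝ → ℝ} {a b : ℝ} (hf : ContinuousOn f (Icc a b))
    (h : ∀ t ∈ Icc a b, f t = 1 ∨ f t = -1) {s t : ℝ} (hs : s ∈ Icc a b) (ht : t ∈ Icc a b) :
    f s = f t := by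
  have key : ∀ s ∈ Icc a b, ∀ t ∈ Icc a b, f s = -1 → f t = 1 → False := by
    intro s hs t ht e1 e2
    obtain ⟨c, hc, e⟩ := isPreconnected_Icc.intermediate_value hs ht hf
      (show (0:ℝ) ∈ Icc (f s) (f t) by rw [e1, e2]; constructor <;> norm_num)
    rcases h c hc with e' | e' <;> rw [e'] at e <;> norm_num at e
  rcases h s hs with e1 | e1 <;> rcases h t ht with e2 | e2
  · rw [e1, e2]
  · exact (key t ht s hs e2 e1).elim
  · exact (key s hs t ht e1 e2).elim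
  · rw [e1, e2]

variable {g : Band E2} {i : Fin 2} {ρ : ℝ}

theorem u_mem (hg : g.On Sq) {x : E2} (hx : x ∈ Sq) : g.u x ∈ I := by
  by_cases h : x ∈ g.B
  · exact hg.ok.urange x h
  · rcases hg.out x hx h with e | e <;> rw [e] <;> constructor <;> norm_num

theorem rev_pm (hg : g.On Sq) (hρ : ρ ≤ 1) (hm : ∀ x ∈ g.B, |x i| < ρ) {x : E2} (hx : x ∈ g.B) :
    x i.rev = 1 ∨ x i.rev = -1 := by
  have h1 := (mem_Sq i).1 (hg.sub hx)
  have h2 := hm x hx
  rcases max_choice |x i| |x i.rev| with e | e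
  · linarith
  · exact (abs_eq zero_le_one).1 (e.symm.trans h1)

theorem cont_M (hg : g.On Sq) {x : E2} (hx : x ∈ g.B) :
    ContinuousOn (fun s => g.M (x, s)) I :=
  hg.ok.Mpl.1.comp (Continuous.prodMk_right x).continuousOn fun _ hs => ⟨hx, hs⟩

theorem side (hg : g.On Sq) (hρ : ρ ≤ 1) (hm : ∀ x ∈ g.B, |x i| < ρ) {x : E2} (hx : x ∈ g.B)
    {s : ℝ} (hs : s ∈ I) : g.M (x, s) i.rev = x i.rev := by
  have h := const_pm (f := fun s => g.M (x, s) i.rev)
    ((continuous_apply i.rev).comp_continuousOn (cont_M hg hx))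
    (fun t ht => rev_pm hg hρ hm (hg.ok.Mmem x hx t ht).1) hs (hg.ok.urange x hx)
  simpa only [hg.ok.Mid x hx] using h

theorem zero_mem : (0:ℝ) ∈ I := ⟨by norm_num, by norm_num⟩

theorem through (hg : g.On Sq) (hρ : ρ ≤ 1) (hm : ∀ x ∈ g.B, |x i| < ρ) {y : E2}
    (hy : ∀ y' ∈ g.W, y' i.rev = y i.rev → y' = y) {x : E2} (hx : x ∈ g.B)
    (e : x i.rev = y i.rev) : g.M (y, g.u x) = x := by
  have h1 := hg.ok.Mmem x hx 0 zero_mem
  rw [← hy _ h1 ((side hg hρ hm hx zero_mem).trans e),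
    hg.ok.MM x hx 0 zero_mem _ (hg.ok.urange x hx), hg.ok.Mid x hx]

/-- the part of the band on one side -/
theorem part (hg : g.On Sq) (hρ : ρ ≤ 1) (hm : ∀ x ∈ g.B, |x i| < ρ) {y : E2} (hyW : y ∈ g.W)
    (hy : ∀ y' ∈ g.W, y' i.rev = y i.rev → y' = y) {r : ℝ} (hr : y i.rev = r) :
    ∃ o : ℝ, (o = 1 ∨ o = -1) ∧ MonotoneOn (fun s => o * g.u (pt i s r)) I ∧
      (∀ s ∈ I, (ρ ≤ s → g.u (pt i s r) = o) ∧ (s ≤ -ρ → g.u (pt i s r) = -o)) ∧
      ∃ a b : ℝ, a < b ∧ (∀ s, pt i s r ∈ g.B ↔ s ∈ Icc a b) ∧ o * g.u (pt i a r) = -1 ∧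
        o * g.u (pt i b r) = 1 := by
  have hr1 : r = 1 ∨ r = -1 := hr ▸ rev_pm hg hρ hm hyW.1
  have e0 : ∀ s ∈ I, pt i (g.M (y, s) i) r = g.M (y, s) := fun s hs => by
    rw [← hr, ← side hg hρ hm hyW.1 hs, pt_eq]
  have hc : ContinuousOn (fun s => g.M (y, s) i) I :=
    (continuous_apply i).comp_continuousOn (cont_M hg hyW.1)
  have hi : InjOn (fun s => g.M (y, s) i) I := fun s hs t ht e => by
    have e' : g.M (y, s) i = g.M (y, t) i := e
    rw [← (hg.ok.Mmem y hyW.1 s hs).2, ← (hg.ok.Mmem y hyW.1 t ht).2, ← e0 s hs, e', e0 t ht]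
  obtain ⟨o, ho, hmono⟩ : ∃ o : ℝ, (o = 1 ∨ o = -1) ∧
      StrictMonoOn (fun s => g.M (y, o * s) i) I := by
    rcases ContinuousOn.strictMonoOn_of_injOn_Icc' (by norm_num) hc hi with h | h
    · exact ⟨1, Or.inl rfl, by simpa only [one_mul] using h⟩
    · refine ⟨-1, Or.inr rfl, fun s hs t ht hst => h ?_ ?_ (by linarith)⟩
      · exact ⟨by linarith [ht.2], by linarith [ht.1]⟩
      · exact ⟨by linarith [hs.2], by linarith [hs.1]⟩
  have oI : ∀ s ∈ I, o * s ∈ I := fun s hs => by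
    rcases ho with rfl | rfl
    · rwa [one_mul]
    · exact ⟨by linarith [hs.2], by linarith [hs.1]⟩
  have oo : ∀ s, o * (o * s) = s := fun s => by rcases ho with rfl | rfl <;> ring
  set ψ : ℝ → ℝ := fun s => g.M (y, o * s) i with hψ
  have m1 : (-1:ℝ) ∈ I := ⟨le_rfl, by norm_num⟩
  have p1 : (1:ℝ) ∈ I := ⟨by norm_num, le_rfl⟩
  have cψ : ContinuousOn ψ I := hc.comp (continuous_const.mul continuous_id).continuousOn oI
  have e1 : ∀ s ∈ I, pt i (ψ s) r ∈ g.B ∧ o * g.u (pt i (ψ s) r) = s := fun s hs => by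
    have h := hg.ok.Mmem y hyW.1 _ (oI s hs)
    rw [hψ]
    simp only
    rw [e0 _ (oI s hs), h.2, oo]
    exact ⟨h.1, rfl⟩
  have e2 : ∀ s ∈ Icc (ψ (-1)) (ψ 1), ∃ t ∈ I, ψ t = s := fun s hs =>
    isPreconnected_Icc.intermediate_value m1 p1 cψ hs
  have e3 : ∀ s, pt i s r ∈ g.B ↔ s ∈ Icc (ψ (-1)) (ψ 1) := by
    refine fun s => ⟨fun h => ?_, fun h => ?_⟩
    · have h1 := through hg hρ hm hy h ((pt_rev i s r).trans hr.symm)
      have h2 := oI _ (hg.ok.urange _ h)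
      have h3 : ψ (o * g.u (pt i s r)) = s := by
        rw [hψ]
        simp only
        rw [oo, h1, pt_i]
      rw [← h3]
      exact ⟨hmono.monotoneOn m1 h2 h2.1, hmono.monotoneOn h2 p1 h2.2⟩
    · obtain ⟨t, ht, rfl⟩ := e2 s h
      exact (e1 t ht).1
  have ba : |ψ (-1)| < ρ := by simpa only [pt_i] using hm _ (e1 _ m1).1
  have bb : |ψ 1| < ρ := by simpa only [pt_i] using hm _ (e1 _ p1).1
  obtain ⟨a1, a2⟩ := abs_lt.1 ba
  obtain ⟨b1, b2⟩ := abs_lt.1 bb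
  have cu : ContinuousOn (fun s => o * g.u (pt i s r)) I :=
    continuousOn_const.mul (hg.upl.1.comp
      ((cont_pt i).comp (Continuous.prodMk_left r)).continuousOn fun s hs => pt_mem i hs hr1)
  have pm : ∀ s ∈ I, s ∉ Icc (ψ (-1)) (ψ 1) →
      o * g.u (pt i s r) = 1 ∨ o * g.u (pt i s r) = -1 := fun s hs h => by
    rcases hg.out _ (pt_mem i hs hr1) (fun h' => h ((e3 s).1 h')) with e | e <;>
      rcases ho with rfl | rfl <;> rw [e] <;> norm_num
  have hiE : ∀ s ∈ I, ψ 1 ≤ s → o * g.u (pt i s r) = 1 := fun s hs h => by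
    have sub : Icc (ψ 1) 1 ⊆ I := Icc_subset_Icc_left (by linarith)
    refine (const_pm (cu.mono sub) (fun t ht => ?_) ⟨h, hs.2⟩ ⟨le_rfl, by linarith⟩).trans
      (e1 1 p1).2
    rcases ht.1.eq_or_lt with e | e
    · exact Or.inl (e ▸ (e1 1 p1).2)
    · exact pm t (sub ht) fun h' => absurd h'.2 (not_le.2 e)
  have loE : ∀ s ∈ I, s ≤ ψ (-1) → o * g.u (pt i s r) = -1 := fun s hs h => by
    have sub : Icc (-1) (ψ (-1)) ⊆ I := Icc_subset_Icc_right (by linarith)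
    refine (const_pm (cu.mono sub) (fun t ht => ?_) ⟨hs.1, h⟩ ⟨by linarith, le_rfl⟩).trans
      (e1 _ m1).2
    rcases ht.2.eq_or_lt with e | e
    · exact Or.inr (e ▸ (e1 _ m1).2)
    · exact pm t (sub ht) fun h' => absurd h'.1 (not_le.2 e)
  refine ⟨o, ho, fun s hs t ht hst => ?_, fun s hs => ⟨fun h => ?_, fun h => ?_⟩, ψ (-1), ψ 1,
    hmono m1 p1 (by norm_num), e3, (e1 _ m1).2, (e1 _ p1).2⟩
  · rcases le_total s (ψ (-1)) with h1 | h1
    · exact (loE s hs h1).le.trans (oI _ (u_mem hg (pt_mem i ht hr1))).1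
    rcases le_total (ψ 1) t with h2 | h2
    · exact (oI _ (u_mem hg (pt_mem i hs hr1))).2.trans (hiE t ht h2).ge
    obtain ⟨s', hs', rfl⟩ := e2 s ⟨h1, hst.trans h2⟩
    obtain ⟨t', ht', rfl⟩ := e2 t ⟨h1.trans hst, h2⟩
    exact (e1 s' hs').2.le.trans (((hmono.le_iff_le hs' ht').1 hst).trans (e1 t' ht').2.ge)
  · rw [← oo (g.u _), hiE s hs (by linarith), mul_one]
  · rw [← oo (g.u _), loE s hs (by linarith), mul_neg_one]

theorem opp_of {ζ : ℝ} (hζ : 0 < ζ) (hg : g.On Sq) {y₀ y₁ : E2} (hW : g.W = {y₀, y₁})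
    (lo : y₀ i.rev = -1) (hi : y₁ i.rev = 1) (hm : ∀ x ∈ g.B, |x i| < 1 - 2 * ζ) :
    Opp ζ i g y₀ y₁ := by
  have hρ : 1 - 2 * ζ ≤ 1 := by linarith
  have hy : ∀ y ∈ g.W, ∀ y' ∈ g.W, y' i.rev = y i.rev → y' = y := by
    rw [hW]
    rintro y (rfl | rfl) y' (rfl | rfl) e
    · rfl
    · rw [lo, hi] at e
      norm_num at e
    · rw [lo, hi] at e
      norm_num at e
    · rfl
  have w0 : y₀ ∈ g.W := hW.ge (Or.inl rfl)
  have w1 : y₁ ∈ g.W := hW.ge (Or.inr rfl)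
  have hρ0 : 0 < 1 - 2 * ζ := (abs_nonneg _).trans_lt (hm _ w0.1)
  refine ⟨hg, hW, lo, hi, hm, fun x hx s hs => side hg hρ hm hx hs, fun x hx x' hx' e e' => ?_, ?_⟩
  · have h1 := hg.ok.Mmem x hx 0 zero_mem
    have h2 := (side hg hρ hm hx zero_mem).symm
    rw [← through hg hρ hm (hy _ h1) hx h2, e', through hg hρ hm (hy _ h1) hx' (e.symm.trans h2)]
  obtain ⟨o, ho, m1, c1, r1⟩ := part hg hρ hm w1 (hy _ w1) hi
  obtain ⟨o', ho', m0, c0, r0⟩ := part hg hρ hm w0 (hy _ w0) lo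
  have n1 : (-1:ℝ) ∈ I := ⟨le_rfl, by norm_num⟩
  have p1 : (1:ℝ) ∈ I := ⟨by norm_num, le_rfl⟩
  have vert : ∀ s : ℝ, (s = 1 ∨ s = -1) → ∀ t ∈ I, g.u (pt i s t) = g.u (pt i s 1) := by
    intro s hs t ht
    refine const_pm (f := fun t => g.u (pt i s t)) (hg.upl.1.comp
      ((cont_pt i).comp (Continuous.prodMk_right s)).continuousOn fun t ht => pt_mem' i hs ht)
      (fun t ht => hg.out _ (pt_mem' i hs ht) fun h => ?_) ht p1
    have h1 := hm _ h
    rw [pt_i] at h1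
    rcases hs with rfl | rfl <;> simp at h1 <;> linarith
  obtain rfl : o' = o := by
    rw [← (c0 1 p1).1 hρ, vert 1 (Or.inl rfl) _ n1, (c1 1 p1).1 hρ]
  refine ⟨o', ho, fun x hx => ?_, ?_⟩
  · have h1 := (mem_Sq i).1 hx
    have xi : x i ∈ I := abs_le.1 ((le_max_left _ _).trans h1.le)
    have xr : x i.rev ∈ I := abs_le.1 ((le_max_right _ _).trans h1.le)
    rw [← pt_eq i x, pt_i]
    rcases max_choice |x i| |x i.rev| with e | e
    · have h2 := (abs_eq zero_le_one).1 (e.symm.trans h1)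
      rw [vert _ h2 _ xr]
      exact c1 _ xi
    · rcases (abs_eq zero_le_one).1 (e.symm.trans h1) with h2 | h2 <;> rw [h2]
      exacts [c1 _ xi, c0 _ xi]
  · rintro r (rfl | rfl)
    exacts [⟨m1, r1⟩, ⟨m0, r0⟩]

end OppA

open OppA

theorem opp : OPP := by
  intro L Λ κ D g ζ hg hζ k hk
  have hm : ∀ x ∈ (g k).B, |x (D.co k)| < 1 - 2 * ζ := fun x hx => hk.1 x ((hg.B_eq k).le hx)
  have hρ : 1 - 2 * ζ ≤ 1 := by linarith
  have hp := rev_pm (hg.on k) hρ hm ((hg.W_eq k).ge (Or.inl rfl)).1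
  have hq := rev_pm (hg.on k) hρ hm ((hg.W_eq k).ge (Or.inr rfl)).1
  rcases hp with hp | hp <;> rcases hq with hq | hq
  · exact absurd (hp.trans hq.symm) hk.2
  · exact Or.inr (opp_of hζ (hg.on k) ((hg.W_eq k).trans (pair_comm _ _)) hq hp hm)
  · exact Or.inl (opp_of hζ (hg.on k) (hg.W_eq k) hp hq hm)
  · exact absurd (hp.trans hq.symm) hk.2

end P073.Fi
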