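import Vale.Agent.P073Y.Fi.Sk
import Vale.Agent.P073Y.Bd.Map

/-!
# The shear of the square
-/

open Set Metric Topology Filter MeasureTheory
open scoped NNReal ENNReal

namespace P073.Fi

open P073.Bd (Band I cl Match Sgn Comm Ext PwLip)

variable {ψ : ℝ → ℝ} {K ζ s r r' : ℝ}

theorem sh_strictMono (h : StrictMono ψ) (K ζ r : ℝ) : StrictMono fun s => sh ψ K ζ s r :=
  fun _ _ hs => max_lt_max (by linarith) (min_lt_min (h hs) (by linarith))

theorem sh_of_eq (hK : 0 ≤ K) (h : ψ s = s) : sh ψ K ζ s r = s := by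
  have : 0 ≤ K * max 0 (2 * ζ - (1 + r)) := mul_nonneg hK (le_max_left _ _)
  unfold sh
  rw [h, min_eq_left (by linarith), max_eq_right (by linarith)]

theorem sh_fix (hK : 0 ≤ K) (h : Rep ζ K ψ) (hs : 1 - 2 * ζ ≤ |s|) : sh ψ K ζ s r = s :=
  sh_of_eq hK (h.fix s hs)

theorem sh_top (hr : -1 + 2 * ζ ≤ r) : sh ψ K ζ s r = s := by
  unfold sh
  rw [max_eq_left (by linarith : 2 * ζ - (1 + r) ≤ 0), mul_zero, sub_zero, add_zero,
    max_eq_left (min_le_right _ _)]

theorem sh_bot (hK : 0 ≤ K) (h : Rep ζ K ψ) (hr : r ≤ -1 + ζ) (hs : s ∈ I) :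
    sh ψ K ζ s r = ψ s := by
  have h1 : K * ζ ≤ K * max 0 (2 * ζ - (1 + r)) :=
    mul_le_mul_of_nonneg_left (le_max_of_le_right (by linarith)) hK
  have h2 := abs_le.1 (h.near s hs)
  unfold sh
  rw [min_eq_left (by linarith [h2.2]), max_eq_right (by linarith [h2.1])]

theorem sh_mem (hζ : 0 ≤ ζ) (hK : 0 ≤ K) (h : Rep ζ K ψ) (hs : s ∈ I) : sh ψ K ζ s r ∈ I := by
  have hm := (sh_strictMono h.mono K ζ r).monotone
  have h1 : sh ψ K ζ 1 r = 1 := sh_fix hK h (by rw [abs_one]; linarith)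
  have h2 : sh ψ K ζ (-1) r = -1 := sh_fix hK h (by rw [abs_neg, abs_one]; linarith)
  exact ⟨h2.ge.trans (hm hs.1), (hm hs.2).trans h1.le⟩

theorem sh_congr (h : max 0 (2 * ζ - (1 + r)) = max 0 (2 * ζ - (1 + r'))) :
    sh ψ K ζ s r = sh ψ K ζ s r' := by
  unfold sh
  rw [h]

theorem tau_sh (hK : 0 ≤ K) (h : Rep ζ K ψ) (s r : ℝ) :
    max 0 (2 * ζ - (1 + sh ψ K ζ s r)) = max 0 (2 * ζ - (1 + s)) := by
  rcases le_total s (-(1 - 2 * ζ)) with hs | hs
  · rw [sh_fix hK h ((le_neg.1 hs).trans (neg_le_abs s))]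
  · have h1 : sh ψ K ζ (-(1 - 2 * ζ)) r = -(1 - 2 * ζ) :=
      sh_fix hK h (by rw [abs_neg]; exact le_abs_self _)
    have h2 := (sh_strictMono h.mono K ζ r).monotone hs
    simp only [h1] at h2
    rw [max_eq_left (by linarith), max_eq_left (by linarith)]

theorem Rep.continuous (h : Rep ζ K ψ) : Continuous ψ := continuousOn_univ.1 h.pl.1

theorem continuous_sh (h : Continuous ψ) {T : Type} [TopologicalSpace T] {a b : T → ℝ}
    (ha : Continuous a) (hb : Continuous b) : Continuous fun x => sh ψ K ζ (a x) (b x) := by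
  unfold sh
  fun_prop

theorem conicalOn_sh (h : PLOn ψ univ) (i j : Fin 2) :
    ConicalOn (fun x : E2 => sh ψ K ζ (x i) (x j)) univ := by
  have hu : ConicalSet (univ : Set E2) := IsOpen.conicalSet isOpen_univ
  have hc : Continuous ψ := continuousOn_univ.1 h.1
  have h1 : ∀ m : Fin 2, ConicalOn (fun x : E2 => x m) univ := fun m =>
    conicalOn_linear (LinearMap.proj m : E2 →ₗ[ℝ] ℝ) hu
  have h2 : ConicalOn (fun x : E2 => K • max 0 (2 * ζ - (1 + x j))) univ :=
    ConicalOn.const_smul _ ((conicalOn_const 0 hu).rmax ((conicalOn_const _ hu).sub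
      ((conicalOn_const 1 hu).add (h1 j))) (by fun_prop) (by fun_prop))
  have h3 : ConicalOn (fun x : E2 => ψ (x i)) univ :=
    h.2.comp (h1 i) (mapsTo_univ _ _) (by fun_prop)
  exact ((h1 i).sub h2).rmax (h3.rmin ((h1 i).add h2) (by fun_prop) (by fun_prop)) (by fun_prop)
    (by fun_prop)

theorem mem_Q {x : E2} : x ∈ Q ↔ ∀ i, x i ∈ I := by
  rw [mem_closedBall_zero_iff, pi_norm_le_iff_of_nonneg zero_le_one]
  exact forall_congr' fun i => by rw [Real.norm_eq_abs, abs_le]; rfl

theorem shear : SHEAR := by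
  intro ζ hζ _
  refine ⟨fun ψ K h => ?_, fun {ψ F K M} i h hF hF' => ?_⟩
  · have hc : Continuous fun (x : E2) (i : Fin 2) => sh (ψ i) (K i) ζ (x i) (x i.rev) :=
      continuous_pi fun i => continuous_sh (h i).2.continuous (continuous_apply _)
        (continuous_apply _)
    have hu : ConicalSet (univ : Set E2) := IsOpen.conicalSet isOpen_univ
    have hcon : ConicalOn (fun (x : E2) (i : Fin 2) => sh (ψ i) (K i) ζ (x i) (x i.rev)) univ :=
      fun x hx => conicalWithinAt_pi (hu x hx) fun i => conicalOn_sh (h i).2.pl i i.rev x hx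
    refine ⟨ConHomeo.ofCompact (isCompact_closedBall 0 1)
      (fun (x : E2) (i : Fin 2) => sh (ψ i) (K i) ζ (x i) (x i.rev)) hc.continuousOn
      (fun x _ y _ hxy => ?_) (hcon.mono (locCone_closedBall_pi _ _).conicalSet (subset_univ _))
      (Subset.antisymm ?_ fun y hy => ?_), fun x _ i =>
      congrFun (congrFun (ConHomeo.ofCompact_toFun _ _ _ _ _ _) x) i⟩
    · have ht : ∀ j, max 0 (2 * ζ - (1 + x j)) = max 0 (2 * ζ - (1 + y j)) := fun j => by
        rw [← tau_sh (h j).1 (h j).2 (x j) (x j.rev), ← tau_sh (h j).1 (h j).2 (y j) (y j.rev)]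
        exact congrArg (fun v : E2 => max 0 (2 * ζ - (1 + v j))) hxy
      funext i
      have h1 : sh (ψ i) (K i) ζ (x i) (x i.rev) = sh (ψ i) (K i) ζ (y i) (y i.rev) :=
        congrFun hxy i
      rw [sh_congr (ht i.rev)] at h1
      exact (sh_strictMono (h i).2.mono _ _ _).injective h1
    · rintro _ ⟨x, hx, rfl⟩
      exact mem_Q.2 fun i => sh_mem hζ.le (h i).1 (h i).2 (mem_Q.1 hx i)
    · have key : ∀ i, ∃ s ∈ I, sh (ψ i) (K i) ζ s (y i.rev) = y i := fun i => by
        refine intermediate_value_Icc (by norm_num) (continuous_sh (h i).2.continuous continuous_id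
          continuous_const).continuousOn ?_
        have h1 : sh (ψ i) (K i) ζ 1 (y i.rev) = 1 :=
          sh_fix (h i).1 (h i).2 (by rw [abs_one]; linarith)
        have h2 : sh (ψ i) (K i) ζ (-1) (y i.rev) = -1 :=
          sh_fix (h i).1 (h i).2 (by rw [abs_neg, abs_one]; linarith)
        simp only [id, h1, h2]
        exact mem_Q.1 hy i
      choose x hx hxy using key
      refine ⟨x, mem_Q.2 hx, funext fun i => ?_⟩
      have ht : max 0 (2 * ζ - (1 + x i.rev)) = max 0 (2 * ζ - (1 + y i.rev)) := by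
        rw [← hxy i.rev, tau_sh (h i.rev).1 (h i.rev).2]
      exact (sh_congr ht).trans (hxy i)
  · have hK : (0:ℝ) ≤ K := K.2
    have hc : Continuous fun x : E2 => sh ψ K ζ (x i) (x i.rev) :=
      continuous_sh h.continuous (continuous_apply _) (continuous_apply _)
    have hψ := h.continuous
    have hd : ∀ (x y : E2) (j : Fin 2), |x j - y j| ≤ dist x y := fun x y j => by
      rw [← Real.dist_eq]; exact dist_le_pi_dist x y j
    have hτ : ∀ x y : E2, |max 0 (2 * ζ - (1 + x i.rev)) - max 0 (2 * ζ - (1 + y i.rev))| ≤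
        dist x y := fun x y => by
      refine (abs_max_sub_max_le_max _ _ _ _).trans (max_le (by simp) ?_)
      rw [show 2 * ζ - (1 + x i.rev) - (2 * ζ - (1 + y i.rev)) = -(x i.rev - y i.rev) by ring,
        abs_neg]
      exact hd x y _
    have key : ∀ e : ℝ, |e| = 1 → LipschitzOnWith (M * (1 + K))
        (fun x : E2 => F (sh ψ K ζ (x i) (x i.rev))) {x ∈ Q | sh ψ K ζ (x i) (x i.rev) =
          x i + e * (K * max 0 (2 * ζ - (1 + x i.rev)))} := by
      intro e he
      refine LipschitzOnWith.of_dist_le_mul fun x hx y hy => ?_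
      refine (hF.dist_le_mul _ (sh_mem hζ.le hK h (mem_Q.1 hx.1 i)) _
        (sh_mem hζ.le hK h (mem_Q.1 hy.1 i))).trans ?_
      push_cast
      rw [mul_assoc]
      refine mul_le_mul_of_nonneg_left ?_ M.2
      rw [hx.2, hy.2, Real.dist_eq, add_sub_add_comm, ← mul_sub, ← mul_sub]
      refine (abs_add_le _ _).trans ?_
      rw [abs_mul, abs_mul, he, abs_of_nonneg hK]
      nlinarith [hd x y i, mul_le_mul_of_nonneg_left (hτ x y) hK]
    classical
    refine Bd.lipg.1 (convex_closedBall 0 1) ⟨{{x ∈ Q | sh ψ K ζ (x i) (x i.rev) = ψ (x i)},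
      {x ∈ Q | sh ψ K ζ (x i) (x i.rev) = x i + 1 * (K * max 0 (2 * ζ - (1 + x i.rev)))},
      {x ∈ Q | sh ψ K ζ (x i) (x i.rev) = x i + -1 * (K * max 0 (2 * ζ - (1 + x i.rev)))}},
      fun Y hY => ?_, fun x hx => ?_⟩
    · simp only [Finset.mem_insert, Finset.mem_singleton] at hY
      rcases hY with rfl | rfl | rfl
      · refine ⟨isClosed_closedBall.inter (isClosed_eq hc (by fun_prop)),
          LipschitzOnWith.of_dist_le_mul fun x hx y hy => ?_⟩
        have h1 := hF'.dist_le_mul _ (mem_Q.1 hx.1 i) _ (mem_Q.1 hy.1 i)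
        rw [hx.2, hy.2]
        refine h1.trans ?_
        push_cast
        rw [mul_assoc]
        refine mul_le_mul_of_nonneg_left ?_ M.2
        nlinarith [dist_le_pi_dist x y i, mul_nonneg hK (dist_nonneg (x := x) (y := y))]
      · exact ⟨isClosed_closedBall.inter (isClosed_eq hc (by fun_prop)), key 1 abs_one⟩
      · exact ⟨isClosed_closedBall.inter (isClosed_eq hc (by fun_prop)), key (-1) (by simp)⟩
    · simp only [Finset.mem_insert, Finset.mem_singleton, iUnion_iUnion_eq_or_left,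
        iUnion_iUnion_eq_left, mem_union, mem_ofPred_eq, hx, true_and]
      unfold sh
      rcases max_choice (x i - K * max 0 (2 * ζ - (1 + x i.rev)))
        (min (ψ (x i)) (x i + K * max 0 (2 * ζ - (1 + x i.rev)))) with h1 | h1
      · right; right; rw [h1]; ring
      · rcases min_choice (ψ (x i)) (x i + K * max 0 (2 * ζ - (1 + x i.rev))) with h2 | h2
        · left; rw [h1, h2]
        · right; left; rw [h1, h2]; ring

end P073.Fi
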