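import Vale.Agent.P073Y.Fi.Sk
import Vale.Agent.P073Y.Bd.Collar
import Vale.Agent.P073Y.Bd.Map
import Vale.Agent.P073Z.A2.PL

/-!
# The thin collar of the square, and the Lipschitz bound for cups
-/

open Set Metric Topology Filter
open scoped NNReal

namespace P073.Fi

open P073.Bd (cl PwLip lipg)
open P073.Bd.Collar (cl_lip cl_low)
open P073.A2

namespace Shz

/-- from `[-s, s]` onto `[-1, 1]` -/
noncomputable def up (s y : ℝ) : ℝ := min (max y (1 - 2 * (s - y))) (-1 + 2 * (s + y))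

/-- from `[-1, 1]` onto `[-s, s]` -/
noncomputable def dn (s x : ℝ) : ℝ := max (min x (2⁻¹ * (x - 1) + s)) (2⁻¹ * (x + 1) - s)

variable {s x y ζ : ℝ}

theorem dn_up (h : 1 / 2 ≤ s) (y : ℝ) : dn s (up s y) = y := by
  simp only [dn, up, max_def, min_def]
  split_ifs <;> linarith

theorem up_dn (h : 1 / 2 ≤ s) (x : ℝ) : up s (dn s x) = x := by
  simp only [dn, up, max_def, min_def]
  split_ifs <;> linarith

theorem dn_le (h : 1 / 2 ≤ s) (h1 : s ≤ 1) (hx : |x| ≤ 1) : |dn s x| ≤ s := by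
  rw [abs_le] at hx ⊢
  simp only [dn, max_def, min_def]
  constructor <;> split_ifs <;> linarith [hx.1, hx.2]

theorem dn_eq (h : 1 / 2 ≤ s) (h1 : s ≤ 1) (hx : |x| = 1) : s ≤ |dn s x| := by
  rw [le_abs]
  rcases (abs_eq zero_le_one).1 hx with rfl | rfl
  · left
    simp only [dn, max_def, min_def]
    split_ifs <;> linarith
  · right
    simp only [dn, max_def, min_def]
    split_ifs <;> linarith

theorem dn_one (hx : |x| ≤ 1) : dn 1 x = x := by
  rw [abs_le] at hx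
  simp only [dn, max_def, min_def]
  split_ifs <;> linarith [hx.1, hx.2]

theorem up_le (h : 1 / 2 ≤ s) (h1 : s ≤ 1) (hy : |y| ≤ s) : |up s y| ≤ 1 := by
  rw [abs_le] at hy ⊢
  simp only [up, max_def, min_def]
  constructor <;> split_ifs <;> linarith [hy.1, hy.2]

theorem up_pos (h : 1 / 2 ≤ s) (h1 : s ≤ 1) : up s s = 1 := by
  simp only [up, max_def, min_def]
  split_ifs <;> linarith

theorem up_neg (h1 : s ≤ 1) : up s (-s) = -1 := by
  simp only [up, max_def, min_def]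
  split_ifs <;> linarith

theorem up_mid (hy : |y| ≤ 2 * s - 1) : up s y = y := by
  rw [abs_le] at hy
  simp only [up, max_def, min_def]
  split_ifs <;> linarith [hy.1, hy.2]

theorem exists_abs {x : E2} (h : 0 < ‖x‖) : ∃ i, |x i| = ‖x‖ := by
  by_contra hc
  refine lt_irrefl _ ((pi_norm_lt_iff h).2 fun i => lt_of_le_of_ne (norm_le_pi_norm x i) ?_)
  exact fun e => hc ⟨i, e⟩

theorem pr_lip : LipschitzWith 5 pr := by
  refine LipschitzWith.of_dist_le_mul fun y y' => (dist_pi_le_iff (by positivity)).2 fun i => ?_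
  have h1 := abs_le.1 (dist_le_pi_dist y y' i)
  have h2 : |‖y‖ - ‖y'‖| ≤ dist y y' := by
    rw [dist_eq_norm]
    exact abs_norm_sub_norm_le y y'
  have h3 := abs_le.1 h2
  have h4 : 0 ≤ dist y y' := dist_nonneg
  refine (abs_min_sub_min_le_max _ _ _ _).trans (max_le
    ((abs_max_sub_max_le_max _ _ _ _).trans (max_le ?_ ?_)) ?_) <;>
  · rw [abs_le]
    push_cast
    constructor <;> linarith [h1.1, h1.2, h3.1, h3.2]

theorem pr_div {y : E2} (h : 1 / 2 ≤ ‖y‖) (h1 : ‖y‖ ≤ 1) {i : Fin 2} (hi : |y i| = ‖y‖) :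
    pr y i = y i / ‖y‖ := by
  have h0 : ‖y‖ ≠ 0 := by
    intro e
    linarith
  change up ‖y‖ (y i) = _
  rcases (abs_eq (norm_nonneg y)).1 hi with e | e
  · rw [e, up_pos h h1, div_self h0]
  · rw [e, up_neg h1, neg_div, div_self h0]

theorem pr_mem {y : E2} (h : 1 / 2 ≤ ‖y‖) (h1 : ‖y‖ ≤ 1) : pr y ∈ Sq := by
  refine mem_sphere_zero_iff_norm.2 (le_antisymm ((pi_norm_le_iff_of_nonneg zero_le_one).2
    fun i => up_le h h1 (norm_le_pi_norm y i)) ?_)
  obtain ⟨i, hi⟩ := exists_abs (x := y) (by linarith)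
  refine le_trans (le_of_eq ?_) (norm_le_pi_norm (pr y) i)
  rw [pr_div h h1 hi, Real.norm_eq_abs, abs_div, hi, abs_norm, div_self (by linarith)]

/-- the collar map -/
noncomputable def nu (ζ : ℝ) (q : E2 × ℝ) : E2 := fun i => dn (1 - ζ * q.2) (q.1 i)

theorem norm_nu (h0 : 0 < ζ) (h1 : ζ ≤ 1 / 4) {q : E2 × ℝ} (hq : q ∈ Sq ×ˢ Icc (0 : ℝ) 1) :
    ‖nu ζ q‖ = 1 - ζ * q.2 := by
  have hx : ‖q.1‖ = 1 := mem_sphere_zero_iff_norm.1 hq.1
  have a1 : 1 / 2 ≤ 1 - ζ * q.2 := by nlinarith [hq.2.1, hq.2.2]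
  have a2 : 1 - ζ * q.2 ≤ 1 := by nlinarith [hq.2.1]
  refine le_antisymm ((pi_norm_le_iff_of_nonneg (by linarith)).2 fun i =>
    dn_le a1 a2 (hx ▸ norm_le_pi_norm q.1 i)) ?_
  obtain ⟨i, hi⟩ := exists_abs (x := q.1) (by linarith)
  exact (dn_eq a1 a2 (hi.trans hx)).trans (norm_le_pi_norm (nu ζ q) i)

theorem pl_nu (ζ : ℝ) : PLOn (nu ζ) (Sq ×ˢ Icc (0 : ℝ) 1) := by
  have hX : ConicalSet (Sq ×ˢ Icc (0 : ℝ) 1) :=
    conicalSet_prod (conicalSet_sphere_pi 2) (Convex.conicalSet (convex_Icc 0 1))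
  refine pl_pi hX fun i => ?_
  have a : PLOn (fun q : E2 × ℝ => q.1 i) (Sq ×ˢ Icc (0 : ℝ) 1) :=
    pl_comp_univ (pl_proj i conicalSet_univ) (pl_fst hX)
  have b : PLOn (fun q : E2 × ℝ => 1 - ζ * q.2) (Sq ×ˢ Icc (0 : ℝ) 1) :=
    pl_sub (pl_const _ hX) (pl_mul ζ (pl_snd hX))
  exact pl_max (pl_min a (pl_add (pl_mul _ (pl_sub a (pl_const _ hX))) b))
    (pl_sub (pl_mul _ (pl_add a (pl_const _ hX))) b)

end Shz

open Shz

theorem shz : SHZ := by
  refine ⟨pr_lip, fun {ζ} h0 h1 => ⟨fun y hy i => ⟨fun h => up_mid (by linarith [hy.1]),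
    pr_div (by linarith [hy.1]) hy.2, fun h => le_min (le_max_left _ _) (by linarith [hy.1]),
    fun h => (min_le_left _ _).trans (max_le le_rfl (by linarith [hy.1]))⟩, ?_⟩⟩
  have hd : ∀ y : E2, 1 - ζ * dp ζ y = ‖y‖ := fun y => by
    rw [dp, mul_div_cancel₀ _ h0.ne', sub_sub_cancel]
  refine ⟨⟨nu ζ, fun y => (pr y, dp ζ y), fun q hq => ?_, fun y hy => ⟨?_, ?_, ?_⟩,
    fun q hq => ?_, fun y hy => ?_, (pl_nu ζ).1, ?_, (pl_nu ζ).2⟩, fun x hx => ?_, fun _ _ => rfl⟩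
  · change 1 - ζ ≤ ‖nu ζ q‖ ∧ ‖nu ζ q‖ ≤ 1
    rw [norm_nu h0 h1 hq]
    constructor <;> nlinarith [hq.2.1, hq.2.2]
  · exact pr_mem (by linarith [hy.1]) hy.2
  · exact div_nonneg (by linarith [hy.2]) h0.le
  · exact (div_le_one h0).2 (by linarith [hy.1])
  · refine Prod.ext (funext fun i => ?_) ?_
    · change up ‖nu ζ q‖ (dn (1 - ζ * q.2) (q.1 i)) = _
      rw [norm_nu h0 h1 hq]
      exact up_dn (by nlinarith [hq.2.1, hq.2.2]) _
    · change (1 - ‖nu ζ q‖) / ζ = _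
      rw [norm_nu h0 h1 hq, sub_sub_cancel, mul_div_cancel_left₀ _ h0.ne']
  · funext i
    change dn (1 - ζ * dp ζ y) (up ‖y‖ (y i)) = _
    rw [hd]
    exact dn_up (by linarith [hy.1]) _
  · refine (pr_lip.continuous.prodMk ?_).continuousOn
    exact (continuous_const.sub continuous_norm).div_const ζ
  · funext i
    change dn (1 - ζ * 0) (x i) = _
    rw [mul_zero, sub_zero]
    exact dn_one (mem_sphere_zero_iff_norm.1 hx ▸ norm_le_pi_norm x i)

theorem lipc : LIPC := by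
  classical
  intro ζ d N f M M' h0 h1 hN hd hf hM hM'
  obtain ⟨𝒞, h𝒞, hc⟩ := hf
  refine lipg.1 (convex_closedBall _ _)
    ⟨insert (closedBall 0 (1 - ζ)) (𝒞.image fun Z => pr ⁻¹' Z), ?_, ?_⟩
  · intro Y hY
    rcases Finset.mem_insert.1 hY with rfl | hY
    · refine ⟨isClosed_closedBall, LipschitzOnWith.of_dist_le_mul fun x hx y hy => ?_⟩
      have key : ∀ z ∈ closedBall (0 : E2) (1 - ζ),
          cl (min (f (pr z)) ((d - dp ζ z) * N)) = -1 := fun z hz => by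
        refine cl_low ((min_le_right _ _).trans ?_)
        have a1 : 1 ≤ dp ζ z := (one_le_div h0).2 (by linarith [mem_closedBall_zero_iff.1 hz])
        have a2 : (d - dp ζ z) * N ≤ -(1 / N) * N := by
          gcongr
          linarith
        rwa [neg_mul, one_div, inv_mul_cancel₀ hN.ne'] at a2
      rw [key x hx, key y hy, dist_self]
      positivity
    · obtain ⟨Z, hZ, rfl⟩ := Finset.mem_image.1 hY
      refine ⟨(h𝒞 Z hZ).1.preimage pr_lip.continuous,
        LipschitzOnWith.of_dist_le_mul fun x hx y hy => ?_⟩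
      have a1 := (h𝒞 Z hZ).2.dist_le_mul _ hx _ hy
      have a2 := pr_lip.dist_le_mul x y
      have a3 : |‖y‖ - ‖x‖| ≤ dist x y := by
        rw [dist_comm, dist_eq_norm]
        exact abs_norm_sub_norm_le y x
      have h1' : 5 * (M : ℝ) ≤ M' := by exact_mod_cast hM
      have d0 : 0 ≤ dist x y := dist_nonneg
      rw [Real.dist_eq] at a1 ⊢
      refine (cl_lip _ _).trans ((abs_min_sub_min_le_max _ _ _ _).trans (max_le ?_ ?_))
      · have a4 := mul_le_mul_of_nonneg_left a2 M.coe_nonneg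
        have a5 := mul_le_mul_of_nonneg_right h1' d0
        push_cast at a4
        linarith
      · have e : (d - dp ζ x) * N - (d - dp ζ y) * N = -(N / ζ * (‖y‖ - ‖x‖)) := by
          simp only [dp]
          ring
        rw [e, abs_neg, abs_mul, abs_of_pos (by positivity : 0 < N / ζ)]
        exact mul_le_mul hM' a3 (abs_nonneg _) M'.coe_nonneg
  · intro z hz
    by_cases h : ‖z‖ ≤ 1 - ζ
    · exact mem_biUnion (Finset.mem_insert_self _ _) (mem_closedBall_zero_iff.2 h)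
    · obtain ⟨Z, hZ, hZ'⟩ := mem_iUnion₂.1
        (hc (pr_mem (y := z) (by linarith [not_le.1 h]) (mem_closedBall_zero_iff.1 hz)))
      exact mem_biUnion (Finset.mem_insert_of_mem (Finset.mem_image_of_mem _ hZ)) hZ'

end P073.Fi
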