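import Vale.Agent.P073Y.Fi.Sk
import Vale.Agent.P073Y.Bd.Bas

/-!
# The choice of the sides
-/

open Set Metric Topology Filter
open scoped NNReal

namespace P073.Fi

open P073.Bd (Band I bas)

namespace Sides

theorem ext2 (i : Fin 2) {x y : E2} (h : x i = y i) (h' : x i.rev = y i.rev) : x = y := by
  funext j
  fin_cases i <;> fin_cases j <;> first | exact h | exact h'

theorem mem_iff (i : Fin 2) {x : E2} : x ∈ Sq ↔ max |x i| |x i.rev| = 1 := by
  have e : ‖x‖ = max |x i| |x i.rev| := by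
    refine le_antisymm ((pi_norm_le_iff_of_nonneg (by positivity)).2 fun j => ?_)
      (max_le (norm_le_pi_norm x i) (norm_le_pi_norm x i.rev))
    fin_cases i <;> fin_cases j <;> first | exact le_max_left _ _ | exact le_max_right _ _
  rw [mem_sphere_zero_iff_norm, e]

theorem abs_le {x : E2} (hx : x ∈ Sq) (i : Fin 2) : |x i| ≤ 1 :=
  (mem_iff i).1 hx ▸ le_max_left _ _

theorem rev_eq {x : E2} (hx : x ∈ Sq) {i : Fin 2} (h : |x i| < 1) :
    x i.rev = 1 ∨ x i.rev = -1 := by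
  have h1 := (mem_iff i).1 hx
  rcases max_choice |x i| |x i.rev| with e | e
  · linarith
  · exact (abs_eq zero_le_one).1 (e ▸ h1)

theorem pt_fst (i : Fin 2) (s r : ℝ) : pt i s r i = s := if_pos rfl

theorem pt_snd (i : Fin 2) (s r : ℝ) : pt i s r i.rev = r :=
  if_neg (by fin_cases i <;> decide)

theorem cont_pt (i : Fin 2) (r : ℝ) : Continuous fun s => pt i s r := by
  refine continuous_pi fun j => ?_
  unfold pt
  split_ifs
  exacts [continuous_id, continuous_const]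

/-- a connected set which misses the ends of a segment in a side stays over the segment -/
theorem stay {i : Fin 2} {r : ℝ} (hr : r = 1 ∨ r = -1) {y b x : E2} (hy : y i.rev = r)
    (hb : b i.rev = r) (h1 : -1 < y i) (h2 : b i < 1) (hx : x i.rev = r) (h3 : y i < x i)
    (h4 : x i < b i) {Z : Set E2} (hZ : IsPreconnected Z) (hS : Z ⊆ Sq) (hxZ : x ∈ Z)
    (hyZ : y ∉ Z) (hbZ : b ∉ Z) : ∀ w ∈ Z, y i < w i ∧ w i < b i := by
  have hrr : r * r = 1 := by rcases hr with rfl | rfl <;> norm_num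
  have c1 : Continuous fun w : E2 => w i := continuous_apply i
  have c2 : Continuous fun w : E2 => r * w i.rev := continuous_const.mul (continuous_apply _)
  have key := hZ.subset_left_of_subset_union
    (u := {w : E2 | (y i < w i ∧ w i < b i) ∧ 0 < r * w i.rev})
    (v := {w : E2 | (w i < y i ∨ b i < w i) ∨ r * w i.rev < 0})
    (((isOpen_lt continuous_const c1).inter (isOpen_lt c1 continuous_const)).inter
      (isOpen_lt continuous_const c2))
    (((isOpen_lt c1 continuous_const).union (isOpen_lt continuous_const c1)).union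
      (isOpen_lt c2 continuous_const))
    (disjoint_left.2 fun w ⟨⟨a1, a2⟩, a3⟩ hw => by
      rcases hw with (a | a) | a
      exacts [lt_asymm a a1, lt_asymm a a2, lt_asymm a a3])
    (fun w hw => by
      rcases lt_or_ge (w i) (y i) with a1 | a1
      · exact Or.inr (Or.inl (Or.inl a1))
      rcases lt_or_ge (b i) (w i) with a2 | a2
      · exact Or.inr (Or.inl (Or.inr a2))
      have a3 : w i.rev = r ∨ w i.rev = -r := by
        rcases rev_eq (hS hw) (i := i) (abs_lt.2 ⟨by linarith, by linarith⟩) with e | e <;>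
          rcases hr with rfl | rfl <;> simp [e]
      rcases a3 with a3 | a3
      · refine Or.inl ⟨⟨lt_of_le_of_ne a1 fun e => hyZ ?_, lt_of_le_of_ne a2 fun e => hbZ ?_⟩, ?_⟩
        · exact ext2 i e.symm (a3.trans hy.symm) ▸ hw
        · exact ext2 i e (a3.trans hb.symm) ▸ hw
        · show 0 < r * w i.rev
          rw [a3, hrr]
          exact one_pos
      · refine Or.inr (Or.inr ?_)
        show r * w i.rev < 0
        rw [a3, mul_neg, hrr]
        norm_num)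
    ⟨x, hxZ, ⟨h3, h4⟩, by
      show 0 < r * x i.rev
      rw [hx, hrr]
      exact one_pos⟩
  exact fun w hw => (key hw).1

/-- a zero between two points of a side -/
theorem zero {i : Fin 2} {r ρ : ℝ} (hr : r = 1 ∨ r = -1) (hρ : ρ ≤ 1) {y b : E2} (hy : y i.rev = r)
    (hb : b i.rev = r) (h1 : |y i| < ρ) (h2 : |b i| < ρ) {f : E2 → ℝ} (hf : ContinuousOn f Sq)
    (f1 : f y = 1) (f2 : f b = -1) : ∃ x ∈ Sq, f x = 0 ∧ x i.rev = r ∧ ∀ Z : Set E2,
      IsPreconnected Z → Z ⊆ Sq → x ∈ Z → y ∉ Z → b ∉ Z → ∀ w ∈ Z, |w i| < ρ := by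
  have ey : pt i (y i) r = y := ext2 i (pt_fst _ _ _) ((pt_snd _ _ _).trans hy.symm)
  have eb : pt i (b i) r = b := ext2 i (pt_fst _ _ _) ((pt_snd _ _ _).trans hb.symm)
  rw [abs_lt] at h1 h2
  have hm : ∀ s ∈ uIcc (y i) (b i), pt i s r ∈ Sq := fun s hs => by
    rw [mem_iff i, pt_fst, pt_snd, show |r| = 1 by rcases hr with rfl | rfl <;> simp]
    refine max_eq_right (_root_.abs_le.2 ?_)
    rcases mem_uIcc.1 hs with h | h <;> constructor <;> linarith [h.1, h.2]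
  obtain ⟨s, hs, h0⟩ := intermediate_value_uIcc (f := fun s => f (pt i s r))
    (hf.comp (cont_pt i r).continuousOn hm)
    (show (0 : ℝ) ∈ _ by simp only [ey, eb, f1, f2, mem_uIcc]; norm_num)
  have n1 : s ≠ y i := fun e => by
    simp only [e, ey, f1] at h0
    exact one_ne_zero h0
  have n2 : s ≠ b i := fun e => by
    simp only [e, eb, f2] at h0
    norm_num at h0
  refine ⟨_, hm s hs, h0, pt_snd _ _ _, fun Z hZ hS hx hyZ hbZ w hw => abs_lt.2 ?_⟩
  rcases mem_uIcc.1 hs with h | h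
  · have := stay hr hy hb (by linarith) (by linarith) (pt_snd i s r)
      (by rw [pt_fst]; exact lt_of_le_of_ne h.1 n1.symm)
      (by rw [pt_fst]; exact lt_of_le_of_ne h.2 n2) hZ hS hx hyZ hbZ w hw
    constructor <;> linarith [this.1, this.2]
  · have := stay hr hb hy (by linarith) (by linarith) (pt_snd i s r)
      (by rw [pt_fst]; exact lt_of_le_of_ne h.1 n2.symm)
      (by rw [pt_fst]; exact lt_of_le_of_ne h.2 n1) hZ hS hx hbZ hyZ w hw
    constructor <;> linarith [this.1, this.2]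

/-- two points on opposite sides separate the two other sides -/
theorem cross {i : Fin 2} {b₀ b₁ y₀ y₁ : E2} (h₀ : b₀ i.rev = -1) (h₁ : b₁ i.rev = 1)
    (k₀ : |b₀ i| < 1) (k₁ : |b₁ i| < 1) (l₀ : y₀ i = -1) (l₁ : y₁ i = 1) {Z : Set E2}
    (hZ : IsPreconnected Z) (hS : Z ⊆ Sq) (m₀ : y₀ ∈ Z) (m₁ : y₁ ∈ Z) : b₀ ∈ Z ∨ b₁ ∈ Z := by
  rw [abs_lt] at k₀ k₁
  have hl : ∀ x ∈ Z, |(1 - x i.rev) / 2 * b₀ i + (1 + x i.rev) / 2 * b₁ i| < 1 := fun x hx => by
    have h := _root_.abs_le.1 (abs_le (hS hx) i.rev)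
    rcases le_total (b₀ i) (b₁ i) with e | e <;> rw [abs_lt] <;> constructor <;>
      nlinarith [h.1, h.2]
  obtain ⟨x, hx, h0⟩ := hZ.intermediate_value m₀ m₁
    (f := fun x => x i - ((1 - x i.rev) / 2 * b₀ i + (1 + x i.rev) / 2 * b₁ i)) (by fun_prop)
    (show (0 : ℝ) ∈ _ from ⟨by linarith [(abs_lt.1 (hl _ m₀)).1],
      by linarith [(abs_lt.1 (hl _ m₁)).2]⟩)
  have e := sub_eq_zero.1 h0
  rcases rev_eq (hS hx) (i := i) (e ▸ hl x hx) with a | a
  · exact Or.inr (ext2 i (x := x) (by rw [e, a]; ring) (a.trans h₁.symm) ▸ hx)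
  · exact Or.inl (ext2 i (x := x) (by rw [e, a]; ring) (a.trans h₀.symm) ▸ hx)

variable {L Λ : ℝ≥0} {κ : Type} {D : Dat L Λ κ} {ζ : ℝ} {g : κ → Band E2} {k t : κ}

theorem mem_zone {y : E2} (hy : y ∈ ({D.p k, D.q k} : Set E2)) : y ∈ (D.z y).B :=
  ((D.zone k y hy).2.2.1.ge rfl).1

theorem mem_sq {y : E2} (hy : y ∈ ({D.p k, D.q k} : Set E2)) : y ∈ Sq :=
  ((D.arc k).2.2.ge hy).2

theorem mem_B (hg : Bdy D g) {y : E2} (hy : y ∈ ({D.p k, D.q k} : Set E2)) : y ∈ (g k).B :=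
  ((hg.W_eq k).ge hy).1

/-- the ends of an arc which joins opposite sides -/
theorem ends (hζ : 0 < ζ) (h : D.Thru ζ k) :
    ∃ y₀ ∈ ({D.p k, D.q k} : Set E2), ∃ y₁ ∈ ({D.p k, D.q k} : Set E2),
      y₀ (D.co k).rev = -1 ∧ y₁ (D.co k).rev = 1 ∧ |y₀ (D.co k)| < 1 - 2 * ζ ∧
        |y₁ (D.co k)| < 1 - 2 * ζ := by
  have mp : D.p k ∈ ({D.p k, D.q k} : Set E2) := Or.inl rfl
  have mq : D.q k ∈ ({D.p k, D.q k} : Set E2) := Or.inr rfl
  have hp := h.1 _ (Or.inl (mem_zone mp))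
  have hq := h.1 _ (Or.inr (mem_zone mq))
  rcases rev_eq (mem_sq mp) (i := D.co k) (by linarith) with a | a <;>
    rcases rev_eq (mem_sq mq) (i := D.co k) (by linarith) with b | b
  · exact absurd (a.trans b.symm) h.2
  · exact ⟨_, mq, _, mp, b, a, hq, hp⟩
  · exact ⟨_, mp, _, mq, a, b, hp, hq⟩
  · exact absurd (a.trans b.symm) h.2

/-- an arc which separates two arcs of its family which join opposite sides does the same -/
theorem thru (hζ : 0 < ζ) (hg : Bdy D g) {t' : κ} (ht : D.Thru ζ t) (ht' : D.Thru ζ t')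
    (e : D.co t = D.co k) (e' : D.co t' = D.co k) (n : k ≠ t) (n' : k ≠ t')
    (h : ∀ x ∈ (g t).B, (g k).u x = 1) (h' : ∀ x ∈ (g t').B, (g k).u x = -1) : D.Thru ζ k := by
  obtain ⟨y₀, m₀, y₁, m₁, a₀, a₁, c₀, c₁⟩ := ends hζ ht
  obtain ⟨b₀, m₀', b₁, m₁', a₀', a₁', c₀', c₁'⟩ := ends hζ ht'
  rw [e] at a₀ a₁ c₀ c₁
  rw [e'] at a₀' a₁' c₀' c₁'
  have key : ∀ {r : ℝ} {y b : E2}, (r = 1 ∨ r = -1) → y ∈ ({D.p t, D.q t} : Set E2) →
      b ∈ ({D.p t', D.q t'} : Set E2) → y (D.co k).rev = r → b (D.co k).rev = r →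
      |y (D.co k)| < 1 - 2 * ζ → |b (D.co k)| < 1 - 2 * ζ →
      ∃ x ∈ ({D.p k, D.q k} : Set E2), x (D.co k).rev = r ∧
        ∀ w ∈ (D.z x).B, |w (D.co k)| < 1 - 2 * ζ := by
    intro r y b hr my mb ay ab cy cb
    obtain ⟨x, hx, h0, h1, h2⟩ := zero hr (by linarith) ay ab cy cb (hg.on k).upl.1
      (h y (mem_B hg my)) (h' b (mem_B hg mb))
    have mx : x ∈ ({D.p k, D.q k} : Set E2) := by
      rw [← hg.W_eq k, (bas E2).on_W (hg.on k)]
      exact ⟨hx, h0⟩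
    have hz := D.zone k x mx
    have hs : (D.z x).B ⊆ (g k).B := by
      rw [hg.B_eq k]
      rcases mx with rfl | rfl
      exacts [subset_union_left, subset_union_right]
    exact ⟨x, mx, h1, h2 _ ((bas E2).pre hz.1 (hz.2.2.1 ▸ isPreconnected_singleton)).1 hz.2.1.1
      (mem_zone mx) (fun hy => disjoint_left.1 (hg.disj k t n) (hs hy) (mem_B hg my))
      fun hb => disjoint_left.1 (hg.disj k t' n') (hs hb) (mem_B hg mb)⟩
  obtain ⟨x₀, u₀, v₀, w₀⟩ := key (Or.inr rfl) m₀ m₀' a₀ a₀' c₀ c₀'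
  obtain ⟨x₁, u₁, v₁, w₁⟩ := key (Or.inl rfl) m₁ m₁' a₁ a₁' c₁ c₁'
  rcases u₀ with rfl | rfl <;> rcases u₁ with rfl | rfl
  · linarith
  · exact ⟨fun x hx => hx.elim (w₀ x) (w₁ x), by rw [v₀, v₁]; norm_num⟩
  · exact ⟨fun x hx => hx.elim (w₁ x) (w₀ x), by rw [v₀, v₁]; norm_num⟩
  · linarith

/-- an arc of the other family has an end on the negative side -/
theorem neg_end (hζ : 0 < ζ) (hg : Bdy D g) {t' : κ} (ht : D.Thru ζ t) (ht' : D.Thru ζ t')
    (e : D.co t ≠ D.co t') (n : k ≠ t) (h' : ∀ x ∈ (g t').B, (g k).u x = -1) :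
    ∃ y ∈ ({D.p t, D.q t} : Set E2), (g k).u y = -1 := by
  obtain ⟨y₀, m₀, y₁, m₁, a₀, a₁, -, -⟩ := ends hζ ht
  obtain ⟨b₀, m₀', b₁, m₁', a₀', a₁', c₀', c₁'⟩ := ends hζ ht'
  have e' : (D.co t).rev = D.co t' := by
    revert e
    generalize D.co t = i
    generalize D.co t' = j
    revert i j
    decide
  rw [e'] at a₀ a₁
  have hv : ∀ y ∈ ({D.p t, D.q t} : Set E2), (g k).u y = 1 ∨ (g k).u y = -1 := fun y my =>
    (hg.on k).out y (mem_sq my) fun hy => disjoint_left.1 (hg.disj k t n) hy (mem_B hg my)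
  rcases hv y₀ m₀ with f₀ | f₀
  swap
  · exact ⟨y₀, m₀, f₀⟩
  rcases hv y₁ m₁ with f₁ | f₁
  swap
  · exact ⟨y₁, m₁, f₁⟩
  rcases cross a₀' a₁' (by linarith) (by linarith) a₀ a₁ (hg.pos k).isConnected.isPreconnected
    (fun x hx => hx.1) ⟨mem_sq m₀, by linarith⟩ ⟨mem_sq m₁, by linarith⟩ with hb | hb
  · linarith [hb.2, h' _ (mem_B hg m₀')]
  · linarith [hb.2, h' _ (mem_B hg m₁')]

end Sides

open Sides

theorem sides : SIDES := by
  intro L Λ κ D ζ hζ
  classical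
  have c1 : (fun _ => 1 : E2) ∈ Sq := by rw [mem_iff 0]; simp
  have c2 : ∀ k, (fun _ => 1 : E2) ∉ (D.z (D.p k)).B ∪ (D.z (D.q k)).B := fun k h => by
    rcases h with h | h
    · simpa using (D.zone k _ (Or.inl rfl)).2.2.2.1 _ h
    · simpa using (D.zone k _ (Or.inr rfl)).2.2.2.1 _ h
  by_cases hT : ∀ i, ∃ t, D.co t = i ∧ D.Thru ζ t
  swap
  · exact ⟨fun _ _ => 1, fun k => ⟨c1, c2 k⟩, fun g _ h => ⟨fun k t _ ht => absurd ht.2 hT,
      fun k l _ _ => ⟨_, c1, by rw [h k]; norm_num, by rw [h l]; norm_num⟩⟩⟩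
  have hs : ∀ k, D.Sel ζ k ↔ D.Thru ζ k := fun k => and_iff_left hT
  simp only [hs]
  choose T hT1 hT2 using hT
  have hn : ∀ {k t}, ¬ D.Thru ζ k → D.Thru ζ t → k ≠ t := fun hk ht e => hk (e ▸ ht)
  refine ⟨fun k => if D.Thru ζ k then fun _ => 1 else D.p (T (D.co k)), fun k => ?_,
    fun g hg h => ?_⟩
  · beta_reduce
    split_ifs with hk
    · exact ⟨c1, c2 k⟩
    have mp : D.p (T (D.co k)) ∈ ({D.p (T (D.co k)), D.q (T (D.co k))} : Set E2) := Or.inl rfl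
    have hd : ∀ y ∈ ({D.p k, D.q k} : Set E2), D.p (T (D.co k)) ∉ (D.z y).B := fun y my hy =>
      disjoint_left.1 (D.zdisj k _ y my _ mp fun e =>
        disjoint_left.1 (D.ends k _ (hn hk (hT2 _))) my (Or.inl e)) hy (mem_zone mp)
    exact ⟨mem_sq mp, fun hy => hy.elim (hd _ (Or.inl rfl)) (hd _ (Or.inr rfl))⟩
  have h0 : ∀ k, ¬ D.Thru ζ k → ∀ x ∈ (g (T (D.co k))).B, (g k).u x = -1 := fun k hk => by
    have n := hn hk (hT2 (D.co k))
    refine (hg.sep k _ n (D.fam k _ n (hT1 _).symm)).resolve_left fun h1 => ?_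
    have h2 := h k
    beta_reduce at h2
    rw [if_neg hk, h1 _ (mem_B hg (Or.inl rfl))] at h2
    norm_num at h2
  have h1 : ∀ k t, ¬ D.Thru ζ k → D.Thru ζ t →
      ∃ y ∈ ({D.p t, D.q t} : Set E2), (g k).u y = -1 := fun k t hk ht => by
    have n := hn hk ht
    by_cases e : D.co t = D.co k
    · refine ⟨D.p t, Or.inl rfl, (hg.sep k t n (D.fam k t n e.symm)).resolve_left
        (fun h1 => hk ?_) _ (mem_B hg (Or.inl rfl))⟩
      exact thru hζ hg ht (hT2 _) e (hT1 _) n (hn hk (hT2 _)) h1 (h0 k hk)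
    · exact neg_end hζ hg ht (hT2 (D.co k)) (by rwa [hT1]) n (h0 k hk)
  refine ⟨h1, fun k l hk hl => ?_⟩
  obtain ⟨y, my, hy⟩ := h1 k _ hk (hT2 (D.co l))
  exact ⟨y, mem_sq my, by rw [hy]; norm_num, by rw [h0 l hl y (mem_B hg my)]; norm_num⟩

end P073.Fi
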