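import Vale.Agent.P073Y.Fi.Strip

/-!
# The bands of the arcs which join opposite sides
-/

open Set Metric

namespace P073.Fi

open P073.Bd

namespace Th

variable {ζ : ℝ} {i : Fin 2} {g : Band E2} {y₀ y₁ : E2} {ψ : Fin 2 → ℝ → ℝ} {K : Fin 2 → ℝ}

theorem sd_half (H : Opp ζ i g y₀ y₁) : Sd i g.half :=
  ⟨Bas1.half_on H.on, fun x hx _ hs => H.side x hx.1 _ (Bas1.half_mem hs)⟩

theorem mem_map (Ψ : ConHomeo Q Q) (h : Band E2) {x : E2} (hx : x ∈ Q) :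
    x ∈ ((strip i h).map Ψ.symm).B ↔ pt i (Ψ.toFun x i) 1 ∈ h.B := by
  constructor
  · rintro ⟨z, hz, rfl⟩
    rw [ConHomeo.symm_toFun, Ψ.right_inv hz.1]
    exact hz.2
  · exact fun k => ⟨Ψ.toFun x, ⟨Ψ.mapsTo hx, k⟩, Ψ.left_inv hx⟩

/-- the facts about the projection -/
def Pr (ζ : ℝ) : Prop := ∀ y ∈ Col ζ, pr y ∈ Sq ∧ ∀ i, (|y i| ≤ 1 - 2 * ζ → pr y i = y i) ∧
  (|y i| = ‖y‖ → pr y i = y i / ‖y‖) ∧ (1 - 2 * ζ ≤ y i → y i ≤ pr y i) ∧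
  (y i ≤ -(1 - 2 * ζ) → pr y i ≤ y i)

theorem norm_mid (hζ : 0 < ζ) {y : E2} (hy : y ∈ Col ζ) (hi : |y i| ≤ 1 - 2 * ζ) :
    |y i.rev| = ‖y‖ := by
  have h1 := hy.1
  rw [norm_eq i] at h1 ⊢
  rcases le_total |y i| |y i.rev| with h | h
  · rw [max_eq_right h]
  · rw [max_eq_left h] at h1
    linarith

/-- the middle part of the collar -/
theorem stub_mid (hζ : 0 < ζ) (hP : Pr ζ) (hψ : ∀ i, 0 ≤ K i ∧ Rep ζ (K i) (ψ i))
    (Ψ : ConHomeo Q Q) (hΨ : ∀ x ∈ Q, ∀ i, Ψ.toFun x i = sh (ψ i) (K i) ζ (x i) (x i.rev))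
    (H : Opp ζ i g y₀ y₁) {y : E2} (hy : y ∈ Col ζ) (hi : |y i| ≤ 1 - 2 * ζ) {φ : ℝ → ℝ} {r : ℝ}
    (hr : y i.rev / ‖y‖ = r) (hφ : ∀ s ∈ I, sh (ψ i) (K i) ζ s (y i.rev) = φ s)
    (hC : ∀ s ∈ I, (pt i (φ s) 1 ∈ g.B ↔ pt i s r ∈ g.B) ∧ g.u (pt i (φ s) 1) = g.u (pt i s r)) :
    (y ∈ ((strip i g.half).map Ψ.symm).B ↔ pr y ∈ g.half.B) ∧
      ((strip i g.half).map Ψ.symm).u y = g.half.u (pr y) ∧
      (y ∈ ((strip i g.half).map Ψ.symm).B → ∀ s ∈ I,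
        pr (((strip i g.half).map Ψ.symm).M (y, s)) = g.half.M (pr y, s) ∧
        ‖((strip i g.half).map Ψ.symm).M (y, s)‖ = ‖y‖) := by
  have hn := norm_mid hζ hy hi
  have hyQ : y ∈ Q := mem_closedBall_zero_iff.2 hy.2
  have hI : ∀ c : ℝ, |c| ≤ 1 - 2 * ζ → c ∈ I := fun c hc => abs_le.1 (by linarith)
  -- the vertical fibre coordinate is kept
  have key : ∀ c : ℝ, |c| ≤ 1 - 2 * ζ → ‖pt i c (y i.rev)‖ = ‖y‖ ∧
      pr (pt i c (y i.rev)) = pt i c r ∧ Ψ.toFun (pt i c (y i.rev)) = pt i (φ c) (y i.rev) := by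
    intro c hc
    have h1 : ‖pt i c (y i.rev)‖ = ‖y‖ := by
      rw [norm_eq i, pt_self, pt_rev, hn, max_eq_right (by linarith [hy.1])]
    have h2 : pt i c (y i.rev) ∈ Col ζ := ⟨h1.symm ▸ hy.1, h1.symm ▸ hy.2⟩
    have h3 : pt i c (y i.rev) ∈ Q := mem_closedBall_zero_iff.2 h2.2
    refine ⟨h1, ext2 i ?_ ?_, ext2 i ?_ ?_⟩
    · rw [((hP _ h2).2 i).1 (by rwa [pt_self]), pt_self, pt_self]
    · rw [((hP _ h2).2 i.rev).2.1 (by rw [pt_rev, h1, hn]), pt_rev, pt_rev, h1, hr]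
    · rw [hΨ _ h3, pt_self, pt_rev, pt_self, hφ c (hI c hc)]
    · rw [hΨ _ h3, pt_rev, pt_rev]
      exact sh_fix (hψ _).1 ((hψ _).2.fix _ (by linarith [hy.1]))
  have ey : pt i (y i) (y i.rev) = y := ext2 i (pt_self _ _ _) (pt_rev _ _ _)
  obtain ⟨-, k1, k2⟩ := key _ hi
  rw [ey] at k1 k2
  have k3 : Ψ.toFun y i = φ (y i) := by rw [k2, pt_self]
  obtain ⟨c1, c2⟩ := hC _ (hI _ hi)
  have hm : y ∈ ((strip i g.half).map Ψ.symm).B ↔ pr y ∈ g.half.B := by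
    rw [mem_map Ψ _ hyQ, k3, k1]
    exact and_congr c1 (by rw [c2])
  refine ⟨hm, ?_, fun hb s hs => ?_⟩
  · show cl (2 * g.u (pt i (Ψ.toFun y i) 1)) = cl (2 * g.u (pr y))
    rw [k3, k1, c2]
  · have b1 := hm.1 hb
    have b2 := (mem_map Ψ _ hyQ).1 hb
    have hs' := Bas1.half_mem hs
    obtain ⟨m1, m2⟩ := H.on.ok.Mmem _ b1.1 _ hs'
    obtain ⟨m3, m4⟩ := H.on.ok.Mmem _ b2.1 _ hs'
    have hc := (H.mid _ m1).le
    set c := g.M (pr y, s / 2) i with hcdef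
    obtain ⟨l1, l2, l3⟩ := key c hc
    have e1 : g.M (pr y, s / 2) = pt i c r := by
      refine ext2 i (pt_self _ _ _).symm ?_
      rw [H.side _ b1.1 _ hs', k1, pt_rev, pt_rev]
    obtain ⟨d1, d2⟩ := hC c (hI c hc)
    have e2 : pt i (φ c) 1 = g.M (pt i (Ψ.toFun y i) 1, s / 2) := by
      refine H.inj _ (d1.2 (e1 ▸ m1)) _ m3 ?_ ?_
      · rw [H.side _ b2.1 _ hs', pt_rev, pt_rev]
      · rw [d2, ← e1, m2, m4]
    have e3 : ((strip i g.half).map Ψ.symm).M (y, s) = pt i c (y i.rev) := by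
      show Ψ.invFun (pt i (g.M (pt i (Ψ.toFun y i) 1, s / 2) i) (Ψ.toFun y i.rev)) = _
      rw [← e2, pt_self, k2, pt_rev, ← l3]
      exact Ψ.left_inv (mem_closedBall_zero_iff.2 (l1.trans_le hy.2))
    rw [e3, l2]
    exact ⟨e1.symm, l1⟩

theorem stub (hζ : 0 < ζ) (hζ' : ζ ≤ 1 / 4) (hP : Pr ζ) (hψ : ∀ i, 0 ≤ K i ∧ Rep ζ (K i) (ψ i))
    (Ψ : ConHomeo Q Q) (hΨ : ∀ x ∈ Q, ∀ i, Ψ.toFun x i = sh (ψ i) (K i) ζ (x i) (x i.rev))
    (H : Opp ζ i g y₀ y₁) (hC : Car i (ψ i) g) :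
    Stub ζ ((strip i g.half).map Ψ.symm) g.half := by
  intro y hy
  have h0 : 0 < ‖y‖ := by linarith [hy.1]
  rcases le_total |y i| (1 - 2 * ζ) with hi | hi
  · rcases (abs_eq h0.le).1 (norm_mid hζ hy hi) with e | e
    · exact stub_mid hζ hP hψ Ψ hΨ H hy hi (φ := fun s => s) (r := 1)
        (by rw [e, div_self h0.ne']) (fun s _ => sh_up (by linarith [hy.1]))
        fun s _ => ⟨Iff.rfl, rfl⟩
    · exact stub_mid hζ hP hψ Ψ hΨ H hy hi (φ := ψ i) (r := -1)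
        (by rw [e, neg_div, div_self h0.ne'])
        (fun s hs => sh_lo (hψ i).1 ((hψ i).2.near s hs) (by linarith [hy.1])) hC
  · have hyQ : y ∈ Q := mem_closedBall_zero_iff.2 hy.2
    have k : Ψ.toFun y i = y i := by
      rw [hΨ y hyQ]
      exact sh_fix (hψ i).1 ((hψ i).2.fix _ hi)
    have hS : pt i (y i) 1 ∈ Sq := top_mem ((mem_Q i).1 hyQ).1
    obtain ⟨hS', hp⟩ := hP y hy
    obtain ⟨o, -, ho, -⟩ := H.ori
    have n1 : y ∉ ((strip i g.half).map Ψ.symm).B := fun hb => by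
      have := H.mid _ ((mem_map Ψ _ hyQ).1 hb).1
      rw [pt_self, k] at this
      linarith
    have n2 : 1 - 2 * ζ ≤ |pr y i| ∧ g.u (pt i (y i) 1) = g.u (pr y) := by
      rcases le_abs.1 hi with h | h
      · have h' := (hp i).2.2.1 h
        exact ⟨le_abs.2 (Or.inl (h.trans h')), by
          rw [(ho _ hS).1 (by rwa [pt_self]), (ho _ hS').1 (h.trans h')]⟩
      · have h' := (hp i).2.2.2 (by linarith)
        exact ⟨le_abs.2 (Or.inr (by linarith)), by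
          rw [(ho _ hS).2 (by rw [pt_self]; linarith), (ho _ hS').2 (by linarith)]⟩
    refine ⟨⟨fun hb => absurd hb n1, fun hb => absurd (H.mid _ hb.1) (not_lt.2 n2.1)⟩, ?_,
      fun hb => absurd hb n1⟩
    show cl (2 * g.u (pt i (Ψ.toFun y i) 1)) = cl (2 * g.u (pr y))
    rw [k, n2.2]

theorem wall (H : Opp ζ i g y₀ y₁) : (strip i g.half).W = {y ∈ Q | y i = y₁ i} :=
  strip_W ((Bas1.half_W g).trans H.W_eq) H.lo H.hi

theorem arc (hζ : 0 < ζ) (hζ' : ζ ≤ 1 / 4) (hψ : ∀ i, 0 ≤ K i ∧ Rep ζ (K i) (ψ i))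
    (Ψ : ConHomeo Q Q) (hΨ : ∀ x ∈ Q, ∀ i, Ψ.toFun x i = sh (ψ i) (K i) ζ (x i) (x i.rev))
    (H : Opp ζ i g y₀ y₁) (hC : Car i (ψ i) g) :
    IsArc ((strip i g.half).map Ψ.symm).W y₀ y₁ := by
  have w0 : y₀ ∈ g.W := H.W_eq.symm.subset (Or.inl rfl)
  have w1 : y₁ ∈ g.W := H.W_eq.symm.subset (Or.inr rfl)
  have q0 : y₀ ∈ Q := sphere_subset_closedBall (H.on.sub w0.1)
  have q1 : y₁ ∈ Q := sphere_subset_closedBall (H.on.sub w1.1)
  have hI : y₀ i ∈ I := abs_le.1 ((mem_Q i).1 q0).1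
  have e0 : pt i (y₀ i) (-1) = y₀ := ext2 i (pt_self _ _ _) ((pt_rev _ _ _).trans H.lo.symm)
  have e : ψ i (y₀ i) = y₁ i := by
    obtain ⟨c1, c2⟩ := hC _ hI
    rw [e0] at c1 c2
    rcases H.W_eq.subset (⟨c1.2 w0.1, c2.trans w0.2⟩ : _ ∈ g.W) with k | k
    · have := congrFun k i.rev
      rw [pt_rev, H.lo] at this
      norm_num at this
    · exact (pt_self _ _ _).symm.trans (congrFun k i)
  have f0 : Ψ.toFun y₀ = pt i (y₁ i) (-1) := by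
    refine ext2 i ?_ ?_
    · rw [hΨ _ q0, pt_self, ← e]
      exact sh_lo (hψ i).1 ((hψ i).2.near _ hI) (by rw [H.lo]; linarith)
    · rw [hΨ _ q0, pt_rev, H.lo]
      exact sh_fix (hψ _).1 ((hψ _).2.fix _ (by rw [abs_neg, abs_one]; linarith))
  have f1 : Ψ.toFun y₁ = pt i (y₁ i) 1 := by
    refine ext2 i ?_ ?_
    · rw [hΨ _ q1, pt_self]
      exact sh_up (by rw [H.hi]; linarith)
    · rw [hΨ _ q1, pt_rev, H.hi]
      exact sh_fix (hψ _).1 ((hψ _).2.fix _ (by rw [abs_one]; linarith))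
  have := (seg_arc i ((mem_Q i).1 q1).1).image Ψ.symm fun _ hy => hy.1
  rw [← f0, ← f1, ConHomeo.symm_toFun, Ψ.left_inv q0, Ψ.left_inv q1] at this
  rw [Mp.map_W _ (strip_on (sd_half H)).sub, wall H]
  exact this

end Th

open Th

theorem thru_of (h1 : SHZ) (h2 : SHEAR) : THRU := by
  intro τ ζ co g y₀ y₁ ψ K hζ hζ' hψ H hd
  obtain ⟨Ψ, hΨ⟩ := (h2 hζ hζ').1 ψ K hψ
  obtain ⟨p1, ν, -, p2⟩ := h1.2 hζ hζ'
  have hP : Pr ζ := fun y hy => ⟨(p2 y hy ▸ ν.mapsTo_inv hy :).1, p1 y hy⟩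
  have hon : ∀ t, (strip (co t) (g t).half).On Q := fun t => strip_on (sd_half (H t).1)
  refine ⟨fun t => (strip (co t) (g t).half).map Ψ.symm, fun t => ?_, fun t t' hne => ?_⟩
  · have hs := stub hζ hζ' hP hψ Ψ hΨ (H t).1 (H t).2
    refine ⟨Mp.map_on _ (hon t), ext_of_stub hζ.le (sd_half (H t).1).on.sub hs, hs,
      arc hζ hζ' hψ Ψ hΨ (H t).1 (H t).2, fun x hx => ?_⟩
    rw [← hΨ x hx]
    rfl
  · have dis : co t = co t' → Disjoint ((strip (co t) (g t).half).map Ψ.symm).B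
        ((strip (co t') (g t').half).map Ψ.symm).B := fun e => by
      refine disjoint_image_image fun x hx y hy k => ?_
      obtain rfl := Ψ.symm.injOn hx.1 hy.1 k
      exact disjoint_left.1 (hd t t' hne) hx.2.1 (e ▸ hy.2.1)
    by_cases e : co t = co t'
    · refine ⟨Bas1.comm_of_disjoint (Mp.map_on _ (hon t)).ok (dis e), dis, fun x hx => ?_⟩
      exact absurd hx.2.1 (disjoint_left.1 (dis e) hx.1.1)
    · have e' : co t' = (co t).rev := eq_rev (Ne.symm e)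
      refine ⟨Mp.map_comm _ (hon t).ok (hon t').ok (hon t).sub (hon t').sub ?_, dis, ?_⟩
      · rw [e']
        exact strip_comm (sd_half (H t).1)
      · rw [Mp.map_W _ (hon t).sub, Mp.map_W _ (hon t').sub, wall (H t).1, wall (H t').1]
        rintro _ ⟨⟨x, hx, rfl⟩, x', hx', k⟩ _ ⟨⟨y, hy, rfl⟩, y', hy', k'⟩
        obtain rfl := Ψ.symm.injOn hx'.1 hx.1 k
        obtain rfl := Ψ.symm.injOn hy'.1 hy.1 k'
        rw [ext2 (co t) (hx.2.trans hy.2.symm) (e' ▸ hx'.2.trans hy'.2.symm)]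

end P073.Fi
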