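import Vale.Agent.P073Y.Fi.Sk2
import Vale.Agent.P073Y.Wf.Top

/-!
# Assembly of the engine with softly frozen cells, sharp wires and sharp faces
-/

open Set Metric Topology Filter
open scoped NNReal

namespace P073.Fi

open P073.Bd (Band I cl Match Sgn Comm Ext PwLip Chart Lev corner Gen1 bas)
open P073.Wb P073.Wf

theorem w2s_of {c₀ c : ℝ≥0} (hT : TRACE) (hFa : FACESS c₀ c) (hSu : SUMF) (hC : CELLSF c₀)
    (hW : WALLS) (hM : MODEL) (hN : NORMLE) (hE : ENGINEJ) (hP : PATF) (hI : INITF) (hF : FINF) :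
    W2S c₀ c := by
  intro X lo hi g t lam fro w z Λ ζ 𝓢 χ hR hZ hζ hζ' hWi hSq
  obtain ⟨Fr, S, hFl, hS, hInv, e1, e2, e3, e4, e5⟩ := hI g t hR hZ
  have hW1 : ∀ e, X.K.dim e = 1 → e ∉ fro → ∀ p ∈ Fr.P ∩ X.K.cell e,
      LipschitzOnWith (Λ e) (Fr.z p).half.half.u (Fr.z p).half.half.B := by
    intro e he hf p hp
    rw [e5 e he hf p hp]
    refine hWi e he hf p ⟨?_, hp.2⟩
    have h1 := hp.1
    rw [e4] at h1
    exact h1.1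
  have hW2 : Wide X S.fro Fr.P (fun _ => Fr.z) Λ := fun e he hf => hW1 e he (e1 ▸ hf)
  have hSq' : ∀ φ (h : φ ∈ 𝓢), Sqr X S.fro Fr.P Λ c ζ φ (χ φ h) := by
    rw [e1, e4]
    exact hSq
  obtain ⟨D', b, -, -, -, hb, h0, -, hle, hQ, hatt⟩ := hE (Fr := Fr) S.Inv
    (fun _ b => (S.Nat b ∧ Pat X fun i => (b i).W) ∧
      (∀ e, X.K.dim e = 1 → e ∉ fro → ShpE X b e (Λ e)) ∧
      ∀ φ (h : φ ∈ 𝓢), ShpW X b φ (χ φ h) (Λ φ) ζ c)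
    (fun D hD hI => by
      obtain ⟨T⟩ := hT hD
      obtain ⟨β, hβ, n1, n3⟩ := hFa S 𝓢 χ hζ hζ' hW2 hSq' hD hI T
      obtain ⟨γ, hγ, n2⟩ := hC S hD T β hβ n1
      obtain ⟨b, hb⟩ := hW hD T β γ hβ hγ
      obtain ⟨h1, h2⟩ := hN hD T β γ b hβ hγ hb
      have hm := hM hD T β γ b hβ hγ hb
      obtain ⟨s1, s2⟩ := hSu T β γ b hD hβ hγ hb
      exact ⟨b, hm, h1, ⟨⟨natq S hD hI T β γ b hβ hγ hb hm n1 n2, hP hD T β γ b hβ hγ hb⟩,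
        fun e he hf => s2 e (Λ e) he (hW1 e he hf),
        fun φ h => s1 φ (χ φ h) (Λ φ) ζ c (hSq φ h).dim (n3 φ h)⟩, h2⟩)
    (fun _ _ _ hQ hb hs => swapF S hb hQ.1.1 hs) _ hS hInv
  obtain ⟨G, hG⟩ := hF g t hFl hS hb h0 hle hatt
  refine ⟨G, b, hG, ?_, fun i => e3 i ▸ hb.ext i, fun i c hc x hx => ?_,
    fun i j hij c hc => hQ.1.1.disj i j hij c (e1 ▸ hc), hQ.2.1, hQ.2.2⟩
  · rw [← funext hG.wall]
    exact hQ.1.2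
  · obtain ⟨j, h⟩ := hQ.1.1.mat i c (e1 ▸ hc) x hx
    exact ⟨j, e2 j ▸ h⟩

end P073.Fi
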