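import Vale.Agent.P073Y.Fi.Bdy
import Vale.Agent.P073Y.Fi.Opp
import Vale.Agent.P073Y.Fi.Count
import Vale.Agent.P073Y.Fi.Cupq
import Vale.Agent.P073Y.Fi.En
import Vale.Agent.P073Y.Fi.F2q
import Vale.Agent.P073Y.Fi.Facems
import Vale.Agent.P073Y.Fi.Facess
import Vale.Agent.P073Y.Fi.Init1s
import Vale.Agent.P073Y.Fi.Match
import Vale.Agent.P073Y.Fi.Oned
import Vale.Agent.P073Y.Fi.Shear
import Vale.Agent.P073Y.Fi.Shz
import Vale.Agent.P073Y.Fi.Sides
import Vale.Agent.P073Y.Fi.Sumf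
import Vale.Agent.P073Y.Fi.Thru
import Vale.Agent.P073Y.Fi.W2s
import Vale.Agent.P073Y.Wf.All
import Vale.Agent.P073Y.Wf.InitF

/-!
# Sharp faces and sharp wires: the unconditional statements
-/

open scoped NNReal

namespace P073.Fi

theorem thru : THRU := thru_of shz shear

theorem cupq : CUPQ := cupq_of shz

theorem matchT : MATCH := match_of oned

theorem f2q : F2Q 120000 := f2q_of shear bdy opp sides matchT thru cupq lipc count en2

theorem facems : FACEMS 120000 := facems_of f2q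

theorem w2s : ∃ c₀ : ℝ≥0, ∀ c, c₀ ≤ c → W2S c 120000 := by
  obtain ⟨c₀, h⟩ := Bd.models
  obtain ⟨c₁, h'⟩ := Wf.softModels
  exact ⟨max c₀ c₁, fun c hc => w2s_of Wb.trace (facess_of (h c (le_of_max_le_left hc)).1 facems)
    sumf (h' c (le_of_max_le_right hc)).2 Wb.walls Wb.model_thm Wb.normle Wf.engineJ Wf.patF Wf.initF
    Wf.finF⟩

end P073.Fi
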