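import Vale.Agent.P073Y.Fi.Sk
import Vale.Agent.P073Y.Bd.Facem
import Vale.Agent.P073Y.Bd.Bas
import Vale.Agent.P073Y.Bd.Glue

/-!
# The bands on the boundary of the square
-/

open Set Metric Topology Filter
open scoped NNReal

namespace P073.Fi

open P073.Bd P073.Bd.Facem

namespace BdyA

theorem conBall_Q : ConBall 2 Q Sq :=
  ⟨sphere_subset_closedBall, ConHomeo.refl (locCone_closedBall_pi 2 1).conicalSet, image_id' _⟩

theorem cl_ge {t : ℝ} (h : 1 ≤ t) : cl t = 1 := by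
  rw [cl, min_eq_right h, max_eq_right (by norm_num)]

theorem cl_le {t : ℝ} (h : t ≤ -1) : cl t = -1 := by
  rw [cl, max_eq_left ((min_le_left _ _).trans h)]

theorem cl_mono {s t : ℝ} (h : s ≤ t) : cl s ≤ cl t := max_le_max le_rfl (min_le_min h le_rfl)

theorem cl_id {t : ℝ} (h : |t| ≤ 1) : cl t = t := by
  obtain ⟨h1, h2⟩ := abs_le.1 h
  rw [cl, min_eq_left h2, max_eq_right h1]

theorem lip_sgn {E : Type} [NormedAddCommGroup E] {b g : Band E} {Λ : ℝ≥0} (h : Sgn b g)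
    (H : LipschitzOnWith Λ b.u b.B) : LipschitzOnWith Λ g.u b.B := by
  obtain ⟨ε, h0, h⟩ := h
  refine LipschitzOnWith.of_dist_le_mul fun x hx y hy => ?_
  have := H.dist_le_mul x hx y hy
  rw [(h x hx).1, (h y hy).1]
  rcases h0 with rfl | rfl
  · simpa using this
  · simpa using this

theorem lip_const {E : Type} [NormedAddCommGroup E] {f : E → ℝ} {Y : Set E} {c : ℝ} (Λ : ℝ≥0)
    (h : ∀ x ∈ Y, f x = c) : LipschitzOnWith Λ f Y := by
  refine LipschitzOnWith.of_dist_le_mul fun x hx y hy => ?_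
  rw [h x hx, h y hy, dist_self]
  positivity

theorem slip {E : Type} [NormedAddCommGroup E] [NormedSpace ℝ E] [FiniteDimensional ℝ E]
    {S : Set E} {g a b : Band E} {Λ : ℝ≥0} (hS : IsClosed S) (hg : g.On S) (hB : g.B = a.B ∪ b.B)
    (ha : a.Ok) (hb : b.Ok) (sa : Sgn a g) (sb : Sgn b g)
    (la : LipschitzOnWith Λ a.half.half.u a.half.half.B)
    (lb : LipschitzOnWith Λ b.half.half.u b.half.half.B) : PwLip Λ g.half.half.u S := by
  classical
  have H := bas E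
  have key : ∀ {c : Band E}, Sgn c g → ∀ x ∈ c.B, |g.u x| ≤ 1 / 4 → x ∈ c.half.half.B := by
    intro c sc x hx h
    rw [abs_sgn sc hx] at h
    refine ⟨⟨hx, by linarith⟩, ?_⟩
    have e : |2 * c.u x| = 2 * |c.u x| := by rw [abs_mul, abs_two]
    change |cl (2 * c.u x)| ≤ 1 / 2
    rw [cl_id (by linarith)]
    linarith
  refine ⟨{a.half.half.B, b.half.half.B, S ∩ g.u ⁻¹' Ici (1 / 4), S ∩ g.u ⁻¹' Iic (-(1 / 4))},
    ?_, fun x hx => ?_⟩
  · intro Y hY
    simp only [Finset.mem_insert, Finset.mem_singleton] at hY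
    rcases hY with rfl | rfl | rfl | rfl
    · exact ⟨(H.half_ok (H.half_ok ha)).cpt.isClosed, lip_sgn (H.sgn_half (H.sgn_half sa)) la⟩
    · exact ⟨(H.half_ok (H.half_ok hb)).cpt.isClosed, lip_sgn (H.sgn_half (H.sgn_half sb)) lb⟩
    · refine ⟨hg.upl.1.preimage_isClosed_of_isClosed hS isClosed_Ici,
        lip_const (c := 1) Λ fun x hx => ?_⟩
      have h1 : 1 / 4 ≤ g.u x := hx.2
      have h2 : cl (1 / 2) ≤ cl (2 * g.u x) := cl_mono (by linarith)
      rw [cl_id (by rw [abs_le]; constructor <;> norm_num)] at h2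
      exact cl_ge (t := 2 * cl (2 * g.u x)) (by linarith)
    · refine ⟨hg.upl.1.preimage_isClosed_of_isClosed hS isClosed_Iic,
        lip_const (c := -1) Λ fun x hx => ?_⟩
      have h1 : g.u x ≤ -(1 / 4) := hx.2
      have h2 : cl (2 * g.u x) ≤ cl (-(1 / 2)) := cl_mono (by linarith)
      rw [cl_id (t := -(1 / 2)) (by rw [abs_le]; constructor <;> norm_num)] at h2
      exact cl_le (t := 2 * cl (2 * g.u x)) (by linarith)
  · simp only [Finset.mem_insert, Finset.mem_singleton, mem_iUnion, exists_prop]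
    by_cases h1 : 1 / 4 ≤ g.u x
    · exact ⟨_, Or.inr (Or.inr (Or.inl rfl)), hx, h1⟩
    by_cases h2 : g.u x ≤ -(1 / 4)
    · exact ⟨_, Or.inr (Or.inr (Or.inr rfl)), hx, h2⟩
    have h3 : |g.u x| ≤ 1 / 4 := abs_le.2 ⟨by linarith, by linarith⟩
    have h4 : x ∈ g.B := by
      by_contra h
      rcases hg.out x hx h with e | e <;> rw [e] at h3 <;> norm_num at h3
    rcases hB.le h4 with h | h
    · exact ⟨_, Or.inl rfl, key sa x h h3⟩
    · exact ⟨_, Or.inr (Or.inl rfl), key sb x h h3⟩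

end BdyA

open BdyA

theorem bdy : BDY := by
  intro L Λ κ _ D x₀ hx
  have hB := bas
  have hC' := conBall_Q
  have hA := D.arc
  have hz := D.zone
  choose g g1 g2 g3 g4 g5 g6 g7 g8 g9 using fun k => exists_band (L := L) (x₀ := x₀ k) hB
    (glue_of hB) D.z hC' ((hA k).2.2.ge (Or.inl rfl)).2 ((hA k).2.2.ge (Or.inr rfl)).2
    (hA k).1.ne (fun y hy => ⟨(hz k y hy).1, (hz k y hy).2.1, (hz k y hy).2.2.1, fun h => (hx k).2 (by
      rcases hy with rfl | rfl
      exacts [Or.inl h, Or.inr h]), (hz k y hy).2.2.2.2.1⟩)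
    (D.zdisj k k _ (Or.inl rfl) _ (Or.inr rfl) (hA k).1.ne) (hx k).1
  have h1 : ∀ k l, k ≠ l → Disjoint (g k).B (g l).B := fun k l a => by
    have b : ∀ y ∈ ({D.p k, D.q k} : Set E2), ∀ y' ∈ ({D.p l, D.q l} : Set E2),
        Disjoint (D.z y).B (D.z y').B :=
      fun y c y' d => D.zdisj k l y c y' d fun e => disjoint_left.1 (D.ends k l a) c (e ▸ d)
    rw [g3, g3, disjoint_union_left, disjoint_union_right, disjoint_union_right]
    exact ⟨⟨b _ (Or.inl rfl) _ (Or.inl rfl), b _ (Or.inl rfl) _ (Or.inr rfl)⟩,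
      b _ (Or.inr rfl) _ (Or.inl rfl), b _ (Or.inr rfl) _ (Or.inr rfl)⟩
  have h2 : ∀ k l, k ≠ l → Disjoint (D.A k) (D.A l) →
      (∀ x ∈ (g l).B, (g k).u x = 1) ∨ ∀ x ∈ (g l).B, (g k).u x = -1 := by
    intro k l b1 b2
    obtain ⟨D₁, D₂, c1, c2, c3, c4, c5, c6⟩ := xc hC' (hA k).1 (hA k).2.1 (hA k).2.2 (g8 k) (g9 k)
      (Set.ext fun x => ⟨fun a => a.elim And.left And.left, fun a =>
        (le_total 0 ((g k).u x)).imp (And.intro a) (And.intro a)⟩)
      (by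
        rw [← g7, (hB E2).on_W (g1 k)]
        exact Set.ext fun x => ⟨fun a => ⟨a.1.1, le_antisymm a.2.2 a.1.2⟩,
          fun a => ⟨⟨a.1, a.2.ge⟩, a.1, a.2.le⟩⟩)
    have d : ∀ y ∈ ({D.p l, D.q l} : Set E2), IsPreconnected (D.z y).B := fun y hy =>
      ((hB E2).pre (hz l y hy).1 ((hz l y hy).2.2.1 ▸ isPreconnected_singleton)).1
    have d1 : IsPreconnected (D.A l ∪ (g l).B) := by
      rw [g3, ← union_assoc]
      exact (((hA l).1.conBall.isConnected.isPreconnected.union _ (hA l).1.left_mem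
        (mem_B (hz l _ (Or.inl rfl)).2.2.1) (d _ (Or.inl rfl))).union _ (Or.inl (hA l).1.right_mem)
        (mem_B (hz l _ (Or.inr rfl)).2.2.1) (d _ (Or.inr rfl)))
    have d2 : ∀ x ∈ (g l).B, (g k).u x = 1 ∨ (g k).u x = -1 := fun x hx' =>
      (g1 k).out x ((g1 l).sub hx') (disjoint_right.1 (h1 k l b1) hx')
    refine (isPreconnected_iff_subset_of_disjoint_closed.1 d1 D₁ D₂ c1.isClosed c2.isClosed
      (c3 ▸ union_subset (hA l).2.1 ((g1 l).sub.trans hC'.1))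
      (eq_empty_of_forall_notMem fun x hx' => ?_)).imp (fun e x hx' => ?_) fun e x hx' => ?_
    · rw [c4] at hx'
      rcases hx'.1 with e | e
      · exact disjoint_left.1 b2 hx'.2 e
      · exact disjoint_left.1 (h1 k l b1)
          ((g7 k).ge ((hA k).2.2.le ⟨hx'.2, (g1 l).sub e⟩)).1 e
    · have := (c5.le ⟨e (Or.inr hx'), (g1 l).sub hx'⟩).2
      exact (d2 x hx').resolve_right fun f => by linarith
    · have := (c6.le ⟨e (Or.inr hx'), (g1 l).sub hx'⟩).2
      exact (d2 x hx').resolve_left fun f => by linarith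
  have h3 : ∀ k {y}, Sgn (D.z y) (g k) → (D.z y).B ⊆ (g k).B → (D.z y).half.B ⊆ (g k).half.B :=
    fun k y b1 b2 x hx' => ⟨b2 hx'.1, (abs_sgn b1 hx'.1).trans_le hx'.2⟩
  refine ⟨g, ⟨g1, g2, fun k => slip isClosed_sphere (g1 k) (g3 k) (hz k _ (Or.inl rfl)).1
    (hz k _ (Or.inr rfl)).1 (g4 k) (g5 k) (hz k _ (Or.inl rfl)).2.2.2.2.2
    (hz k _ (Or.inr rfl)).2.2.2.2.2, g3, fun k => ⟨g4 k, g5 k⟩, g7, g8, g9, h1, h2⟩,
    fun k => ?_, fun k a ha => ⟨ha.1.trans (Subset.antisymm ?_ ?_), ?_, ?_⟩⟩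
  · refine ((g1 k).out _ (hx k).1 (g3 k ▸ (hx k).2)).resolve_left fun e => ?_
    have := g6 k
    linarith
  · exact fun x hx' => ((g3 k).le hx'.1).imp (fun b => ⟨b, (abs_sgn (g4 k) b).symm.trans_le hx'.2⟩)
      fun b => ⟨b, (abs_sgn (g5 k) b).symm.trans_le hx'.2⟩
  · exact union_subset (h3 k (g4 k) (g3 k ▸ subset_union_left))
      (h3 k (g5 k) (g3 k ▸ subset_union_right))
  · exact match_of ((hB E2).sgn_half (g4 k)) ha (h3 k (g4 k) (g3 k ▸ subset_union_left))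
  · exact match_of ((hB E2).sgn_half (g5 k)) ha (h3 k (g5 k) (g3 k ▸ subset_union_right))

end P073.Fi
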