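import Vale.Agent.P073Y.Fi.Sk2

/-!
# The sharp clause only depends on the values on the square, up to a constant
-/

open Set Metric Topology Filter MeasureTheory
open scoped NNReal ENNReal

namespace P073.Fi

theorem pt_mem_Q (i : Fin 2) {s r : ℝ} (hs : |s| ≤ 1) (hr : |r| ≤ 1) : pt i s r ∈ Q := by
  rw [mem_closedBall_zero_iff, pi_norm_le_iff_of_nonneg zero_le_one]
  intro j
  unfold pt
  split_ifs
  exacts [hs, hr]

theorem En_congr {S T : Type} [MetricSpace S] [MeasurableSpace S] [BorelSpace S]
    [PseudoEMetricSpace T] (k : ℕ) (p : ℝ) {h h' : S → T} {X : Set S} (hX : MeasurableSet X)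
    (he : EqOn h h' X) : En k p h X = En k p h' X := by
  refine setLIntegral_congr_fun hX fun x hx => ?_
  show lipAt h X x ^ p = lipAt h' X x ^ p
  congr 1
  refine iInf_congr fun r => iInf_congr fun _ => iSup_congr fun y => iSup_congr fun hy => ?_
  rw [he hy.1, he hx]

theorem En_add_const {S T : Type} [MetricSpace S] [MeasurableSpace S] [BorelSpace S]
    [NormedAddCommGroup T] (k : ℕ) (p : ℝ) (h : S → T) (v : T) (X : Set S) :
    En k p (fun x => h x + v) X = En k p h X := by
  simp only [En, lipAt, edist_add_right]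

theorem Net.congr {h h' : E2 → E2} {Λ ζ : ℝ} (H : Net h Λ ζ) (he : EqOn h h' Q) : Net h' Λ ζ := by
  intro i r hr
  have h1 : |r| ≤ 1 := by rcases hr with rfl | rfl <;> simp
  rw [← he (pt_mem_Q i (by simp) h1), ← he (pt_mem_Q i (by simp) h1)]
  exact H i r hr

theorem Shp.congr {h h' : E2 → E2} {Λ ζ c : ℝ} (H : Shp h Λ ζ c) (he : EqOn h h' Q) :
    Shp h' Λ ζ c := by
  intro hN p hp
  rw [← En_congr 2 p (h := fun x => h x - Λ • x) measurableSet_closedBall
    fun x hx => by simp only [he hx]]
  exact H (hN.congr he.symm) p hp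

theorem Shp.add_const {h : E2 → E2} {Λ ζ c : ℝ} (H : Shp h Λ ζ c) (v : E2) :
    Shp (fun x => h x + v) Λ ζ c := by
  intro hN p hp
  have e : (fun x => h x + v - Λ • x) = fun x => (h x - Λ • x) + v := by
    funext x; abel
  rw [e, En_add_const]
  refine H (fun i r hr => ?_) p hp
  have := hN i r hr
  simpa only [Pi.add_apply, add_sub_add_right_eq_sub] using this

end P073.Fi
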