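import Vale.Agent.P073Y.Bd.Sk

/-!
# The sharp model in a square face: definitions and statements
-/

open Set Metric Topology Filter MeasureTheory
open scoped NNReal ENNReal

namespace P073.Fi

open P073.Bd (Band I cl Match Sgn Comm Ext PwLip)

/-- the square -/
abbrev Q : Set E2 := closedBall 0 1

/-- its boundary -/
abbrev Sq : Set E2 := sphere 0 1

/-- the collar of width `ζ` -/
def Col (ζ : ℝ) : Set E2 := {y | 1 - ζ ≤ ‖y‖ ∧ ‖y‖ ≤ 1}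

/-- the point with coordinate `s` in the direction `i` and `r` in the other direction -/
def pt (i : Fin 2) (s r : ℝ) : E2 := fun j => if j = i then s else r

/-- the projection of the collar onto the boundary -/
noncomputable def pr (y : E2) : E2 := fun i =>
  min (max (y i) (1 - 2 * (‖y‖ - y i))) (-1 + 2 * (‖y‖ + y i))

/-- the depth -/
noncomputable def dp (ζ : ℝ) (y : E2) : ℝ := (1 - ‖y‖) / ζ

/-- the shear: `ψ s` near `r = -1`, and `s` for `r ≥ -1 + 2 ζ` -/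
noncomputable def sh (ψ : ℝ → ℝ) (K ζ s r : ℝ) : ℝ :=
  max (s - K * max 0 (2 * ζ - (1 + r))) (min (ψ s) (s + K * max 0 (2 * ζ - (1 + r))))

/-- arcs in the square with zones on the sides -/
structure Dat (L Λ : ℝ≥0) (κ : Type) where
  /-- the arcs -/
  A : κ → Set E2
  /-- first end -/
  p : κ → E2
  /-- second end -/
  q : κ → E2
  /-- the zones -/
  z : E2 → Band E2
  /-- the family -/
  co : κ → Fin 2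
  arc : ∀ k, IsArc (A k) (p k) (q k) ∧ A k ⊆ Q ∧ A k ∩ Sq = {p k, q k}
  ends : ∀ k l, k ≠ l → Disjoint ({p k, q k} : Set E2) {p l, q l}
  zone : ∀ k, ∀ y ∈ ({p k, q k} : Set E2), (z y).Ok ∧ (z y).In Sq ∧ (z y).W = {y} ∧
    (∀ x ∈ (z y).B, |x 0| < 1 ∨ |x 1| < 1) ∧ LipschitzOnWith L (z y).u (z y).B ∧
    LipschitzOnWith Λ (z y).half.half.u (z y).half.half.B
  zdisj : ∀ k l, ∀ y ∈ ({p k, q k} : Set E2), ∀ y' ∈ ({p l, q l} : Set E2), y ≠ y' →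
    Disjoint (z y).B (z y').B
  fam : ∀ k l, k ≠ l → co k = co l → Disjoint (A k) (A l)

variable {L Λ : ℝ≥0} {κ : Type}

/-- the arc joins two opposite sides, away from the corners -/
def Dat.Thru (D : Dat L Λ κ) (ζ : ℝ) (k : κ) : Prop :=
  (∀ x ∈ (D.z (D.p k)).B ∪ (D.z (D.q k)).B, |x (D.co k)| < 1 - 2 * ζ) ∧
    D.p k (D.co k).rev ≠ D.q k (D.co k).rev

/-- the selected arcs -/
def Dat.Sel (D : Dat L Λ κ) (ζ : ℝ) (k : κ) : Prop :=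
  D.Thru ζ k ∧ ∀ i, ∃ t, D.co t = i ∧ D.Thru ζ t

/-- the bands on the boundary -/
structure Bdy (D : Dat L Λ κ) (g : κ → Band E2) : Prop where
  on : ∀ k, (g k).On Sq
  lip : ∀ k, PwLip L (g k).u Sq
  slip : ∀ k, PwLip Λ (g k).half.half.u Sq
  B_eq : ∀ k, (g k).B = (D.z (D.p k)).B ∪ (D.z (D.q k)).B
  sgn : ∀ k, Sgn (D.z (D.p k)) (g k) ∧ Sgn (D.z (D.q k)) (g k)
  W_eq : ∀ k, (g k).W = {D.p k, D.q k}
  pos : ∀ k, IsArc {x ∈ Sq | 0 ≤ (g k).u x} (D.p k) (D.q k)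
  neg : ∀ k, IsArc {x ∈ Sq | (g k).u x ≤ 0} (D.p k) (D.q k)
  disj : ∀ k l, k ≠ l → Disjoint (g k).B (g l).B
  sep : ∀ k l, k ≠ l → Disjoint (D.A k) (D.A l) →
    (∀ x ∈ (g l).B, (g k).u x = 1) ∨ ∀ x ∈ (g l).B, (g k).u x = -1

/-- a band on the boundary whose two parts lie on two opposite sides -/
structure Opp (ζ : ℝ) (i : Fin 2) (g : Band E2) (y₀ y₁ : E2) : Prop where
  on : g.On Sq
  W_eq : g.W = {y₀, y₁}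
  lo : y₀ i.rev = -1
  hi : y₁ i.rev = 1
  mid : ∀ x ∈ g.B, |x i| < 1 - 2 * ζ
  side : ∀ x ∈ g.B, ∀ s ∈ I, g.M (x, s) i.rev = x i.rev
  inj : ∀ x ∈ g.B, ∀ x' ∈ g.B, x i.rev = x' i.rev → g.u x = g.u x' → x = x'
  ori : ∃ o : ℝ, (o = 1 ∨ o = -1) ∧ (∀ x ∈ Sq, (1 - 2 * ζ ≤ x i → g.u x = o) ∧
    (x i ≤ -(1 - 2 * ζ) → g.u x = -o)) ∧
    ∀ r : ℝ, (r = 1 ∨ r = -1) → (MonotoneOn (fun s => o * g.u (pt i s r)) I ∧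
      ∃ a b : ℝ, a < b ∧ (∀ s, pt i s r ∈ g.B ↔ s ∈ Icc a b) ∧ o * g.u (pt i a r) = -1 ∧
        o * g.u (pt i b r) = 1)

/-- the map of the interval -/
structure Rep (ζ K : ℝ) (ψ : ℝ → ℝ) : Prop where
  mono : StrictMono ψ
  pl : PLOn ψ univ
  fix : ∀ s, 1 - 2 * ζ ≤ |s| → ψ s = s
  near : ∀ s ∈ I, |ψ s - s| ≤ K * ζ

/-- `ψ` carries the lower part of `g` onto the upper part -/
def Car (i : Fin 2) (ψ : ℝ → ℝ) (g : Band E2) : Prop := ∀ s ∈ I,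
  (pt i (ψ s) 1 ∈ g.B ↔ pt i s (-1) ∈ g.B) ∧ g.u (pt i (ψ s) 1) = g.u (pt i s (-1))

/-- in the collar the band `a` is the product of `h` with the depth -/
def Stub (ζ : ℝ) (a h : Band E2) : Prop := ∀ y ∈ Col ζ, (y ∈ a.B ↔ pr y ∈ h.B) ∧
  a.u y = h.u (pr y) ∧ (y ∈ a.B → ∀ s ∈ I, pr (a.M (y, s)) = h.M (pr y, s) ∧ ‖a.M (y, s)‖ = ‖y‖)

/-- the output of the model in a face -/
structure Out {E : Type} [NormedAddCommGroup E] [NormedSpace ℝ E] (C S : Set E) (A : κ → Set E)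
    (p q : κ → E) (z : E → Band E) (L' : ℝ≥0) (β : κ → Band E) : Prop where
  on : ∀ k, (β k).On C
  arc : ∀ k, IsArc (β k).W (p k) (q k)
  bd : ∀ k, (β k).B ∩ S = (z (p k)).half.B ∪ (z (q k)).half.B
  mt : ∀ k, Match (z (p k)).half (β k) ∧ Match (z (q k)).half (β k)
  lip : ∀ k, LipschitzOnWith L' (β k).u C
  two : ∀ k l, k ≠ l → Comm (β k) (β l) ∧ (Disjoint (A k) (A l) → Disjoint (β k).B (β l).B) ∧
    ((β k).W ∩ (β l).W).Subsingleton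

/-- both coordinates of `h` increase by almost `2 Λ` along the sides -/
def Net (h : E2 → E2) (Λ ζ : ℝ) : Prop := ∀ (i : Fin 2) (r : ℝ), (r = 1 ∨ r = -1) →
  2 * Λ * (1 - ζ) ≤ h (pt i 1 r) i - h (pt i (-1) r) i

open Classical in
/-- the signed sums of the two families -/
noncomputable def stair [Fintype κ] (co : κ → Fin 2) (ε : κ → ℝ) (u : κ → E2 → ℝ) (x : E2) : E2 :=
  fun i => ∑ k with co k = i, ε k * u k x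

/-! ### the blocks -/

/-- the thin collar -/
def SHZ : Prop := LipschitzWith 5 pr ∧ ∀ {ζ : ℝ}, 0 < ζ → ζ ≤ 1 / 4 →
  (∀ y ∈ Col ζ, ∀ i, (|y i| ≤ 1 - 2 * ζ → pr y i = y i) ∧ (|y i| = ‖y‖ → pr y i = y i / ‖y‖) ∧
    (1 - 2 * ζ ≤ y i → y i ≤ pr y i) ∧ (y i ≤ -(1 - 2 * ζ) → pr y i ≤ y i)) ∧
  ∃ ν : ConHomeo (Sq ×ˢ Icc (0 : ℝ) 1) (Col ζ), (∀ x ∈ Sq, ν.toFun (x, 0) = x) ∧
    ∀ y ∈ Col ζ, ν.invFun y = (pr y, dp ζ y)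

/-- monotone interpolation -/
def ONED : Prop := ∀ {τ : Type} [Finite τ] (a b : τ → ℝ) (f : τ → ℝ → ℝ) {ρ : ℝ}, 0 < ρ →
  (∀ t, -ρ < a t ∧ a t < b t ∧ b t < ρ ∧ -ρ < f t (a t) ∧ f t (b t) < ρ ∧
    PLOn (f t) (Icc (a t) (b t)) ∧ StrictMonoOn (f t) (Icc (a t) (b t))) →
  (∀ t t', t ≠ t' → (b t < a t' ∧ f t (b t) < f t' (a t')) ∨
    (b t' < a t ∧ f t' (b t') < f t (a t))) →
  ∃ ψ : ℝ → ℝ, StrictMono ψ ∧ PLOn ψ univ ∧ (∀ s, ρ ≤ |s| → ψ s = s) ∧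
    ∀ t, EqOn ψ (f t) (Icc (a t) (b t))

/-- the shear is a homeomorphism of the square; Lipschitz bounds -/
def SHEAR : Prop := ∀ {ζ : ℝ}, 0 < ζ → ζ ≤ 1 / 4 →
  (∀ (ψ : Fin 2 → ℝ → ℝ) (K : Fin 2 → ℝ), (∀ i, 0 ≤ K i ∧ Rep ζ (K i) (ψ i)) →
    ∃ Ψ : ConHomeo Q Q, ∀ x ∈ Q, ∀ i, Ψ.toFun x i = sh (ψ i) (K i) ζ (x i) (x i.rev)) ∧
  ∀ {ψ F : ℝ → ℝ} {K M : ℝ≥0} (i : Fin 2), Rep ζ K ψ → LipschitzOnWith M F I →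
    LipschitzOnWith M (fun s => F (ψ s)) I →
    LipschitzOnWith (M * (1 + K)) (fun x : E2 => F (sh ψ K ζ (x i) (x i.rev))) Q

/-- the bands on the boundary with given negative points -/
def BDY : Prop := ∀ {L Λ : ℝ≥0} {κ : Type} [Finite κ] (D : Dat L Λ κ) (x₀ : κ → E2),
  (∀ k, x₀ k ∈ Sq ∧ x₀ k ∉ (D.z (D.p k)).B ∪ (D.z (D.q k)).B) →
  ∃ g, Bdy D g ∧ (∀ k, (g k).u (x₀ k) = -1) ∧
    ∀ (k : κ) (a : Band E2), Ext a (g k).half Sq →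
      a.B ∩ Sq = (D.z (D.p k)).half.B ∪ (D.z (D.q k)).half.B ∧
      Match (D.z (D.p k)).half a ∧ Match (D.z (D.q k)).half a

/-- the arcs which join opposite sides -/
def OPP : Prop := ∀ {L Λ : ℝ≥0} {κ : Type} (D : Dat L Λ κ) {g : κ → Band E2} {ζ : ℝ}, Bdy D g →
  0 < ζ → ∀ k, D.Thru ζ k → Opp ζ (D.co k) (g k) (D.p k) (D.q k) ∨
    Opp ζ (D.co k) (g k) (D.q k) (D.p k)

/-- the choice of the sides -/
def SIDES : Prop := ∀ {L Λ : ℝ≥0} {κ : Type} (D : Dat L Λ κ) {ζ : ℝ}, 0 < ζ →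
  ∃ x₀ : κ → E2, (∀ k, x₀ k ∈ Sq ∧ x₀ k ∉ (D.z (D.p k)).B ∪ (D.z (D.q k)).B) ∧
    ∀ g, Bdy D g → (∀ k, (g k).u (x₀ k) = -1) →
      (∀ k t, ¬ D.Sel ζ k → D.Sel ζ t → ∃ y ∈ ({D.p t, D.q t} : Set E2), (g k).u y = -1) ∧
      ∀ k l, ¬ D.Sel ζ k → ¬ D.Sel ζ l → ∃ x ∈ Sq, (g k).u x < 0 ∧ (g l).u x < 0

/-- matching the lower with the upper zones -/
def MATCH : Prop := ∀ {τ : Type} [Finite τ] {ζ : ℝ} {Λ : ℝ≥0} (i : Fin 2) (g : τ → Band E2)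
  (y₀ y₁ : τ → E2), 0 < ζ → ζ ≤ 1 / 4 → 0 < Λ → (∀ t, Opp ζ i (g t) (y₀ t) (y₁ t)) →
  (∀ t, PwLip Λ (g t).half.half.u Sq) → (∀ t t', t ≠ t' → Disjoint (g t).B (g t').B ∧
    ((∀ x ∈ (g t').B, (g t).u x = 1) ∨ ∀ x ∈ (g t').B, (g t).u x = -1)) →
  ∃ ψ : ℝ → ℝ, (∀ t, Car i ψ (g t)) ∧ Rep ζ (2 / ζ) ψ ∧
    Rep ζ ((2 - 2 * ((Nat.card τ : ℝ) - 1) / Λ) / ζ) ψ

/-- the bands of the selected arcs -/
def THRU : Prop := ∀ {τ : Type} {ζ : ℝ} (co : τ → Fin 2) (g : τ → Band E2) (y₀ y₁ : τ → E2)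
  (ψ : Fin 2 → ℝ → ℝ) (K : Fin 2 → ℝ), 0 < ζ → ζ ≤ 1 / 4 → (∀ i, 0 ≤ K i ∧ Rep ζ (K i) (ψ i)) →
  (∀ t, Opp ζ (co t) (g t) (y₀ t) (y₁ t) ∧ Car (co t) (ψ (co t)) (g t)) →
  (∀ t t', t ≠ t' → Disjoint (g t).B (g t').B) →
  ∃ s : τ → Band E2, (∀ t, (s t).On Q ∧ Ext (s t) (g t).half Sq ∧ Stub ζ (s t) (g t).half ∧
    IsArc (s t).W (y₀ t) (y₁ t) ∧ ∀ x ∈ Q, (s t).u x =
      (g t).half.u (pt (co t) (sh (ψ (co t)) (K (co t)) ζ (x (co t)) (x (co t).rev)) 1)) ∧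
    ∀ t t', t ≠ t' → Comm (s t) (s t') ∧ (co t = co t' → Disjoint (s t).B (s t').B) ∧
      ((s t).W ∩ (s t').W).Subsingleton

/-- cups in the thin collar -/
def CUPQ : Prop := ∀ {κ : Type} [Finite κ] {ζ : ℝ} (g : κ → Band E2) (p q : κ → E2), 0 < ζ →
  ζ ≤ 1 / 4 → (∀ k, (g k).On Sq ∧ (g k).W = {p k, q k} ∧
    IsArc {x ∈ Sq | 0 ≤ (g k).u x} (p k) (q k) ∧ IsArc {x ∈ Sq | (g k).u x ≤ 0} (p k) (q k)) →
  (∀ k l, k ≠ l → Disjoint (g k).B (g l).B ∧ ∃ x ∈ Sq, (g k).u x < 0 ∧ (g l).u x < 0) →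
  ∃ (a : κ → Band E2) (d : κ → ℝ),
    (∀ k, (a k).On Q ∧ Ext (a k) (g k).half Sq ∧ IsArc (a k).W (p k) (q k) ∧
      d k + 2 / (4 * ((Nat.card κ : ℝ) + 1)) ≤ 1 ∧ ∀ y ∈ Q, (a k).u y =
        cl (min (2 * (g k).u (pr y)) ((d k - dp ζ y) * (4 * ((Nat.card κ : ℝ) + 1))))) ∧
    (∀ k l, k ≠ l → Comm (a k) (a l) ∧ ((a k).W ∩ (a l).W).Subsingleton ∧
      (((∀ x ∈ (g l).B, (g k).u x = 1) ∨ ∀ x ∈ (g l).B, (g k).u x = -1) →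
        ((∀ x ∈ (g k).B, (g l).u x = 1) ∨ ∀ x ∈ (g k).B, (g l).u x = -1) →
        Disjoint (a k).B (a l).B)) ∧
    ∀ (k : κ) (s h : Band E2), s.On Q → h.On Sq → Stub ζ s h → Disjoint (g k).B h.B →
      Comm (a k) s ∧ Comm s (a k) ∧ ((∀ x ∈ h.B, (g k).u x = -1) → Disjoint (a k).B s.B) ∧
      ∀ y y', h.W = {y, y'} → (g k).u y = -1 → ((a k).W ∩ s.W).Subsingleton

/-- the Lipschitz bound for cups -/
def LIPC : Prop := ∀ {ζ d N : ℝ} {f : E2 → ℝ} {M M' : ℝ≥0}, 0 < ζ → ζ ≤ 1 / 4 → 0 < N →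
  d + 1 / N ≤ 1 → PwLip M f Sq → 5 * M ≤ M' → N / ζ ≤ M' →
  LipschitzOnWith M' (fun y => cl (min (f (pr y)) ((d - dp ζ y) * N))) Q

open Classical in
/-- counting the selected arcs -/
def COUNT : Prop := ∀ {L Λ : ℝ≥0} {κ : Type} [Fintype κ] (D : Dat L Λ κ) {g : κ → Band E2}
  {ζ : ℝ} (ε : κ → ℝ), Bdy D g → 0 < ζ → ζ ≤ 1 / 100 → 1 ≤ ζ * Λ → (∀ k, ε k = 1 ∨ ε k = -1) →
  Net (stair D.co ε fun k => (g k).u) Λ ζ →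
  (Nat.card {k // ¬ D.Sel ζ k} : ℝ) ≤ 40 * ζ * Λ ∧ ∀ i,
    Λ * (1 - 40 * ζ) ≤ (Nat.card {k // D.Sel ζ k ∧ D.co k = i} : ℝ) ∧
    2 * Λ * (1 - 80 * ζ) ≤ ∑ k with D.Sel ζ k ∧ D.co k = i,
      ε k * ((g k).u (pt i 1 1) - (g k).u (pt i (-1) 1))

/-- the energy on an interval -/
def EN1 : Prop := ∀ {p θ : ℝ} {Λ : ℝ≥0} {a b : ℝ → ℝ}, 1 ≤ p → 0 ≤ θ →
  LipschitzOnWith Λ (fun s => a s + b s) I → LipschitzOnWith Λ (fun s => a s - b s) I →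
  2 * Λ * (1 - θ) ≤ a 1 - a (-1) →
  En 1 p (fun s => ((a s - Λ * s, b s) : ℝ × ℝ)) I ≤ ENNReal.ofReal (θ * (2 * Λ) ^ p)

/-- the energy on the square -/
def EN2 : Prop := ∀ {p θ ζ : ℝ} {Λ M : ℝ≥0} {h : E2 → E2} (f : Fin 2 → ℝ → ℝ), 1 ≤ p → 0 ≤ θ →
  0 < ζ → ζ ≤ 1 / 4 → (∀ i, LipschitzOnWith M (fun x => h x i) Q) →
  (∀ i, LipschitzOnWith Λ (f i) I ∧ 2 * Λ * (1 - θ) ≤ f i 1 - f i (-1) ∧
    ∀ x : E2, ‖x‖ ≤ 1 - 2 * ζ → h x i = f i (x i)) →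
  En 2 p (fun x => h x - (Λ : ℝ) • x) Q ≤
    ENNReal.ofReal (4 * θ * (2 * Λ) ^ p + 16 * ζ * (M + Λ) ^ p)

/-- the sharp model in the square -/
def F2Q (c : ℝ≥0) : Prop := ∀ {L Λ L' : ℝ≥0} {κ : Type} [Fintype κ] (D : Dat L Λ κ) {ζ : ℝ},
  0 < ζ → ζ ≤ 1 / 100 → 1 ≤ ζ * Λ → c * (L + Nat.card κ + 1) ≤ ζ * L' →
  ∃ β, Out Q Sq D.A D.p D.q D.z L' β ∧ ∀ ε : κ → ℝ, (∀ k, ε k = 1 ∨ ε k = -1) →
    Net (stair D.co ε fun k => (β k).half.u) Λ ζ → ∀ p : ℝ, 1 ≤ p →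
    En 2 p (fun x => stair D.co ε (fun k => (β k).half.u) x - (Λ : ℝ) • x) Q ≤
      ENNReal.ofReal (ζ * (c * Λ) ^ p)

end P073.Fi
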