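import Vale.Agent.P073Y.Fi.Sk
import Vale.Agent.P073Y.Wf.Sk2

/-!
# Sharp wires and sharp faces in the two family engine: statements
-/

open Set Metric Topology Filter MeasureTheory
open scoped NNReal ENNReal

namespace P073.Fi

open P073.Bd (Band I cl Match Sgn Comm Ext PwLip)
open P073.Wb P073.Wf

/-- the energy of `h - Λ id` is small if both coordinates of `h` increase enough -/
def Shp (h : E2 → E2) (Λ ζ c : ℝ) : Prop := Net h Λ ζ → ∀ p : ℝ, 1 ≤ p →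
  En 2 p (fun x => h x - Λ • x) Q ≤ ENNReal.ofReal (ζ * (c * Λ) ^ p)

/-- the sharp model in a face with a chart -/
def FACEMS (c : ℝ≥0) : Prop := ∀ {E : Type} [NormedAddCommGroup E] [NormedSpace ℝ E]
  [FiniteDimensional ℝ E] {κ : Type} [Fintype κ] {C S : Set E} {M₁ M₂ L Λ L' : ℝ≥0} {ζ : ℝ}
  (χ : ConHomeo C Q) (A : κ → Set E) (p q : κ → E) (z : E → Band E) (co : κ → Fin 2),
  S ⊆ C → χ.toFun '' S = Sq → LipschitzOnWith M₁ χ.toFun C → LipschitzOnWith M₂ χ.invFun Q →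
  (∀ k, IsArc (A k) (p k) (q k) ∧ A k ⊆ C ∧ A k ∩ S = {p k, q k}) →
  (∀ k l, k ≠ l → Disjoint ({p k, q k} : Set E) {p l, q l}) →
  (∀ k, ∀ y ∈ ({p k, q k} : Set E), (z y).Ok ∧ (z y).In S ∧ (z y).W = {y} ∧
    (∀ x ∈ (z y).B, |χ.toFun x 0| < 1 ∨ |χ.toFun x 1| < 1) ∧ LipschitzOnWith L (z y).u (z y).B ∧
    LipschitzOnWith Λ (fun v => (z y).half.half.u (χ.invFun v)) (χ.toFun '' (z y).half.half.B)) →
  (∀ k l, ∀ y ∈ ({p k, q k} : Set E), ∀ y' ∈ ({p l, q l} : Set E), y ≠ y' →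
    Disjoint (z y).B (z y').B) →
  (∀ k l, k ≠ l → co k = co l → Disjoint (A k) (A l)) →
  0 < ζ → ζ ≤ 1 / 100 → 1 ≤ ζ * Λ → c * M₁ * (M₂ * L + Nat.card κ + 1) ≤ ζ * L' →
  ∃ β, Fi.Out C S A p q z L' β ∧ ∀ ε : κ → ℝ, (∀ k, ε k = 1 ∨ ε k = -1) →
    Shp (stair co ε fun k v => (β k).half.u (χ.invFun v)) Λ ζ c

/-- the coordinate of a wall in a face -/
def co₂ (X : Base) (i : X.ι) : Fin 2 := if X.fam i then 0 else 1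

/-- zones whose inner quarters are wide -/
def Wide (X : Base) (fro : Set X.K.ι) (P : Set E3) (z : X.K.ι → E3 → Band E3)
    (Λ : X.K.ι → ℝ≥0) : Prop := ∀ e, X.K.dim e = 1 → e ∉ fro → ∀ p ∈ P ∩ X.K.cell e,
  LipschitzOnWith (Λ e) (z e p).half.half.u (z e p).half.half.B

/-- the free wires are segments, long compared with the number of points on them -/
def SegS (X : Base) (fro : Set X.K.ι) (P : Set E3) (Λ : X.K.ι → ℝ≥0) (ζ : ℝ) : Prop :=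
  ∀ e, X.K.dim e = 1 → e ∉ fro → ∃ x y, X.K.cell e = segment ℝ x y ∧ X.K.bd e = {x, y} ∧
    8 * (((P ∩ X.K.cell e).ncard : ℕ) : ℝ) ≤ ζ * X.L e * dist x y ∧
    2 * (((P ∩ X.K.cell e).ncard : ℕ) : ℝ) * (1 + ζ) ≤ Λ e * dist x y

/-- a square face with its chart -/
structure Sqr (X : Base) (fro : Set X.K.ι) (P : Set E3) (Λ : X.K.ι → ℝ≥0) (c : ℝ≥0) (ζ : ℝ)
    (φ : X.K.ι) (χ : ConHomeo (X.K.cell φ) Q) : Prop where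
  dim : X.K.dim φ = 2
  notU : ¬ X.K.cell φ ⊆ X.U
  free : ∀ j, X.K.cell j ⊆ X.K.cell φ → 1 ≤ X.K.dim j → j ∉ fro
  bd : χ.toFun '' X.K.bd φ = Sq
  lip : LipschitzOnWith (X.M₁ φ) χ.toFun (X.K.cell φ)
  lip' : LipschitzOnWith (X.M₂ φ) χ.invFun Q
  corner : ∀ x ∈ X.K.cell φ, |χ.toFun x 0| = 1 → |χ.toFun x 1| = 1 → x ∈ X.K.skel 0
  wire : ∀ e, X.K.dim e = 1 → X.K.cell e ⊆ X.K.cell φ → ∃ ℓ : ℝ≥0,
    LipschitzOnWith ℓ χ.invFun (χ.toFun '' X.K.cell e) ∧ Λ e * ℓ ≤ Λ φ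
  big : 1 ≤ ζ * Λ φ
  L_ge : c * X.M₁ φ * (X.M₂ φ * X.L₀ φ + ((P ∩ X.K.cell φ).ncard : ℕ) + 1) ≤ ζ * X.L φ

/-- the sharp clause for the bands of the arcs in the face `φ` -/
def ShpF {X : Base} {c₁ : ℝ≥0} {Fr : Frame X c₁} {D : X.ι → Set E3} (T : Trace Fr D)
    (β : T.α → Band E3) (φ : X.K.ι) (χ : ConHomeo (X.K.cell φ) Q) (Λ ζ c : ℝ) : Prop :=
  (∀ a, T.face a = φ → (β a).On (X.K.cell φ)) ∧
  ∀ [Fintype {a // T.face a = φ}] (ε : {a // T.face a = φ} → ℝ), (∀ k, ε k = 1 ∨ ε k = -1) →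
    Shp (stair (fun k : {a // T.face a = φ} => co₂ X (T.lab k.1)) ε
      fun k v => (β k.1).half.u (χ.invFun v)) Λ ζ c

/-- the sharp clause for the walls -/
def ShpW (X : Base) (b : X.ι → Band E3) (φ : X.K.ι) (χ : ConHomeo (X.K.cell φ) Q)
    (Λ ζ c : ℝ) : Prop := ∀ [Fintype X.ι],
  Shp (stair (co₂ X) (fun _ => 1) fun i v => (b i).u (χ.invFun v)) Λ ζ c

/-- the sharp clause on a wire -/
def ShpE (X : Base) (b : X.ι → Band E3) (e : X.K.ι) (Λ : ℝ≥0) : Prop :=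
  ∀ (s : Finset X.ι) (ε : X.ι → ℝ), (∀ i, ε i = 1 ∨ ε i = -1) →
    PwLip Λ (fun x => ∑ i ∈ s, ε i * (b i).u x) (X.K.cell e)

/-- spreading the points on the free wires, with wide zones -/
def INIT1S : Prop := ∀ {X : Base} {c₀ : ℝ≥0} {lo hi : E3} (g : ConHomeo X.Ω (Icc lo hi))
  (t : X.ι → ℝ) {lam : ℝ≥0} {fro : Set X.K.ι} {w : X.ι → Band E3} {Λ : X.K.ι → ℝ≥0} {ζ : ℝ},
  0 < ζ → ζ ≤ 1 → RawF X c₀ g t lam fro w → SegS X fro (⋃ i, lvl g t i) Λ ζ →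
  ∃ (g' : ConHomeo X.Ω (Icc lo hi)) (Θ : ConHomeo X.Ω X.Ω),
    g' = Θ.symm.trans g ∧ EqOn Θ.toFun id (dom X fro) ∧
    (∀ c, Θ.toFun '' X.K.cell c = X.K.cell c) ∧ (∀ i, lvl g' t i = Θ.toFun '' lvl g t i) ∧
    RawF X c₀ g' t lam fro w ∧
    ∃ z, ZonesF X fro (⋃ i, lvl g' t i) z ∧ Wide X fro (⋃ i, lvl g' t i) z Λ

/-- the bands of the arcs, sharp in the faces of `𝓢` -/
def FACESS (c₀ c : ℝ≥0) : Prop := ∀ {X : Base} {c₁ : ℝ≥0} {Fr : Frame X c₁} (S : Soft Fr c₀)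
  {D : X.ι → Set E3} {Λ : X.K.ι → ℝ≥0} {ζ : ℝ} (𝓢 : Set X.K.ι)
  (χ : ∀ φ ∈ 𝓢, ConHomeo (X.K.cell φ) Q), 0 < ζ → ζ ≤ 1 / 100 →
  Wide X S.fro Fr.P (fun _ => Fr.z) Λ → (∀ φ (h : φ ∈ 𝓢), Sqr X S.fro Fr.P Λ c ζ φ (χ φ h)) →
  State Fr D → S.Inv D → ∀ T : Trace Fr D, ∃ β, Faces T β ∧ S.NatF T β ∧
    ∀ φ (h : φ ∈ 𝓢), ShpF T β φ (χ φ h) (Λ φ) ζ c

/-- from the arcs to the walls -/
def SUMF : Prop := ∀ {X : Base} {c₁ : ℝ≥0} {Fr : Frame X c₁} {D : X.ι → Set E3}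
  (T : Trace Fr D) (β : T.α → Band E3) (γ : T.κ → Band E3) (b : X.ι → Band E3), State Fr D →
  Faces T β → Cells T β γ → Walls T γ b →
  (∀ φ (χ : ConHomeo (X.K.cell φ) Q) (Λ ζ c : ℝ), X.K.dim φ = 2 → ShpF T β φ χ Λ ζ c →
    ShpW X b φ χ Λ ζ c) ∧
  ∀ (e : X.K.ι) (Λ : ℝ≥0), X.K.dim e = 1 → (∀ p ∈ Fr.P ∩ X.K.cell e,
    LipschitzOnWith Λ (Fr.z p).half.half.u (Fr.z p).half.half.B) → ShpE X b e Λ

/-- the two family engine with softly frozen cells, sharp wires and sharp faces -/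
def W2S (c₀ c : ℝ≥0) : Prop := ∀ (X : Base) {lo hi : E3} (g : ConHomeo X.Ω (Icc lo hi))
  (t : X.ι → ℝ) (lam : ℝ≥0) (fro : Set X.K.ι) (w : X.ι → Band E3) (z : X.K.ι → E3 → Band E3)
  (Λ : X.K.ι → ℝ≥0) (ζ : ℝ) (𝓢 : Set X.K.ι) (χ : ∀ φ ∈ 𝓢, ConHomeo (X.K.cell φ) Q),
  RawF X c₀ g t lam fro w → ZonesF X fro (⋃ i, lvl g t i) z → 0 < ζ → ζ ≤ 1 / 100 →
  Wide X fro (⋃ i, lvl g t i) z Λ →
  (∀ φ (h : φ ∈ 𝓢), Sqr X fro ((⋃ i, lvl g t i) ∩ X.K.skel 1) Λ c ζ φ (χ φ h)) →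
  ∃ (G : ConHomeo X.Ω (Icc lo hi)) (b : X.ι → Band E3), Wf.Out X g G t lam b ∧ Pat X (lvl G t) ∧
    (∀ i, Ext (b i) ((w i).cut X.U).half.half X.U) ∧
    (∀ i, ∀ c ∈ fro, ∀ x ∈ (b i).B ∩ X.K.cell c,
      ∃ j, x ∈ (w j).half.half.B ∧ MAt (w j).half.half (b i) x) ∧
    (∀ i j, i ≠ j → ∀ c ∈ fro, ¬ X.K.cell c ⊆ X.U →
      Disjoint ((b i).B ∩ (b j).B) (X.K.cell c)) ∧
    (∀ e, X.K.dim e = 1 → e ∉ fro → ShpE X b e (Λ e)) ∧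
    ∀ φ (h : φ ∈ 𝓢), ShpW X b φ (χ φ h) (Λ φ) ζ c

end P073.Fi
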