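import Vale.Agent.P073Y.Fi.Sk
import Vale.Agent.P073Y.Bd.Bas
import Vale.Agent.P073Y.Bd.Map

/-!
# Straight strips in the square
-/

open Set Metric

namespace P073.Fi.Th

open P073.Bd P073.A2

theorem pt_self (i : Fin 2) (s r : ℝ) : pt i s r i = s := if_pos rfl

theorem rev_ne (i : Fin 2) : i.rev ≠ i := by revert i; decide

theorem eq_rev {i j : Fin 2} (h : j ≠ i) : j = i.rev := by revert i j; decide

theorem pt_rev (i : Fin 2) (s r : ℝ) : pt i s r i.rev = r := if_neg (rev_ne i)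

theorem ext2 (i : Fin 2) {x y : E2} (h : x i = y i) (h' : x i.rev = y i.rev) : x = y := by
  funext j
  by_cases hj : j = i
  · rwa [hj]
  · rwa [eq_rev hj]

theorem norm_eq (i : Fin 2) (x : E2) : ‖x‖ = max |x i| |x i.rev| := by
  refine le_antisymm ((pi_norm_le_iff_of_nonneg (le_max_of_le_left (abs_nonneg _))).2 fun j => ?_)
    (max_le (norm_le_pi_norm x i) (norm_le_pi_norm x i.rev))
  by_cases hj : j = i
  · rw [hj]; exact le_max_left _ _
  · rw [eq_rev hj]; exact le_max_right _ _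

theorem mem_Q (i : Fin 2) {x : E2} : x ∈ Q ↔ |x i| ≤ 1 ∧ |x i.rev| ≤ 1 := by
  rw [mem_closedBall_zero_iff, norm_eq i, max_le_iff]

theorem top_mem {i : Fin 2} {s : ℝ} (hs : |s| ≤ 1) : pt i s 1 ∈ Sq := by
  rw [mem_sphere_zero_iff_norm, norm_eq i, pt_self, pt_rev, abs_one, max_eq_right hs]

theorem pl_pt {E : Type} [NormedAddCommGroup E] [NormedSpace ℝ E] {X : Set E} {a b : E → ℝ}
    (i : Fin 2) (ha : PLOn a X) (hb : PLOn b X) : PLOn (fun x => pt i (a x) (b x)) X := by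
  refine pl_pi (pl_set ha) fun j => ?_
  by_cases hj : j = i
  · exact pl_congr ha fun _ _ => if_pos hj
  · exact pl_congr hb fun _ _ => if_neg hj

theorem pl_co {E : Type} [NormedAddCommGroup E] [NormedSpace ℝ E] {X : Set E} {a : E → E2}
    (i : Fin 2) (ha : PLOn a X) : PLOn (fun x => a x i) X :=
  pl_comp_univ (g := fun q : E2 => q i) (pl_proj i conicalSet_univ) ha

/-- the strip over the upper part of `h` -/
def strip (i : Fin 2) (h : Band E2) : Band E2 where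
  B := {y ∈ Q | pt i (y i) 1 ∈ h.B}
  u := fun y => h.u (pt i (y i) 1)
  M := fun q => pt i (h.M (pt i (q.1 i) 1, q.2) i) (q.1 i.rev)

/-- a band on the boundary whose moves keep the sides -/
structure Sd (i : Fin 2) (h : Band E2) : Prop where
  on : h.On Sq
  side : ∀ x ∈ h.B, ∀ s ∈ I, h.M (x, s) i.rev = x i.rev

variable {i : Fin 2} {h h' : Band E2}

theorem top_M (H : Sd i h) {y : E2} (hy : y ∈ (strip i h).B) {s : ℝ} (hs : s ∈ I) :
    pt i ((strip i h).M (y, s) i) 1 = h.M (pt i (y i) 1, s) := by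
  refine ext2 i ?_ ?_
  · rw [pt_self]; exact pt_self _ _ _
  · rw [pt_rev, H.side _ hy.2 s hs, pt_rev]

theorem strip_on (H : Sd i h) : (strip i h).On Q := by
  have hQ : LocCone Q := locCone_closedBall_pi 2 1
  have ht : PLOn (fun y : E2 => pt i (y i) 1) Q :=
    pl_pt i (pl_proj i hQ.conicalSet) (pl_const 1 hQ.conicalSet)
  have hm : MapsTo (fun y : E2 => pt i (y i) 1) Q Sq := fun y hy => top_mem ((mem_Q i).1 hy).1
  have hc : IsCompact (strip i h).B ∧ LocCone (strip i h).B :=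
    Bas1.cpt_pre (isCompact_closedBall 0 1) hQ ht H.on.ok.cpt.isClosed H.on.ok.loc
  have hu : PLOn (strip i h).u Q := pl_comp (g := h.u) H.on.upl ht hm
  have hP : ConicalSet ((strip i h).B ×ˢ I) := conicalSet_prod hc.2.conicalSet Bas2.cs_I
  refine ⟨⟨hc.1, hc.2, pl_mono hu hc.2.conicalSet fun _ hy => hy.1, ?_,
    fun y hy => H.on.ok.urange _ hy.2, fun y hy s hs => ?_, fun y hy => ?_,
    fun y hy s hs t _ => ?_⟩, fun _ hy => hy.1, hu, fun y hy hn => ?_⟩
  · exact pl_pt i (pl_co i (Bas2.pl_M H.on.ok (pl_pt i (pl_co i (pl_fst hP)) (pl_const 1 hP))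
      (pl_snd hP) (fun q hq => hq.1.2) fun q hq => hq.2)) (pl_co i.rev (pl_fst hP))
  · obtain ⟨h1, h2⟩ := H.on.ok.Mmem _ hy.2 s hs
    refine ⟨⟨(mem_Q i).2 ⟨?_, ?_⟩, ?_⟩, ?_⟩
    · exact (congrArg abs (pt_self _ _ _)).trans_le
        ((mem_Q i).1 (sphere_subset_closedBall (H.on.sub h1))).1
    · exact (congrArg abs (pt_rev _ _ _)).trans_le ((mem_Q i).1 hy.1).2
    · rw [top_M H hy hs]; exact h1
    · exact (congrArg h.u (top_M H hy hs)).trans h2
  · refine ext2 i ((pt_self _ _ _).trans ?_) (pt_rev _ _ _)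
    exact (congrFun (H.on.ok.Mid _ hy.2) i).trans (pt_self _ _ _)
  · refine ext2 i ((pt_self _ _ _).trans (Eq.trans ?_ (pt_self _ _ _).symm))
      ((pt_rev _ _ _).trans (pt_rev _ _ _) |>.trans (pt_rev _ _ _).symm)
    show h.M (pt i ((strip i h).M (y, s) i) 1, t) i = h.M (pt i (y i) 1, t) i
    rw [top_M H hy hs, H.on.ok.MM _ hy.2 s hs t ‹_›]
  · exact H.on.out _ (hm hy) fun h1 => hn ⟨hy, h1⟩

theorem strip_comm (H : Sd i h) : Comm (strip i h) (strip i.rev h') := by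
  intro x hx s hs
  have e : (strip i h).M (x, s) i.rev = x i.rev := pt_rev _ _ _
  have hQ := (strip_on H).sub ((strip_on H).ok.Mmem x hx s hs).1
  refine ⟨⟨fun k => ⟨hx.1, e ▸ k.2⟩, fun k => ⟨hQ, e.symm ▸ k.2⟩⟩, fun _ => ⟨?_, fun t _ => ?_⟩⟩
  · show h'.u (pt i.rev ((strip i h).M (x, s) i.rev) 1) = h'.u (pt i.rev (x i.rev) 1)
    rw [e]
  · have e' : (strip i.rev h').M (x, t) i = x i := by
      have := pt_rev i.rev (h'.M (pt i.rev (x i.rev) 1, t) i.rev) (x i.rev.rev)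
      rw [Fin.rev_rev] at this
      show pt i.rev (h'.M (pt i.rev (x i.rev) 1, t) i.rev) (x i.rev.rev) i = x i
      rwa [Fin.rev_rev]
    show pt i.rev (h'.M (pt i.rev ((strip i h).M (x, s) i.rev) 1, t) i.rev)
      ((strip i h).M (x, s) i.rev.rev) =
      pt i (h.M (pt i ((strip i.rev h').M (x, t) i) 1, s) i) ((strip i.rev h').M (x, t) i.rev)
    rw [e, e']
    refine ext2 i.rev ?_ ?_
    · rw [pt_self, pt_rev]; exact (pt_self _ _ _).symm
    · rw [pt_rev, Fin.rev_rev, pt_self]; exact pt_self _ _ _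

theorem strip_disj (hd : Disjoint h.B h'.B) : Disjoint (strip i h).B (strip i h').B :=
  disjoint_left.2 fun _ h1 h2 => disjoint_left.1 hd h1.2 h2.2

theorem strip_W {y₀ y₁ : E2} (hW : h.W = {y₀, y₁}) (h0 : y₀ i.rev = -1) (h1 : y₁ i.rev = 1) :
    (strip i h).W = {y ∈ Q | y i = y₁ i} := by
  ext y
  constructor
  · rintro ⟨⟨k1, k2⟩, k3⟩
    rcases hW.subset (⟨k2, k3⟩ : pt i (y i) 1 ∈ h.W) with e | e
    · have := congrFun e i.rev
      rw [pt_rev, h0] at this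
      norm_num at this
    · exact ⟨k1, (pt_self _ _ _).symm.trans (congrFun e i)⟩
  · rintro ⟨k1, k2⟩
    have e : pt i (y i) 1 = y₁ := ext2 i ((pt_self _ _ _).trans k2) ((pt_rev _ _ _).trans h1.symm)
    have : pt i (y i) 1 ∈ h.W := hW.symm.subset (Or.inr e)
    exact ⟨⟨k1, this.1⟩, this.2⟩

theorem seg_eq (i : Fin 2) {c : ℝ} (hc : |c| ≤ 1) :
    {y ∈ Q | y i = c} = segment ℝ (pt i c (-1)) (pt i c 1) := by
  ext y
  constructor
  · rintro ⟨k1, k2⟩
    have k3 := abs_le.1 ((mem_Q i).1 k1).2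
    refine ⟨(1 - y i.rev) / 2, (1 + y i.rev) / 2, by linarith [k3.2], by linarith [k3.1],
      by ring, ext2 i ?_ ?_⟩
    · simp only [Pi.add_apply, Pi.smul_apply, smul_eq_mul, pt_self, k2]; ring
    · simp only [Pi.add_apply, Pi.smul_apply, smul_eq_mul, pt_rev]; ring
  · rintro ⟨a, b, ha, hb, hab, rfl⟩
    have e : (a • pt i c (-1) + b • pt i c 1) i = c := by
      simp only [Pi.add_apply, Pi.smul_apply, smul_eq_mul, pt_self]
      rw [← add_mul, hab, one_mul]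
    refine ⟨(mem_Q i).2 ⟨by rwa [e], ?_⟩, e⟩
    simp only [Pi.add_apply, Pi.smul_apply, smul_eq_mul, pt_rev]
    rw [abs_le]
    constructor <;> linarith

theorem seg_arc (i : Fin 2) {c : ℝ} (hc : |c| ≤ 1) :
    IsArc {y ∈ Q | y i = c} (pt i c (-1)) (pt i c 1) := by
  rw [seg_eq i hc]
  refine isArc_segment fun e => ?_
  have := congrFun e i.rev
  rw [pt_rev, pt_rev] at this
  norm_num at this

/-! ### the shear -/

variable {ψ : ℝ → ℝ} {K ζ s r : ℝ}

theorem sh_up (hr : -1 + 2 * ζ ≤ r) : sh ψ K ζ s r = s := by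
  rw [sh, max_eq_left (show 2 * ζ - (1 + r) ≤ 0 by linarith), mul_zero, sub_zero, add_zero]
  exact max_eq_left (min_le_right _ _)

theorem sh_fix (hK : 0 ≤ K) (hs : ψ s = s) : sh ψ K ζ s r = s := by
  have : 0 ≤ K * max 0 (2 * ζ - (1 + r)) := mul_nonneg hK (le_max_left _ _)
  rw [sh, hs, min_eq_left (by linarith), max_eq_right (by linarith)]

theorem sh_lo (hK : 0 ≤ K) (hs : |ψ s - s| ≤ K * ζ) (hr : r ≤ -1 + ζ) : sh ψ K ζ s r = ψ s := by
  have : K * ζ ≤ K * max 0 (2 * ζ - (1 + r)) :=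
    mul_le_mul_of_nonneg_left (le_max_of_le_right (by linarith)) hK
  obtain ⟨h1, h2⟩ := abs_le.1 hs
  rw [sh, min_eq_left (by linarith), max_eq_right (by linarith)]

theorem pr_Sq {y : E2} (hy : y ∈ Sq) : pr y = y := by
  funext j
  have h1 : ‖y‖ = 1 := mem_sphere_zero_iff_norm.1 hy
  have h2 := abs_le.1 ((mem_Q j).1 (sphere_subset_closedBall hy)).1
  rw [pr, h1, max_eq_left (by linarith [h2.2]), min_eq_left (by linarith [h2.1])]

theorem ext_of_stub {a : Band E2} (hζ : 0 ≤ ζ) (hs : h.B ⊆ Sq) (H : Stub ζ a h) : Ext a h Sq := by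
  have hc : ∀ y ∈ Sq, y ∈ Col ζ := fun y hy => by
    have h1 : ‖y‖ = 1 := mem_sphere_zero_iff_norm.1 hy
    exact ⟨by linarith, h1.le⟩
  have hm : ∀ y ∈ Sq, (y ∈ a.B ↔ y ∈ h.B) := fun y hy => by
    have := (H y (hc y hy)).1
    rwa [pr_Sq hy] at this
  refine ⟨Set.ext fun y => ⟨fun k => (hm y k.2).1 k.1, fun k => ⟨(hm y (hs k)).2 k, hs k⟩⟩,
    fun y hy => ?_, fun y hy t ht => ?_⟩
  · have := (H y (hc y hy)).2.1
    rwa [pr_Sq hy] at this
  · obtain ⟨k1, k2⟩ := (H y (hc y (hs hy))).2.2 ((hm y (hs hy)).2 hy) t ht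
    rw [mem_sphere_zero_iff_norm.1 (hs hy)] at k2
    rwa [pr_Sq (hs hy), pr_Sq (mem_sphere_zero_iff_norm.2 k2)] at k1

end P073.Fi.Th
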