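import Vale.Agent.P073Y.Fi.Sk2
import Vale.Agent.P073Y.Wb.Sat
import Vale.Agent.P073Y.Bd.Map
import Vale.Agent.P073Y.Bd.Bas

/-!
# From the bands of the arcs to the walls: sharp faces and sharp wires
-/

open Set Metric Topology Filter MeasureTheory
open scoped NNReal ENNReal

namespace P073.Fi

open P073.Bd (Band I cl Match Sgn Comm Ext PwLip bas)
open P073.Bd.Bas1 (half_ok half_W half_on)
open P073.Wb P073.Wb.Sat

namespace Sumf

/-- a connected part of a band has one sign -/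
theorem one_sign {a g : Band E3} (ha : a.Ok) (hW : IsPreconnected a.W) (hg : g.Ok)
    (h : Part a g) : ∃ ε : ℝ, (ε = 1 ∨ ε = -1) ∧ ∀ x ∈ a.B, g.u x = ε * a.u x := by
  have h1 : (1 : ℝ) ∈ I := right_mem_Icc.2 (by norm_num)
  have key : ∀ x ∈ a.B, (g.u (a.M (x, 1)) = 1 ∨ g.u (a.M (x, 1)) = -1) ∧
      g.u x = g.u (a.M (x, 1)) * a.u x := fun x hx => by
    obtain ⟨ε, hε, e1, e2⟩ := h.2 x hx (h.1 hx)
    rw [← e2 1 h1, (hg.Mmem x (h.1 hx) _ (Bd.Glue.smem hε h1)).2, mul_one]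
    exact ⟨hε, e1⟩
  have hc : ContinuousOn (fun x => g.u (a.M (x, 1))) a.B :=
    hg.upl.1.comp (ha.Mpl.1.comp (Continuous.prodMk_left (1 : ℝ)).continuousOn
      fun x hx => ⟨hx, h1⟩) fun x hx => h.1 (ha.Mmem x hx 1 h1).1
  have h2 := ((bas E3).pre ha hW).1.eq_one_or_eq_neg_one_of_sq_eq hc fun x hx => by
    rcases (key x hx).1 with e | e <;> simp [e]
  rcases h2 with e | e
  · exact ⟨1, Or.inl rfl, fun x hx => (key x hx).2.trans (congrArg (· * a.u x) (e hx))⟩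
  · exact ⟨-1, Or.inr rfl, fun x hx => (key x hx).2.trans (congrArg (· * a.u x) (e hx))⟩

theorem pt_mem (i : Fin 2) {s r : ℝ} (hs : s = 1 ∨ s = -1) (hr : r = 1 ∨ r = -1) :
    pt i s r ∈ Q := by
  refine mem_closedBall_zero_iff.2 ((pi_norm_le_iff_of_nonneg zero_le_one).2 fun j => ?_)
  unfold pt
  split_ifs
  · rcases hs with rfl | rfl <;> simp
  · rcases hr with rfl | rfl <;> simp

/-- the sharp clause does not see constants -/
theorem shp_const {h h' : E2 → E2} {C : E2} {Λ ζ c : ℝ} (e : ∀ v ∈ Q, h v = C + h' v)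
    (H : Shp h' Λ ζ c) : Shp h Λ ζ c := by
  intro hN p hp
  refine le_trans (le_of_eq ?_) (H (fun i r hr => ?_) p hp)
  · refine setLIntegral_congr_fun measurableSet_closedBall fun x hx => ?_
    refine congrArg (· ^ p) (iInf_congr fun r => iInf_congr fun _ => iSup_congr fun y =>
      iSup_congr fun hy => ?_)
    beta_reduce
    rw [e y hy.1, e x hx, add_sub_assoc, add_sub_assoc, edist_add_left]
  · have h1 := hN i r hr
    rwa [e _ (pt_mem i (Or.inl rfl) hr), e _ (pt_mem i (Or.inr rfl) hr), Pi.add_apply,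
      Pi.add_apply, add_sub_add_left_eq_sub] at h1

theorem sgn_int {ε t : ℝ} (hε : ε = 1 ∨ ε = -1) (ht : t = 1 ∨ t = -1) :
    ε * t ∈ AddSubgroup.zmultiples (1 : ℝ) := by
  have h1 := AddSubgroup.mem_zmultiples (1 : ℝ)
  rcases hε with rfl | rfl <;> rcases ht with rfl | rfl <;>
    simp only [mul_neg, neg_neg, mul_one, neg_mem_iff, h1]

variable {X : Base} {c₁ : ℝ≥0} {Fr : Frame X c₁} {D : X.ι → Set E3} {T : Trace Fr D}
  {β : T.α → Band E3} {γ : T.κ → Band E3} {b : X.ι → Band E3}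

open Classical in
/-- a wall in a face is a constant plus a signed sum over its arcs -/
theorem wall_sum (S : State Fr D) (F : Faces T β) (C : Cells T β γ) (W : Walls T γ b)
    {φ : X.K.ι} (hφ : X.K.dim φ = 2) (hpre : IsPreconnected (X.K.cell φ))
    (hon : ∀ a, T.face a = φ → (β a).On (X.K.cell φ))
    [Fintype {a // T.face a = φ}] {ε : T.α → ℝ} (hε : ∀ a, (ε a = 1 ∨ ε a = -1) ∧
      ∀ x ∈ (β a).half.B, (b (T.lab a)).u x = ε a * (β a).half.u x) (i : X.ι) :
    ∃ c : ℝ, ∀ x ∈ X.K.cell φ, (b i).u x =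
      c + ∑ k : {a // T.face a = φ} with T.lab k.1 = i, ε k.1 * (β k.1).half.u x := by
  set d : E3 → ℝ := fun x => (b i).u x -
    ∑ k : {a // T.face a = φ} with T.lab k.1 = i, ε k.1 * (β k.1).half.u x with hd
  have hc : ContinuousOn d (X.K.cell φ) :=
    ((W.on i).upl.1.mono (cell_sub φ)).sub (continuousOn_finsetSum _ fun k _ =>
      continuousOn_const.mul (half_on (hon k.1 k.2)).upl.1)
  have hout : ∀ x ∈ X.K.cell φ, ∀ k : {a // T.face a = φ}, x ∉ (β k.1).half.B →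
      ε k.1 * (β k.1).half.u x ∈ AddSubgroup.zmultiples (1 : ℝ) := fun x hx k hk =>
    sgn_int (hε k.1).1 ((half_on (hon k.1 k.2)).out x hx hk)
  have hz : ∀ x ∈ X.K.cell φ, d x ∈ AddSubgroup.zmultiples (1 : ℝ) := fun x hx => by
    by_cases hb : x ∈ (b i).B
    · obtain ⟨a, h1, rfl, h3⟩ := sat_face S F C W hb hφ hx
      simp only [hd]
      rw [← Finset.add_sum_erase _ _ (a := ⟨a, h1⟩) (by simp), (hε a).2 x h3,
        sub_add_cancel_left]
      refine neg_mem (sum_mem fun k hk => hout x hx k fun h4 => ?_)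
      obtain ⟨h5, h6⟩ := Finset.mem_erase.1 hk
      have h7 : k.1 ≠ a := fun e => h5 (Subtype.ext e)
      have h8 := k.2.trans h1.symm
      exact disjoint_left.1 (F.disj _ _ h7 h8 (T.disj _ _ h7 h8 (Finset.mem_filter.1 h6).2))
        h4.1 h3.1
    · refine sub_mem ?_ (sum_mem fun k hk => hout x hx k fun h4 => hb ?_)
      · rw [← one_mul ((b i).u x)]
        exact sgn_int (Or.inl rfl) ((W.on i).out x (cell_sub φ hx) hb)
      · rw [← (Finset.mem_filter.1 hk).2]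
        exact (part_arc C W k.1).1 h4
  have hcnt : (AddSubgroup.zmultiples (1 : ℝ) : Set ℝ).Countable := countable_range _
  have hs := hcnt.isTotallyDisconnected _ (image_subset_iff.2 hz) (hpre.image d hc)
  obtain ⟨x₀, hx₀⟩ := X.K.cell_nonempty φ
  exact ⟨d x₀, fun x hx =>
    sub_eq_iff_eq_add.1 (hs (mem_image_of_mem d hx) (mem_image_of_mem d hx₀))⟩

theorem face (S : State Fr D) (F : Faces T β) (C : Cells T β γ) (W : Walls T γ b)
    {φ : X.K.ι} {χ : ConHomeo (X.K.cell φ) Q} {Λ ζ c : ℝ} (hφ : X.K.dim φ = 2)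
    (h : ShpF T β φ χ Λ ζ c) : ShpW X b φ χ Λ ζ c := by
  classical
  intro _
  have := T.finα
  have := Fintype.ofFinite {a // T.face a = φ}
  choose ε hε using fun a => one_sign (half_ok (F.ok a).1)
    ((half_W _).symm ▸ (F.arc a).isConnected.2) (W.on _).ok (part_arc C W a)
  choose d hd using wall_sum S F C W hφ (χ.symm.image_eq ▸
    (convex_closedBall _ _).isPreconnected.image _ χ.cont_inv) h.1 hε
  refine shp_const (C := fun j => ∑ i with co₂ X i = j, d i) (fun v hv => funext fun j => ?_)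
    (h.2 (fun k => ε k.1) fun k => (hε k.1).1)
  simp only [stair, one_mul, Pi.add_apply, hd _ _ (χ.mapsTo_inv hv), Finset.sum_add_distrib]
  rw [Finset.sum_fiberwise_eq_sum_filter _ _ fun k : {a // T.face a = φ} => T.lab k.1]
  simp only [Finset.mem_filter, Finset.mem_univ, true_and]

theorem zone_mem {y x : E3} (hy : y ∈ Fr.P) (hx : x ∈ (Fr.z y).B) {e : X.K.ι}
    (hxe : x ∈ X.K.cell e) : y ∈ X.K.cell e := by
  obtain ⟨e', -, -, -, h1, h2, -⟩ := Fr.wire y hy
  have h3 : y ∈ (Fr.z y).W := h2.ge rfl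
  exact X.K.cell_subset_of_mem (h1 hx) hxe (h1 h3.1).1

theorem lip_sgn {f : E3 → ℝ} {Y : Set E3} {Λ : ℝ≥0} {ε : ℝ} (hε : ε = 1 ∨ ε = -1)
    (h : LipschitzOnWith Λ f Y) : LipschitzOnWith Λ (fun x => ε * f x) Y :=
  LipschitzOnWith.of_dist_le_mul fun x hx y hy => by
    rw [Real.dist_eq, ← mul_sub, Bd.Glue.sabs hε]
    exact h.dist_le_mul x hx y hy

theorem wire_lip (S : State Fr D) (F : Faces T β) (C : Cells T β γ) (W : Walls T γ b)
    {e : X.K.ι} {Λ : ℝ≥0} (he : X.K.dim e = 1) (h : ∀ p ∈ Fr.P ∩ X.K.cell e,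
      LipschitzOnWith Λ (Fr.z p).half.half.u (Fr.z p).half.half.B) (i : X.ι) {ε : ℝ}
    (hε : ε = 1 ∨ ε = -1) : PwLip Λ (fun x => ε * (b i).u x) (X.K.cell e) := by
  have hf : ((fun p => (Fr.z p).half.half.B) ''
      {p ∈ Fr.P ∩ X.K.cell e | Part (Fr.z p).half.half (b i)} ∪
      (fun t => X.K.cell e ∩ (b i).u ⁻¹' {t}) '' {1, -1}).Finite :=
    ((Fr.Pfin.subset fun _ hp => hp.1.1).image _).union ((toFinite _).image _)
  refine ⟨hf.toFinset, fun Y hY => ?_, fun x hx => ?_⟩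
  · rcases hf.mem_toFinset.1 hY with ⟨p, hp, rfl⟩ | ⟨t, -, rfl⟩
    · obtain ⟨-, -, h1, -, -, h2, -⟩ := Fr.wire p hp.1.1
      have h3 := half_ok (half_ok h1)
      obtain ⟨σ, hσ, h4⟩ := one_sign h3 (by
        rw [half_W, half_W, h2]
        exact isPreconnected_singleton) (W.on i).ok hp.2
      refine ⟨h3.cpt.isClosed, lip_sgn hε fun x hx y hy => ?_⟩
      rw [h4 x hx, h4 y hy]
      exact lip_sgn hσ (h p hp.1) hx hy
    · refine ⟨((W.on i).upl.1.mono (cell_sub e)).preimage_isClosed_of_isClosed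
        (X.K.isClosed_cell e) isClosed_singleton, fun x hx y hy => ?_⟩
      have h1 : (b i).u x = (b i).u y := hx.2.trans hy.2.symm
      simp only [h1, edist_self, zero_le]
  · simp only [mem_iUnion, hf.mem_toFinset, exists_prop]
    by_cases hb : x ∈ (b i).B
    · obtain ⟨a, y, rfl, hy, h1⟩ := sat_wire S F C W hb (X.K.cell_subset_skel he.le hx)
      exact ⟨_, Or.inl ⟨y, ⟨⟨hy.mem_P S, zone_mem (hy.mem_P S) h1.1.1 hx⟩,
        hy.part_zone F C W⟩, rfl⟩, h1⟩
    · exact ⟨_, Or.inr ⟨_, (W.on i).out x (cell_sub e hx) hb, rfl⟩, hx, rfl⟩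

theorem wire (S : State Fr D) (F : Faces T β) (C : Cells T β γ) (W : Walls T γ b)
    {e : X.K.ι} {Λ : ℝ≥0} (he : X.K.dim e = 1) (h : ∀ p ∈ Fr.P ∩ X.K.cell e,
      LipschitzOnWith Λ (Fr.z p).half.half.u (Fr.z p).half.half.B) : ShpE X b e Λ := by
  intro s ε hε
  refine Bd.Mp.pw_sum s (fun i => (b i).B ∩ X.K.cell e) (fun i x => ε i * (b i).u x)
    (X.K.isClosed_cell e) (fun i _ => ⟨continuousOn_const.mul
      ((W.on i).upl.1.mono (cell_sub e)), wire_lip S F C W he h i (hε i), fun x hx hb => ?_⟩)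
    fun i _ j _ hij => disjoint_left.2 fun x hi hj => ?_
  · rcases (W.on i).out x (cell_sub e hx) (fun h1 => hb ⟨h1, hx⟩) with h1 | h1 <;>
      rcases hε i with h2 | h2 <;> simp [h1, h2]
  · have hx := X.K.cell_subset_skel he.le hi.2
    obtain ⟨a, y, rfl, hy, h1⟩ := sat_wire S F C W hi.1 hx
    obtain ⟨a', y', rfl, hy', h2⟩ := sat_wire S F C W hj.1 hx
    obtain rfl : y = y' := by
      by_contra hne
      exact disjoint_left.1 (Fr.zdisj y (hy.mem_P S) y' (hy'.mem_P S) hne) h1.1.1 h2.1.1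
    exact disjoint_left.1 (S.wire_disj _ _ hij) ⟨hy.mem.1.1, hy'.mem.1.1⟩ hy.mem.1.2

end Sumf

theorem sumf : SUMF := fun _ _ _ _ S F C W =>
  ⟨fun _ _ _ _ _ hφ h => Sumf.face S F C W hφ h, fun _ _ he h => Sumf.wire S F C W he h⟩

end P073.Fi
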